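import Vale.Agent.P153.R2.KAPV.SLand
import Vale.Agent.P153.R2.FLDI.Bv2

/-!
P153, block KAPV: landing with powers, part 2: `L_landM` and `L_landP`.
-/

set_option autoImplicit false

namespace Vale.Agent.P153.R2.KAPV

open Filter Topology Set Metric MeasureTheory
open Vale.Agent.P153
open Vale.Agent.P153.Topo (Conn adj_symm)
open Vale.Agent.P153.R2.INTF (CA mem_CA CA_finite eta eta_mem eta_not eta_or Arcs)
open Vale.Agent.P153.R2.LOC (An Co Co_subset Co_cn NO TW multW_ne Dr exists_door ds mem_bx_iff)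
open Vale.Agent.P153.R2.PLAN (conn_Cl Cl_subset)
open Vale.Agent.P153.R2.OBSV (Ngh exists_ngh ExM exM_sub exM_cn rd rd_dist sw sw_bij)
open Vale.Agent.P153.R2.FLDI (nrd conn_nrd nrd_near mem_nrd_self dist_le_ds riem hv_Bx Bx bv_alg)
open Vale.Agent.P153.R2.Gp (Xu mass)
open Vale.Agent.P145.PT (TestOn bump bump_test bump_nonneg bump_zero bump_int Z0 Z0_pos)
open Vale.Agent.P153.F.Top (dp)



/-- No path of `{h ≠ 1}` from the ball to `Q`. -/
theorem block_ne (hS : LOC.S_land 2) : ∀ ε : ℝ, 0 < ε → ∃ t : ℤ, 1 ≤ t ∧ ∃ r₀ : ℤ, 1 ≤ r₀ ∧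
    ∀ (F P M : Set Pt) (v : Pt) (r R : ℤ) (x₀ p : Pt) (Q : Set Pt), Arcs F P M →
      Ngh F M v r R x₀ p → r₀ ≤ r → t * r ≤ R → Q ⊆ F → Disjoint Q (Co F x₀ (R - r) p) → Cn Q →
      Pr (CA F M) {h | ∃ x ∈ Cl (F ∩ R2.bx v r) {v}, ∃ y ∈ Q,
        Conn (F ∩ {z | h z ≠ 1}) x y} ≤ ε := by
  intro ε hε
  obtain ⟨t, ht, ρ₀, hρ₀, h⟩ := multW_ne 0 hS ε hε
  refine ⟨2 * t + 1, by omega, ρ₀, hρ₀, ?_⟩
  intro F P M v r R x₀ p Q hA hN hr hR hQF hQW hQ
  have hpv : p ∈ Cl (F ∩ R2.bx v r) {v} := ⟨v, rfl, hN.con⟩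
  have h1 := hN.pos
  have key := h 1 F F x₀ (2 * r) (R - r) p (eta M) (Cl (F ∩ R2.bx v r) {v}) Q (by decide)
    ⟨hA.fin, hA.cc, subset_rfl, OBSV.CA_nonempty F M, fun x hx _ => (Co_subset hx).1⟩
    (fun z _ => by rcases eta_or M z with h | h <;> rw [h] <;> norm_num)
    (fun z hz x hx hxz _ => eta_not fun hc => hN.co_neg hx z hc hxz)
    hN.x0 (by omega)
    (by nlinarith) ⟨hN.con.right_mem.1, x₀, hN.adj, hN.x0⟩ hpv
    (fun z hz => (Cl_subset hz).1) (fun z hz => hN.sub_bx (Cl_subset hz).2) ?_ hQF hQW hQ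
  · refine (Pr_mono fun g _ hg => ?_).trans key
    obtain ⟨x, hx, y, hy, hxy⟩ := hg
    exact ⟨x, hx, y, hy, hxy.mono subset_union_left⟩
  intro z hz
  obtain ⟨v', hv', hz⟩ := hz
  rw [mem_singleton_iff] at hv'
  subst hv'
  have hm : v' ∈ ({v'} : Set Pt) := rfl
  exact (conn_Cl hm hN.con).symm.trans (conn_Cl hm hz)

theorem pr_iUnion {α : Type*} (S : Set α) {m : ℕ} (E : Fin m → Set α) {e : ℝ}
    (hE : ∀ i, Pr S (E i) ≤ e) : Pr S (⋃ i, E i) ≤ m * e := by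
  induction m with
  | zero =>
    have : (⋃ i : Fin 0, E i) = ∅ := by simp
    rw [this]
    unfold Pr
    simp
  | succ m ih =>
    have h1 : (⋃ i, E i) = E 0 ∪ ⋃ i : Fin m, E i.succ := by
      ext x
      simp only [mem_iUnion, mem_union, Fin.exists_fin_succ]
    rw [h1]
    refine (Pr_union_le _ _ _).trans ?_
    have h2 := ih (fun i => E i.succ) fun i => hE _
    have h3 := hE 0
    push_cast
    linarith

/-- The clusters of `{h ≠ 1}` near the positive wall stay near it. -/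
theorem rch_le (hS : LOC.S_land 2) (m : ℕ) : ∀ ε : ℝ, 0 < ε → ∃ t : ℤ, 1 ≤ t ∧ ∃ r₀ : ℤ, 1 ≤ r₀ ∧
    ∀ (F P M : Set Pt) (v : Pt) (r R : ℤ) (Q : Fin m → Set Pt), Arcs F P M → v ∈ F →
      (∃ y, y ∉ F ∧ y ∈ R2.bx v r) → (∀ x ∈ Cl (F ∩ R2.bx v R) {v}, ∀ y ∈ M, ¬ Adj x y) →
      r₀ ≤ r → t * r ≤ R → (∀ i, Q i ⊆ F) → (∀ i, Disjoint (Q i) (R2.bx v R)) →
      (∀ i, Cn (Q i)) →
      Pr (CA F M) (Rch F M (Cl (F ∩ R2.bx v r) {v}) (⋃ i, Q i)) ≤ ε := by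
  intro ε hε
  obtain ⟨t, ht, r₀, hr₀, hb⟩ := block_ne hS (ε / (m + 1)) (by positivity)
  refine ⟨t + 3, by omega, r₀, hr₀, fun F P M v r R Q hA hv hy hneg hr hR hQF hQR hQc => ?_⟩
  obtain ⟨y, hyF, hyb⟩ := hy
  have h1r : 1 ≤ r := by omega
  obtain ⟨x₀, p, hN⟩ := exists_ngh (M := M) (R := R) hv hyF hyb (by nlinarith) hneg
  set W := Co F x₀ (R - r) p with hW
  set N := Cl (F ∩ R2.bx v r) {v} with hNd
  set E : Set Pt → Set Hg := fun Q => {h | ∃ x ∈ N, ∃ y ∈ Q, Conn (F ∩ {z | h z ≠ 1}) x y} with hE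
  have h1 : Pr (CA F M) (E (ExM F M W)) ≤ ε / (m + 1) :=
    hb F P M v r R x₀ p (ExM F M W) hA hN hr (by nlinarith) (fun z hz => (exM_sub hz).1)
      (Set.disjoint_left.2 fun z hz => (exM_sub hz).2) (exM_cn hA hN)
  have hWR : W ⊆ R2.bx v R := fun z hz => hN.bx_sub (Co_subset hz).2
  have h2 : ∀ i, Pr (CA F M) (E (Q i)) ≤ ε / (m + 1) := fun i =>
    hb F P M v r R x₀ p (Q i) hA hN hr (by nlinarith) (hQF i)
      ((hQR i).mono_right hWR) (hQc i)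
  have h3 : Pr (CA F M) (E (ExM F M W) ∪ ⋃ i, E (Q i)) ≤ ε := by
    refine (Pr_union_le _ _ _).trans ?_
    have h4 := pr_iUnion (CA F M) (fun i => E (Q i)) h2
    have h5 : (m : ℝ) * (ε / (m + 1)) + ε / (m + 1) = ε := by
      field_simp
    linarith
  refine (Pr_mono fun g hg hgr => ?_).trans h3
  obtain ⟨a, ha, y, hay, h4⟩ := hgr
  rcases h4 with h4 | ⟨b, hbM, hyb⟩
  · obtain ⟨i, hi⟩ := mem_iUnion.1 h4
    exact Or.inr (mem_iUnion.2 ⟨i, a, ha, y, hi, hay⟩)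
  · left
    have hyW : y ∉ W := fun hc => hN.co_neg hc b hbM hyb
    obtain ⟨d, hd, hyd⟩ := exists_door (V := F) (W := W) (S := F ∩ {z | g z ≠ 1})
      (fun z hz => hz.1) (hN.mem_co ha) hay hyW
    exact ⟨a, ha, y, ⟨y, b, d, hbM, hyb, hd, hyd, Conn.refl hyd.left_mem⟩, hay⟩

/-- The total weight tends to the integral. -/
theorem mass_lim {f : ℝ × ℝ → ℝ} (ht : TestOn univ f) {e : ℝ} (he : 0 < e) : ∃ δ₀ : ℝ, 0 < δ₀ ∧
    ∀ δ, 0 < δ → δ < δ₀ → |mass (F.SD.Wd δ f 0) - ∫ z, f z| < e := by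
  by_contra hcon
  push Not at hcon
  have h1 : ∀ n : ℕ, ∃ δ, 0 < δ ∧ δ < 1 / ((n : ℝ) + 1) ∧
      e ≤ |mass (F.SD.Wd δ f 0) - ∫ z, f z| := fun n => hcon _ (by positivity)
  choose d hd0 hd1 hd2 using h1
  have hlim : Tendsto d atTop (𝓝 0) :=
    squeeze_zero (fun i => (hd0 i).le) (fun i => (hd1 i).le)
      tendsto_one_div_add_atTop_nhds_zero_nat
  obtain ⟨R, hR⟩ := ht.2.1.isBounded.subset_ball (0 : ℝ × ℝ)
  have hRf : ∀ z, f z ≠ 0 → z ∈ Metric.ball (0 : ℝ × ℝ) R := fun z hz => hR (subset_tsupport _ hz)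
  have h2 := riem ht.1.continuous ht.2.1 hRf hd0 hlim
  have h3 : ∀ n, d n ^ 2 * ∑ v ∈ Bx (d n) R, F.Top.tl f (d n * v.1, d n * v.2) =
      mass (F.SD.Wd (d n) f 0) := by
    intro n
    have e1 := hf_eq (hd0 n) ht (fun _ => 1)
    have e2 : F.SD.Lf (d n) f (fun _ : Pt => (1 : ℤ)) = mass (F.SD.Wd (d n) f 0) := by
      show Xu _ _ = _
      unfold Xu mass Finsupp.sum
      refine Finset.sum_congr rfl fun v _ => ?_
      push_cast
      ring
    rw [← e2, ← e1]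
    unfold hf
    rw [hv_Bx (hd0 n) hRf]
    unfold F.Top.hB
    congr 1
    refine Finset.sum_congr rfl fun v _ => ?_
    push_cast
    ring
  simp_rw [h3] at h2
  obtain ⟨n, hn⟩ := ((Metric.tendsto_nhds.1 h2) e he).exists
  rw [Real.dist_eq] at hn
  exact absurd (hd2 n) (not_le.2 hn)

/-- The weights. -/
noncomputable abbrev wf (δ : ℝ) (f : ℝ × ℝ → ℝ) : Pt →₀ ℝ := F.SD.Wd δ f 0

theorem wd_eq {δ : ℝ} (hδ : 0 < δ) {f : ℝ × ℝ → ℝ} (ht : TestOn univ f) (v : Pt) :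
    F.SD.Wd δ f 0 v = √3 / 2 * δ ^ 2 * f (dp δ v) := by
  obtain ⟨Kc, hKc⟩ := F.SD.exists_csts ht.1 ht.2.1
  rw [F.SD.Wd_apply hKc hδ]
  congr 2
  rw [add_zero]
  unfold GFF.pos dp
  simp only [Prod.smul_mk, smul_eq_mul]
  ext <;> simp only <;> ring

/-- The fourth moments of the averages over Whitney balls. -/
def L_v4 : Prop := ∀ R₀ : ℝ, ∃ K : ℝ, 0 ≤ K ∧ ∀ (x : ℝ × ℝ) (s : ℝ), 0 < s →
  ∃ δ₀ : ℝ, 0 < δ₀ ∧ ∀ δ, δ < δ₀ → ∀ F P M : Set Pt, Adm R₀ δ F P M → WhitF δ F x s →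
    Ex (CA F M) (fun h => hf δ (bump s x) h ^ (2 * 2)) ≤ K

/-- A finite cover of a compact set. -/
theorem exists_cover {K : Set (ℝ × ℝ)} (hK : IsCompact K) {e : ℝ} (he : 0 < e) :
    ∃ (m : ℕ) (z : Fin m → ℝ × ℝ), (∀ i, z i ∈ K) ∧ K ⊆ ⋃ i, closedBall (z i) e := by
  obtain ⟨T, hTK, hT, hcov⟩ := hK.finite_cover_balls he
  set T' := hT.toFinset with hT'
  refine ⟨T'.card, fun i => (T'.equivFin.symm i : ℝ × ℝ), fun i => hTK ?_, fun x hx => ?_⟩
  · exact hT.mem_toFinset.1 (T'.equivFin.symm i).2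
  · obtain ⟨y, hy, hxy⟩ := mem_iUnion₂.1 (hcov hx)
    have hy' : y ∈ T' := by rwa [hT', Set.Finite.mem_toFinset]
    refine mem_iUnion.2 ⟨T'.equivFin ⟨y, hy'⟩, ?_⟩
    simp only [Equiv.symm_apply_apply]
    exact ball_subset_closedBall hxy

/-- **`L_landM`**. -/
theorem l_landM (hS : LOC.S_land 2) (hmb : L_mb) (hv4 : L_v4) : L_landM := by
  intro R₀ f hf k r η hr hη
  obtain ⟨m, z, hzs, hcov⟩ := exists_cover (K := tsupport f) hf.2.1 (e := r / 8) (by positivity)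
  obtain ⟨K4, hK4, hvb⟩ := hv4 R₀
  obtain ⟨C1, d1, hd1, hC1⟩ := hmb R₀ f hf (2 * k) r hr
  obtain ⟨C2, d2, hd2, hC2⟩ := hmb R₀ f hf k r hr
  obtain ⟨t, ht, r₀, hr₀, hb⟩ := rch_le hS m
    (η ^ 2 / (4 * ((8 * (K4 + 16) + |C1|) / 2 + 1))) (by positivity)
  have ht' : (1 : ℝ) ≤ t := by exact_mod_cast ht
  have hr₀' : (1 : ℝ) ≤ r₀ := by exact_mod_cast hr₀
  refine ⟨1 / (200 * t), by positivity, fun R hR x s hs hsR hdist => ?_⟩
  obtain ⟨d3, hd3, hvb⟩ := hvb x s hs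
  have hbt : TestOn univ (bump s x) := bump_test hs (subset_univ _)
  obtain ⟨d4, hd4, hm⟩ := mass_lim hbt (e := min 1 (η / (2 * (1 + |C2|)))) (by positivity)
  rw [bump_int hs] at hm
  have hsR' : 800 * s * t ≤ R := by
    have h1 : 1 / (200 * (t : ℝ)) * R * (200 * t) = R := by field_simp
    have h2 := mul_le_mul_of_nonneg_right hsR (show (0 : ℝ) ≤ 200 * t by positivity)
    rw [h1] at h2
    linarith
  have hsR2 : 800 * s ≤ R := by nlinarith
  refine ⟨min (min (min d1 d2) (min d3 d4)) (min (min (s / 40) (s / r₀)) (r / 16)),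
    by positivity, fun δ hδ' F P M hA hI hw hneg => ?_⟩
  have hδ := hA.dpos
  obtain ⟨ha, hb'⟩ := lt_min_iff.1 hδ'
  obtain ⟨ha1, ha2⟩ := lt_min_iff.1 ha
  obtain ⟨h1, h2⟩ := lt_min_iff.1 ha1
  obtain ⟨h3, h4⟩ := lt_min_iff.1 ha2
  obtain ⟨hb1, h7⟩ := lt_min_iff.1 hb'
  obtain ⟨h5, h6⟩ := lt_min_iff.1 hb1
  rw [lt_div_iff₀ (by linarith)] at h6
  obtain ⟨hw1, w, hwF, hwx⟩ := hw
  set v := rd δ x with hv
  set rL : ℤ := ⌈12 * (s / δ)⌉ with hrL
  set RL : ℤ := ⌊R / (16 * δ)⌋ with hRL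
  have hsd : 1 < s / δ := (one_lt_div hδ).2 (by linarith)
  have hrL1 : 12 * (s / δ) ≤ rL := Int.le_ceil _
  have hrL2 : (rL : ℝ) < 12 * (s / δ) + 1 := Int.ceil_lt_add_one _
  have hRL1 : (RL : ℝ) ≤ R / (16 * δ) := Int.floor_le _
  have hRL2 : R / (16 * δ) < RL + 1 := Int.lt_floor_add_one _
  have hdL : δ * (12 * (s / δ)) ≤ δ * rL := mul_le_mul_of_nonneg_left hrL1 hδ.le
  have e1 : δ * (12 * (s / δ)) = 12 * s := by field_simp
  rw [e1] at hdL
  have hbox : ∀ u : Pt, dist (dp δ u) x ≤ 5 * s → u ∈ R2.bx v rL := fun u hu =>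
    bx_of_dist hδ (t := 5 * s) (by linarith) hu
  have hvd : dist (dp δ v) x ≤ δ := rd_dist hδ x
  have hvF : v ∈ F := hw1 v (by linarith)
  have k1 : r₀ ≤ rL := by
    have h8 : (r₀ : ℝ) ≤ s / δ := (le_div_iff₀ hδ).2 (by linarith)
    have h9 : (r₀ : ℝ) ≤ rL := by linarith
    exact_mod_cast h9
  have k2 : t * rL ≤ RL := by
    have h8 : (t : ℝ) * rL < RL + 1 := by
      refine lt_of_le_of_lt ?_ hRL2
      rw [le_div_iff₀ (by positivity)]
      have h9 : (rL : ℝ) * δ ≤ 13 * s := by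
        have h10 : (rL : ℝ) * δ ≤ (12 * (s / δ) + 1) * δ :=
          mul_le_mul_of_nonneg_right hrL2.le hδ.le
        have h11 : (12 * (s / δ) + 1) * δ = 12 * s + δ := by field_simp
        rw [h11] at h10
        linarith
      calc (t : ℝ) * rL * (16 * δ) = 16 * t * (rL * δ) := by ring
        _ ≤ 16 * t * (13 * s) := mul_le_mul_of_nonneg_left h9 (by positivity)
        _ = 208 * s * t := by ring
        _ ≤ R := by nlinarith
    have h9 : t * rL < RL + 1 := by exact_mod_cast h8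
    omega
  -- the set near the support of `f`
  set Q : Fin m → Set Pt := fun i => nrd δ (closedBall (z i) (r / 8)) with hQ
  have hQF : ∀ i, Q i ⊆ F := by
    intro i u hu
    obtain ⟨e, he, h8⟩ := nrd_near hδ hu
    refine hI u ⟨z i, hzs i, ?_⟩
    have h9 := dist_triangle (dp δ u) e (z i)
    have h10 := mem_closedBall.1 he
    linarith
  have hQR : ∀ i, Disjoint (Q i) (R2.bx v RL) := by
    intro i
    rw [Set.disjoint_left]
    intro u hu hub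
    obtain ⟨e, he, h8⟩ := nrd_near hδ hu
    have h9 := dist_triangle (dp δ u) e (z i)
    have h10 := mem_closedBall.1 he
    rw [mem_bx_iff] at hub
    have h11 := dist_le_ds hδ hub
    have h12 : 3 / 2 * δ * (RL : ℝ) ≤ 3 / 32 * R := by
      have h13 : (RL : ℝ) * (16 * δ) ≤ R := by rwa [le_div_iff₀ (by positivity)] at hRL1
      linarith
    have h14 : r < 5 * s + dist (z i) x := by
      by_contra hc
      push Not at hc
      refine hwF (hI w ⟨z i, hzs i, ?_⟩)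
      have h15 := dist_triangle_right (dp δ w) (z i) x
      linarith
    have h16 := hdist (z i) (hzs i)
    have h17 := dist_triangle (dp δ u) (dp δ v) x
    have h18 := dist_triangle_left (z i) x (dp δ u)
    linarith
  have hQc : ∀ i, Cn (Q i) := fun i a ha b hb =>
    conn_nrd (convex_closedBall (z i) (r / 8)).isPreconnected ha hb
  have hPr := hb F P M v rL RL Q hA.arcs hvF ⟨w, hwF, hbox w hwx⟩ hneg k1 k2 hQF hQR hQc
  -- the ball
  have hball : nrd δ (closedBall x s) ⊆ F ∩ R2.bx v rL := by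
    intro u hu
    obtain ⟨e, he, h8⟩ := nrd_near hδ hu
    have h9 := dist_triangle (dp δ u) e x
    have h10 := mem_closedBall.1 he
    exact ⟨hw1 u (by linarith), hbox u (by linarith)⟩
  have hvB : v ∈ nrd δ (closedBall x s) := mem_nrd_self hδ (mem_closedBall.2 (by linarith))
  have hbb : ∀ u, wf δ (bump s x) u ≠ 0 → u ∈ F ∩ Cl (F ∩ R2.bx v rL) {v} := by
    intro u hu
    rw [wf, wd_eq hδ hbt] at hu
    have h8 : bump s x (dp δ u) ≠ 0 := right_ne_zero_of_mul hu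
    have h9 : dist (dp δ u) x ≤ s := by
      by_contra hc
      push Not at hc
      exact h8 (bump_zero hs hc)
    have h10 : u ∈ nrd δ (closedBall x s) := mem_nrd_self hδ (mem_closedBall.2 h9)
    exact ⟨(hball h10).1, v, rfl, (conn_nrd (convex_closedBall x s).isPreconnected hvB h10).mono
      hball⟩
  have hff : ∀ u, wf δ f u ≠ 0 → u ∈ ⋃ i, Q i := by
    intro u hu
    rw [wf, wd_eq hδ hf] at hu
    have h8 : f (dp δ u) ≠ 0 := right_ne_zero_of_mul hu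
    obtain ⟨i, hi⟩ := mem_iUnion.1 (hcov (subset_tsupport _ h8))
    exact mem_iUnion.2 ⟨i, mem_nrd_self hδ hi⟩
  have hbound := land_bound (CA_finite (M := M) hA.arcs.fin) hbb hff k
  have eX : ∀ h, KAPV.hf δ (bump s x) h = Xu (wf δ (bump s x)) h := fun h => hf_eq hδ hbt h
  have eY : ∀ h, KAPV.hf δ f h = Xu (wf δ f) h := fun h => hf_eq hδ hf h
  have g3 := hvb δ h3 F P M hA ⟨hw1, w, hwF, hwx⟩
  have g1 := hC1 δ h1 F P M hA hI
  have g2 := hC2 δ h2 F P M hA hI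
  have g4 := hm δ hδ h4
  simp only [eX, eY] at g1 g2 g3 ⊢
  have key := bv_alg (c := 1) (s := mass (wf δ (bump s x))) (CA_finite hA.arcs.fin)
    (OBSV.CA_nonempty F M) hη hK4
    (abs_nonneg C1) (abs_nonneg C2) (by norm_num) (lt_of_lt_of_le g4 (min_le_left _ _))
    (lt_of_lt_of_le g4 (min_le_right _ _)) hPr
    (X := fun h => Xu (wf δ (bump s x)) h) (Y := fun h => Xu (wf δ f) h) (j := k)
    (by simp only [one_mul]; exact hbound) g3 (g1.trans (le_abs_self _))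
    (g2.trans (le_abs_self _))
  exact key

theorem xu_sw {V P : Set Pt} {u : Pt →₀ ℝ} (hu : ∀ v, u v ≠ 0 → v ∈ V) (h : Hg) :
    Xu u (sw V P h) = - Xu u h := by
  unfold Xu Finsupp.sum
  rw [← Finset.sum_neg_distrib]
  refine Finset.sum_congr rfl fun v hv => ?_
  have hvV := hu v (Finsupp.mem_support_iff.1 hv)
  have e : sw V P h v = - h v := by
    unfold sw
    rw [if_pos hvV]
  show u v * (sw V P h v : ℝ) = -(u v * (h v : ℝ))
  rw [e]
  push_cast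
  ring

/-- **`L_landP`**, by the change of sign. -/
theorem l_landP (hM : L_landM) : L_landP := by
  intro R₀ f hf k r η hr hη
  obtain ⟨c, hc, h⟩ := hM R₀ f hf k r η hr hη
  refine ⟨c, hc, fun R hR x s hs hsR hd => ?_⟩
  obtain ⟨δ₀, hδ₀, h⟩ := h R hR x s hs hsR hd
  refine ⟨δ₀, hδ₀, fun δ hδ F P M hA hI hw hneg => ?_⟩
  have hd := hA.dpos
  have hbt : TestOn univ (bump s x) := bump_test hs (subset_univ _)
  have key := h δ hδ F M P ⟨hd, hA.arcs.symm, hA.bF⟩ hI hw hneg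
  have hbb : ∀ u, wf δ (bump s x) u ≠ 0 → u ∈ F := by
    intro u hu
    rw [wf, wd_eq hd hbt] at hu
    have h8 : bump s x (dp δ u) ≠ 0 := right_ne_zero_of_mul hu
    refine hw.1 u ?_
    by_contra hc
    push Not at hc
    exact h8 (bump_zero hs (by linarith))
  have hff : ∀ u, wf δ f u ≠ 0 → u ∈ F := by
    intro u hu
    rw [wf, wd_eq hd hf] at hu
    have h8 : f (dp δ u) ≠ 0 := right_ne_zero_of_mul hu
    exact hI u ⟨dp δ u, subset_tsupport _ h8, by rw [dist_self]; exact hr.le⟩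
  have eX : ∀ h, KAPV.hf δ (bump s x) h = Xu (wf δ (bump s x)) h := fun h => hf_eq hd hbt h
  have eY : ∀ h, KAPV.hf δ f h = Xu (wf δ f) h := fun h => hf_eq hd hf h
  simp only [eX, eY] at key ⊢
  rw [Ex_bij _ (sw_bij hA.arcs)] at key
  simp only [xu_sw hbb, xu_sw hff] at key
  have e : (fun h => (-Xu (wf δ (bump s x)) h - 1) * (-Xu (wf δ f) h) ^ k) = fun h =>
      (-1) ^ (k + 1) * ((Xu (wf δ (bump s x)) h + 1) * Xu (wf δ f) h ^ k) := by
    funext h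
    rw [neg_pow (Xu (wf δ f) h)]
    ring
  rw [e, Ex_const_mul, abs_mul, abs_pow, abs_neg, abs_one, one_pow, one_mul] at key
  exact key

/-- The fourth moments over Whitney balls. -/
theorem l_v4 {Q : Measure (A.Om)} {κ : ℝ} (hQ : A.IsQ Q) (hP : GFF.Plane (Q.map A.rc))
    (hS : GFF.SpecOut (Q.map A.rc) κ) (hC : GFF.RowCLT (Q.map A.rc) κ) (hκ : 0 < κ)
    (hR : F.X.S_rsw (Q.map A.rc)) (hMom : F.X.S_mom (Q.map A.rc))
    (hE : F.X.S_emom (Q.map A.rc)) : L_v4 := fun R₀ =>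
  l_vbk hQ hP hS hC hκ hR hMom hE 2 R₀

end Vale.Agent.P153.R2.KAPV
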