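import Vale.Agent.P153.R2.KAPV.Law
import Vale.Agent.P153.R2.GAPS.CMom
import Vale.Agent.P153.R2.SDAR.Mom
import Vale.Agent.P153.R2.FLDI.Bd

/-!
P153, block KAPV: moments of the smeared heights in arc domains, uniformly in the domain.
-/

set_option autoImplicit false

namespace Vale.Agent.P153.R2.KAPV

open Filter Topology Set Metric MeasureTheory
open Vale.Agent.P145.PT Vale.Agent.P153 Vale.Agent.P153.F.Top
open Vale.Agent.P153.F (Pt Hg)
open Vale.Agent.P153.F.X (S_mom S_emom S_rsw S_loc S_conf vm)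
open Vale.Agent.P153.R2.INTF (PP Arcs CA eta eta_or)
open Vale.Agent.P153.R2.OBSV (rd)

theorem hf_eq {δ : ℝ} (hδ : 0 < δ) {f : ℝ × ℝ → ℝ} (ht : TestOn univ f) (h : Hg) :
    hf δ f h = F.SD.Lf δ f h := F.X.Sdx.hv_vm hδ ht.1 ht.2.1 h

/-- All moments are bounded, uniformly in the domain. -/
theorem l_mb {P : Measure (Pt → ℤ)} (hP : GFF.Plane P) (hMom : S_mom P) (hE : S_emom P)
    (hR : S_rsw P) (hL : S_loc) (hF : S_conf) : L_mb := by
  intro R₀ f ht k r hr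
  obtain ⟨d, C, hd, hC, hm⟩ := Gp.closed_mom hP hMom hE hR hL hF ht.1 ht.2.1
    (Rb := |R₀| + 1) (by positivity) k 0
  refine ⟨C, d, hd, fun δ hδ W P M hA hI => ?_⟩
  have key := hm δ hA.dpos hδ.le W (eta M) (fun x hx => ?_) (fun x hx => ?_) ?_ ?_ ?_
  · simp only [hf_eq hA.dpos ht]
    exact key
  · rw [mem_ball_zero_iff]
    have := hA.bF x hx
    have := le_abs_self R₀
    linarith
  · refine hI x ⟨dp δ x, subset_tsupport _ hx, ?_⟩
    rw [dist_self]; exact hr.le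
  · exact OBSV.CA_nonempty W M
  · intro x _
    rcases eta_or M x with h | h <;> rw [h] <;> norm_num
  · intro x y _ _ _
    rcases eta_or M x with h | h <;> rcases eta_or M y with h' | h' <;> rw [h, h'] <;> norm_num

/-- A smooth function above `|f|`, with almost the same norm. -/
theorem exists_major {f : ℝ × ℝ → ℝ} (hf : TestOn univ f) {r ε : ℝ} (hr : 0 < r) (hε : 0 < ε) :
    ∃ g : ℝ × ℝ → ℝ, TestOn (thickening r (tsupport f)) g ∧ (∀ z, |f z| ≤ g z) ∧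
      ∫ z, g z ^ 2 ≤ (∫ z, f z ^ 2) + ε := by
  have hK : IsCompact (tsupport f) := hf.2.1
  obtain ⟨χ, hχ, hχ0, hχ1⟩ := exists_one (D := thickening r (tsupport f)) isOpen_thickening
    hK.isBounded.thickening hK (self_subset_thickening hr _)
  have hI0 : 0 ≤ ∫ z, χ z ^ 2 := integral_nonneg fun z => sq_nonneg _
  set e : ℝ := Real.sqrt (ε / ((∫ z, χ z ^ 2) + 1)) with he
  have hq : 0 < ε / ((∫ z, χ z ^ 2) + 1) := by positivity
  have he0 : 0 < e := Real.sqrt_pos.2 hq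
  have he2 : e ^ 2 = ε / ((∫ z, χ z ^ 2) + 1) := Real.sq_sqrt hq.le
  have hpos : ∀ z, 0 < f z ^ 2 + e ^ 2 := fun z => by positivity
  refine ⟨fun z => χ z * Real.sqrt (f z ^ 2 + e ^ 2), ⟨?_, hχ.2.1.mul_right,
    (tsupport_mul_subset_left).trans hχ.2.2⟩, fun z => ?_, ?_⟩
  · refine hχ.1.mul ?_
    rw [contDiff_iff_contDiffAt]
    intro z
    refine ContDiffAt.sqrt ?_ (hpos z).ne'
    exact ((hf.1.pow 2).add contDiff_const).contDiffAt
  · by_cases hz : z ∈ tsupport f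
    · simp only [hχ1 z hz, one_mul]
      rw [← Real.sqrt_sq_eq_abs]
      exact Real.sqrt_le_sqrt (by linarith [sq_nonneg e])
    · rw [image_eq_zero_of_notMem_tsupport hz, abs_zero]
      exact mul_nonneg (hχ0 z) (Real.sqrt_nonneg _)
  · have e1 : ∀ z, (χ z * Real.sqrt (f z ^ 2 + e ^ 2)) ^ 2 = f z ^ 2 + e ^ 2 * χ z ^ 2 := by
      intro z
      rw [mul_pow, Real.sq_sqrt (hpos z).le]
      by_cases hz : z ∈ tsupport f
      · rw [hχ1 z hz]; ring
      · rw [image_eq_zero_of_notMem_tsupport hz]; ring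
    simp_rw [e1]
    have hχ' : TestOn univ χ := ⟨hχ.1, hχ.2.1, subset_univ _⟩
    rw [integral_add hf.intSq (hχ'.intSq.const_mul _), integral_const_mul, he2]
    have : ε / ((∫ z, χ z ^ 2) + 1) * ∫ z, χ z ^ 2 ≤ ε := by
      rw [div_mul_eq_mul_div, div_le_iff₀ (by positivity)]
      nlinarith
    linarith

/-- The bound for the second moments, nonnegative test functions. -/
theorem l2_nn (hl2 : ∀ δ : ℕ → ℝ, (∀ n, 0 < δ n) → Tendsto δ atTop (𝓝 0) → S_l2 δ) {R : ℝ}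
    (hR : 0 < R) : ∃ C : ℝ, 0 ≤ C ∧ ∀ f : ℝ × ℝ → ℝ, TestOn (Metric.ball 0 R) f →
      (∀ z, 0 ≤ f z) → ∀ ε : ℝ, 0 < ε → ∃ δ₀ : ℝ, 0 < δ₀ ∧ ∀ δ, 0 < δ → δ < δ₀ →
      ∀ (V : Set Pt) (η : Hg), (∀ x ∈ V, dp δ x ∈ Metric.ball (0 : ℝ × ℝ) R) →
      (∀ x, η x = 1 ∨ η x = -1) → (∀ x, f (dp δ x) ≠ 0 → x ∈ V) →
      Ex (Cfg V (exa V η)) (fun h => F.SD.Lf δ f h ^ 2) ≤
        C * ((∫ z, f z ^ 2) + (∫ z, f z) ^ 2) + ε := by
  by_contra hcon
  push Not at hcon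
  have h1 : ∀ m : ℕ, ∃ f : ℝ × ℝ → ℝ, TestOn (Metric.ball 0 R) f ∧ (∀ z, 0 ≤ f z) ∧
      ∃ ε : ℝ, 0 < ε ∧ ∀ δ₀ : ℝ, 0 < δ₀ → ∃ δ, 0 < δ ∧ δ < δ₀ ∧ ∃ (V : Set Pt) (η : Hg),
      (∀ x ∈ V, dp δ x ∈ Metric.ball (0 : ℝ × ℝ) R) ∧ (∀ x, η x = 1 ∨ η x = -1) ∧
      (∀ x, f (dp δ x) ≠ 0 → x ∈ V) ∧
      (m : ℝ) * ((∫ z, f z ^ 2) + (∫ z, f z) ^ 2) + ε <
        Ex (Cfg V (exa V η)) (fun h => F.SD.Lf δ f h ^ 2) := fun m => by
    obtain ⟨f, h1, h2, ε, h3, h4⟩ := hcon m (Nat.cast_nonneg m)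
    exact ⟨f, h1, h2, ε, h3, h4⟩
  choose f hf hf0 ε hε hD using h1
  have h2 : ∀ i : ℕ, ∃ δ, 0 < δ ∧ δ < 1 / ((i : ℝ) + 1) ∧ ∃ (V : Set Pt) (η : Hg),
      (∀ x ∈ V, dp δ x ∈ Metric.ball (0 : ℝ × ℝ) R) ∧ (∀ x, η x = 1 ∨ η x = -1) ∧
      (∀ x, f (Nat.unpair i).1 (dp δ x) ≠ 0 → x ∈ V) ∧
      ((Nat.unpair i).1 : ℝ) * ((∫ z, f (Nat.unpair i).1 z ^ 2) +
        (∫ z, f (Nat.unpair i).1 z) ^ 2) + ε (Nat.unpair i).1 <
        Ex (Cfg V (exa V η)) (fun h => F.SD.Lf δ (f (Nat.unpair i).1) h ^ 2) := fun i =>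
    hD (Nat.unpair i).1 _ (by positivity)
  choose d hd0 hd1 V η hV hη hfV hlt using h2
  have hlim : Tendsto d atTop (𝓝 0) :=
    squeeze_zero (fun i => (hd0 i).le) (fun i => (hd1 i).le)
      tendsto_one_div_add_atTop_nhds_zero_nat
  obtain ⟨C, hC, hb⟩ := SDAR.l2_bd hd0 hlim (hl2 d hd0 hlim) hR
  obtain ⟨m, hm⟩ := exists_nat_ge C
  have hev := hb (f m) (hf m) (hf0 m) (ε m) (hε m)
  obtain ⟨N, hN⟩ := eventually_atTop.1 hev
  have hi := hN (Nat.pair m N) (Nat.right_le_pair m N) (V (Nat.pair m N)) (η (Nat.pair m N))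
    (hV _) (hη _)
  have e1 : (Nat.unpair (Nat.pair m N)).1 = m := by rw [Nat.unpair_pair]
  have h3 := hfV (Nat.pair m N)
  have h4 := hlt (Nat.pair m N)
  rw [e1] at h3 h4
  have h5 := hi h3
  have h6 : 0 ≤ (∫ z, f m z ^ 2) + (∫ z, f m z) ^ 2 :=
    add_nonneg (integral_nonneg fun z => sq_nonneg _) (sq_nonneg _)
  have h7 := mul_le_mul_of_nonneg_right hm h6
  linarith

/-- **The `L²` bound**, uniformly in the domain. -/
theorem l_l2 (hl2 : ∀ δ : ℕ → ℝ, (∀ n, 0 < δ n) → Tendsto δ atTop (𝓝 0) → S_l2 δ) : L_l2 := by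
  intro R₀
  set R : ℝ := |R₀| + 2 with hR
  have hR0 : 0 < R := by positivity
  obtain ⟨C, hC, hb⟩ := l2_nn hl2 hR0
  obtain ⟨C1, hC1, h1⟩ := FLDI.l1_le_sq (D := Metric.ball (0 : ℝ × ℝ) R) isBounded_ball
  refine ⟨10 * (C * (1 + C1)), by positivity, fun f ht r ε hr hε => ?_⟩
  set r' : ℝ := min r (1 / 2) with hr'
  have hr0 : 0 < r' := lt_min hr (by norm_num)
  by_cases hsub : tsupport f ⊆ Metric.ball (0 : ℝ × ℝ) (|R₀| + 1)
  · -- the majorant
    obtain ⟨g, hg, hfg, hg2⟩ := exists_major ht hr0 (ε := ε / (24 * (C * (1 + C1)) + 1) / 2)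
      (by positivity)
    have hth : thickening r' (tsupport f) ⊆ Metric.ball (0 : ℝ × ℝ) R := by
      intro z hz
      rw [mem_thickening_iff] at hz
      obtain ⟨w, hw, hzw⟩ := hz
      have h2 := hsub hw
      rw [mem_ball] at h2 ⊢
      have h3 : r' ≤ 1 / 2 := min_le_right _ _
      linarith [dist_triangle z w 0]
    have hgR : TestOn (Metric.ball (0 : ℝ × ℝ) R) g := ⟨hg.1, hg.2.1, hg.2.2.trans hth⟩
    have hfth : tsupport f ⊆ thickening r' (tsupport f) := self_subset_thickening hr0 _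
    have hfR : TestOn (Metric.ball (0 : ℝ × ℝ) R) f := ⟨ht.1, ht.2.1, hfth.trans hth⟩
    have hgu : TestOn univ g := ⟨hg.1, hg.2.1, subset_univ _⟩
    set k : ℝ × ℝ → ℝ := fun z => g z - f z with hk
    have hkR : TestOn (Metric.ball (0 : ℝ × ℝ) R) k :=
      ⟨hgR.1.sub hfR.1, hgR.2.1.sub hfR.2.1, (tsupport_sub g f).trans
        (union_subset hgR.2.2 hfR.2.2)⟩
    have hku : TestOn univ k := ⟨hkR.1, hkR.2.1, subset_univ _⟩
    have hkth : tsupport k ⊆ thickening r' (tsupport f) :=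
      (tsupport_sub g f).trans (union_subset hg.2.2 hfth)
    have hg0 : ∀ z, 0 ≤ g z := fun z => (abs_nonneg _).trans (hfg z)
    have hk0 : ∀ z, 0 ≤ k z := fun z => sub_nonneg.2 ((le_abs_self _).trans (hfg z))
    obtain ⟨δ₁, hδ₁, b1⟩ := hb g hgR hg0 (ε / 8) (by positivity)
    obtain ⟨δ₂, hδ₂, b2⟩ := hb k hkR hk0 (ε / 8) (by positivity)
    refine ⟨min δ₁ δ₂, lt_min hδ₁ hδ₂, fun δ hδ W P M hA hI => ?_⟩
    have hd := hA.dpos
    have hV : ∀ x ∈ W, dp δ x ∈ Metric.ball (0 : ℝ × ℝ) R := fun x hx => by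
      rw [mem_ball_zero_iff]
      have := hA.bF x hx
      have := le_abs_self R₀
      linarith
    have hin : ∀ u : ℝ × ℝ → ℝ, tsupport u ⊆ thickening r' (tsupport f) →
        ∀ x, u (dp δ x) ≠ 0 → x ∈ W := by
      intro u hu x hx
      have h2 := hu (subset_tsupport _ hx)
      rw [mem_thickening_iff] at h2
      obtain ⟨z, hz, hxz⟩ := h2
      exact hI x ⟨z, hz, (hxz.trans_le (min_le_left _ _)).le⟩
    have c1 := b1 δ hd (hδ.trans_le (min_le_left _ _)) W (eta M) hV (eta_or M) (hin g hg.2.2)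
    have c2 := b2 δ hd (hδ.trans_le (min_le_right _ _)) W (eta M) hV (eta_or M) (hin k hkth)
    -- the norms
    have a1 := h1 g hgR
    have a2 := h1 k hkR
    have e1 : ∀ z, |g z| = g z := fun z => abs_of_nonneg (hg0 z)
    have e2 : ∀ z, |k z| = k z := fun z => abs_of_nonneg (hk0 z)
    simp only [e1] at a1
    simp only [e2] at a2
    have a3 : ∫ z, k z ^ 2 ≤ 2 * (∫ z, g z ^ 2) + 2 * ∫ z, f z ^ 2 := by
      rw [← integral_const_mul, ← integral_const_mul, ← integral_add (hgu.intSq.const_mul _)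
        (ht.intSq.const_mul _)]
      refine integral_mono hku.intSq ((hgu.intSq.const_mul _).add (ht.intSq.const_mul _))
        fun z => ?_
      simp only [hk]
      nlinarith [sq_nonneg (g z + f z)]
    have hsq : ∀ h : Hg, hf δ f h ^ 2 ≤ 2 * F.SD.Lf δ g h ^ 2 + 2 * F.SD.Lf δ k h ^ 2 := by
      intro h
      have e3 : hf δ f h = hf δ g h - hf δ k h := by
        unfold hf
        rw [FLDI.hv_Bx hd (R := R) fun z hz => hfR.2.2 (subset_tsupport _ hz),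
          FLDI.hv_Bx hd (R := R) fun z hz => hgR.2.2 (subset_tsupport _ hz),
          FLDI.hv_Bx hd (R := R) fun z hz => hkR.2.2 (subset_tsupport _ hz)]
        unfold hB
        rw [← mul_sub, ← Finset.sum_sub_distrib]
        congr 1
        refine Finset.sum_congr rfl fun v _ => ?_
        rw [← mul_sub]
        congr 1
        unfold tl
        simp only [hk]
        ring
      rw [e3, hf_eq hd hgu, hf_eq hd hku]
      nlinarith [sq_nonneg (F.SD.Lf δ g h + F.SD.Lf δ k h)]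
    have c3 : Ex (CA W M) (fun h => hf δ f h ^ 2) ≤
        2 * Ex (CA W M) (fun h => F.SD.Lf δ g h ^ 2) +
          2 * Ex (CA W M) (fun h => F.SD.Lf δ k h ^ 2) := by
      rw [← Ex_const_mul, ← Ex_const_mul, ← Ex_add]
      exact Ex_mono fun h _ => hsq h
    have c1' : Ex (CA W M) (fun h => F.SD.Lf δ g h ^ 2) ≤
        C * ((∫ z, g z ^ 2) + (∫ z, g z) ^ 2) + ε / 8 := c1
    have c2' : Ex (CA W M) (fun h => F.SD.Lf δ k h ^ 2) ≤
        C * ((∫ z, k z ^ 2) + (∫ z, k z) ^ 2) + ε / 8 := c2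
    set G := ∫ z, g z ^ 2 with hG
    set K := ∫ z, k z ^ 2 with hK
    set I := ∫ z, f z ^ 2 with hIf
    have hI0 : 0 ≤ I := integral_nonneg fun z => sq_nonneg _
    have d1 : C * (G + (∫ z, g z) ^ 2) ≤ C * (1 + C1) * G := by
      rw [mul_assoc]
      refine mul_le_mul_of_nonneg_left ?_ hC
      linarith
    have d2 : C * (K + (∫ z, k z) ^ 2) ≤ C * (1 + C1) * K := by
      rw [mul_assoc]
      refine mul_le_mul_of_nonneg_left ?_ hC
      linarith
    set D : ℝ := C * (1 + C1) with hD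
    have hD0 : 0 ≤ D := by positivity
    have d3 : D * K ≤ D * (2 * G + 2 * I) := mul_le_mul_of_nonneg_left a3 hD0
    have d4 : D * G ≤ D * (I + ε / (24 * D + 1) / 2) := mul_le_mul_of_nonneg_left hg2 hD0
    have d5 : D * (ε / (24 * D + 1) / 2) ≤ ε / 48 := by
      rw [mul_div_assoc', mul_div_assoc', div_div, div_le_div_iff₀ (by positivity) (by positivity)]
      nlinarith
    nlinarith
  · -- the support is too large
    obtain ⟨z, hz, hzR⟩ := not_subset.1 hsub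
    refine ⟨r', hr0, fun δ hδ W P M hA hI => ?_⟩
    exfalso
    have hd := hA.dpos
    obtain ⟨v, hv⟩ := Gp.exists_near hd z
    have h2 : v ∈ W := hI v ⟨z, hz, hv.trans (hδ.le.trans (min_le_left _ _))⟩
    have h3 := hA.bF v h2
    rw [mem_ball, not_lt] at hzR
    have h4 : dist z 0 ≤ dist (dp δ v) z + ‖dp δ v‖ := by
      rw [← dist_zero_right (dp δ v), dist_comm (dp δ v) z]
      exact dist_triangle _ _ _
    have h5 : r' ≤ 1 / 2 := min_le_right _ _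
    have := le_abs_self R₀
    linarith

end Vale.Agent.P153.R2.KAPV
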