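import Vale.Agent.P153.R2.M1.Time

/-!
# P153, block KAPV: the value of the variance constant, abstract form

If `m` (the conditional mean) is an approximate martingale and `m² + κ q` (the conditional second
moment) is an approximate martingale, with `m - m₀ = (2/π) I V + O(s²)` and
`q - q₀ = - (2/π) I² τ + O(s³)` up to the exit from `[0, s²] × [-3 s, 3 s]`, then `κ = 8 / π`.
-/

set_option linter.unusedSectionVars false
set_option linter.unusedVariables false

namespace Vale.Agent.P153.R2.KAPV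

open MeasureTheory Filter Topology Set Vale.Agent.P153.M1 Vale.Agent.P153.M1.Sys

variable {Ω : ℕ → Type*} [mΩ : ∀ n, MeasurableSpace (Ω n)] {S : Sys Ω}
  {P : ∀ n, Measure (Ω n)} [∀ n, IsProbabilityMeasure (P n)]

/-- Bounds for the path before the exit. -/
theorem path_bd' (hS : S.Ok) {T R : ℝ} (hT : 0 ≤ T) (hR : 0 ≤ R) :
    ∃ e : ℕ → ℝ, (∀ n, 0 ≤ e n) ∧ Tendsto e atTop (𝓝 0) ∧ ∀ n ω k, S.Bef T R n ω k →
      (∀ u, 0 ≤ u → u ≤ S.τ n k ω → |S.W n ω u| ≤ R + e n) ∧ S.τ n k ω ≤ T + e n := by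
  obtain ⟨e, he0, he, -, h⟩ := hS.step T R
  refine ⟨e, he0, he, fun n ω k hk => ?_⟩
  induction k with
  | zero =>
    have h0 := he0 n
    refine ⟨fun u hu0 hu1 => ?_, ?_⟩
    · rw [hS.zero n ω] at hu1
      have : u = 0 := le_antisymm hu1 hu0
      rw [this, hS.W0 n ω, abs_zero]
      positivity
    · rw [hS.zero n ω]; positivity
  | succ k ih =>
    obtain ⟨h1, -, h2⟩ := h n ω k hk
    obtain ⟨h3, h4⟩ := hk k (Nat.lt_succ_self k)
    refine ⟨fun u hu0 hu1 => ?_, by linarith⟩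
    rcases le_total u (S.τ n k ω) with h5 | h5
    · exact (ih (hk.mono (Nat.le_succ k))).1 u hu0 h5
    · have h6 := h2 u ⟨h5, hu1⟩
      have h7 := abs_sub_abs_le_abs_sub (S.W n ω u) (S.W n ω (S.τ n k ω))
      have h8 : |S.W n ω (S.τ n k ω)| ≤ R := h4
      linarith

theorem meas_at {E : Type*} [MeasurableSpace E] {m : ∀ n, ℕ → Ω n → E}
    (hm : ∀ n k, Measurable (m n k)) {κ : ∀ n, Ω n → ℕ} (hκ : ∀ n, IsStop (S.F n) (κ n)) (n : ℕ) :
    Measurable fun ω => m n (κ n ω) ω := by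
  intro s hs
  have : (fun ω => m n (κ n ω) ω) ⁻¹' s = ⋃ k, ({ω | κ n ω = k} ∩ m n k ⁻¹' s) := by
    ext ω
    simp only [mem_preimage, mem_iUnion, mem_inter_iff, mem_ofPred_eq]
    exact ⟨fun h => ⟨κ n ω, rfl, h⟩, fun ⟨k, h1, h2⟩ => by subst h1; exact h2⟩
  rw [this]
  exact MeasurableSet.iUnion fun k => ((S.F n).le k _ ((hκ n).eq k)).inter (hm n k hs)

/-- **The value of the constant**, abstract form. -/
theorem kap_abs (hS : S.Ok) (hM : S.AM P) {m q : ∀ n, ℕ → Ω n → ℝ} {m0 q0 I : ℕ → ℝ}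
    {kap i0 i1 N K s0 : ℝ} (hm : ∀ n k, Measurable (m n k)) (hq : ∀ n k, Measurable (q n k))
    (hi0 : 0 < i0) (hI0 : ∀ᶠ n in atTop, i0 ≤ |I n|) (hI1 : ∀ᶠ n in atTop, |I n| ≤ i1)
    (hN : ∀ n, |m0 n| ≤ N) (hs0 : 0 < s0)
    (hexp : ∀ s : ℝ, 0 < s → s ≤ s0 → ∀ᶠ n in atTop, ∀ k ω, S.Bef (s ^ 2) (3 * s) n ω k →
      |m n k ω - m0 n - 2 / Real.pi * (I n * S.V n k ω)| ≤ K * s ^ 2 ∧
      |q n k ω - q0 n + 2 / Real.pi * (I n ^ 2 * S.τ n k ω)| ≤ K * s ^ 3)
    (h1 : ∀ s : ℝ, 0 < s → s ≤ s0 → Tendsto (fun n => ∫ ω,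
      (m n (ex hS (s ^ 2) (3 * s) n ω) ω - m0 n) ∂(P n)) atTop (𝓝 0))
    (h2 : ∀ s : ℝ, 0 < s → s ≤ s0 → Tendsto (fun n => ∫ ω,
      (m n (ex hS (s ^ 2) (3 * s) n ω) ω ^ 2 - m0 n ^ 2 +
        kap * (q n (ex hS (s ^ 2) (3 * s) n ω) ω - q0 n)) ∂(P n)) atTop (𝓝 0)) :
    kap = 8 / Real.pi := by
  have hpi := Real.pi_pos
  have hi1 : 0 ≤ i1 := by
    obtain ⟨n, hn⟩ := hI1.exists
    exact (abs_nonneg _).trans hn
  have hK : 0 ≤ K := by
    obtain ⟨n, hn⟩ := (hexp s0 hs0 le_rfl).exists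
    obtain ⟨ω⟩ := (P n).nonempty_of_neZero
    have := (hn 0 ω (fun j hj => absurd hj (Nat.not_lt_zero j))).1
    have h3 := (abs_nonneg _).trans this
    have h4 : 0 < s0 ^ 2 := by positivity
    exact nonneg_of_mul_nonneg_left h3 h4
  set A : ℝ := 4 * (2 / Real.pi) ^ 2 - kap * (2 / Real.pi) with hA
  set K' : ℝ := 2 * (2 / Real.pi * (i1 * 4)) * K + K ^ 2 * s0 + |kap| * K with hK'
  have hK'0 : 0 ≤ K' := by positivity
  -- the estimate for fixed `s`
  have main : ∀ s : ℝ, 0 < s → s ≤ s0 → |A| * (i0 ^ 2 * (s ^ 2 / 2)) ≤ K' * s ^ 3 := by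
    intro s hs hss
    have hT : (0 : ℝ) ≤ s ^ 2 := by positivity
    have hR : (0 : ℝ) ≤ 3 * s := by positivity
    set κ := ex hS (s ^ 2) (3 * s) with hκ
    have hSt : S.St (s ^ 2) (3 * s) κ := ex_St hS _ _
    obtain ⟨e, he0, he, hp⟩ := path_bd' hS hT hR
    have hV := meas_at (S := S) (m := fun n k ω => S.V n k ω)
      (fun n k => (hS.adV n k).mono ((S.F n).le k) le_rfl) hSt.stop
    have hτ := meas_at (S := S) (m := fun n k ω => S.τ n k ω)
      (fun n k => (hS.adτ n k).mono ((S.F n).le k) le_rfl) hSt.stop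
    have hmκ := meas_at (S := S) hm hSt.stop
    have hqκ := meas_at (S := S) hq hSt.stop
    -- the limits
    have t1 := h1 s hs hss
    have t2 := h2 s hs hss
    have t3 := hM.m2 (s ^ 2) (3 * s) (fun n _ => 0) κ (fun n _ => 1) (fun n => IsStop.const 0) hSt
      (fun n ω => Nat.zero_le _) (fun n => Past.const (IsStop.const 0) 1) (fun n ω => by simp)
    have e3 : ∀ n, ∫ ω, ((S.Va κ n ω ^ 2 - 4 * S.Ta κ n ω) -
        (S.Va (fun n _ => 0) n ω ^ 2 - 4 * S.Ta (fun n _ => 0) n ω)) * 1 ∂(P n) =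
        ∫ ω, (S.Va κ n ω ^ 2 - 4 * S.Ta κ n ω) ∂(P n) := by
      intro n
      congr 1
      funext ω
      have a1 : S.Va (fun n _ => 0) n ω = 0 := V_zero hS n ω
      have a2 : S.Ta (fun n _ => 0) n ω = 0 := hS.zero n ω
      rw [a1, a2]; ring
    simp only [e3] at t3
    have he1 : ∀ᶠ n in atTop, e n < s := he.eventually (gt_mem_nhds hs)
    have key : ∀ᶠ n in atTop, |A| * (i0 ^ 2 * (9 / 13 * (s ^ 2 - 1 / 9 *
        ∫ ω, (S.Va κ n ω ^ 2 - 4 * S.Ta κ n ω) ∂(P n)))) ≤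
        |∫ ω, (m n (κ n ω) ω ^ 2 - m0 n ^ 2 + kap * (q n (κ n ω) ω - q0 n)) ∂(P n)| +
        2 * N * |∫ ω, (m n (κ n ω) ω - m0 n) ∂(P n)| +
        (2 / Real.pi) ^ 2 * i1 ^ 2 * |∫ ω, (S.Va κ n ω ^ 2 - 4 * S.Ta κ n ω) ∂(P n)| +
        K' * s ^ 3 := by
      filter_upwards [hI0, hI1, hexp s hs hss, he1] with n g0 g1 gx ge
      have hVb : ∀ ω, |S.Va κ n ω| ≤ 4 * s := fun ω => by
        have := (hp n ω (κ n ω) (hSt.bef n ω)).1 (S.τ n (κ n ω) ω) (τ_nonneg hS n _ ω) le_rfl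
        have h4 : |S.Va κ n ω| ≤ 3 * s + e n := this
        linarith
      have hτb : ∀ ω, S.Ta κ n ω ≤ s ^ 2 + s := fun ω => by
        have := (hp n ω (κ n ω) (hSt.bef n ω)).2
        have h4 : S.Ta κ n ω ≤ s ^ 2 + e n := this
        linarith
      have hτ0 : ∀ ω, 0 ≤ S.Ta κ n ω := fun ω => τ_nonneg hS n _ ω
      have hV' : Measurable (S.Va κ n) := hV n
      have hτ' : Measurable (S.Ta κ n) := hτ n
      have hm' : Measurable fun ω => m n (κ n ω) ω := hmκ n
      have hq' : Measurable fun ω => q n (κ n ω) ω := hqκ n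
      have iV2 : Integrable (fun ω => S.Va κ n ω ^ 2) (P n) := by
        refine Integrable.of_bound (hV'.pow_const 2).aestronglyMeasurable ((4 * s) ^ 2)
          (Eventually.of_forall fun ω => ?_)
        rw [Real.norm_eq_abs, abs_of_nonneg (sq_nonneg _), ← sq_abs]
        exact pow_le_pow_left₀ (abs_nonneg _) (hVb ω) 2
      have iτ : Integrable (fun ω => S.Ta κ n ω) (P n) := by
        refine Integrable.of_bound hτ'.aestronglyMeasurable (s ^ 2 + s)
          (Eventually.of_forall fun ω => ?_)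
        rw [Real.norm_eq_abs, abs_of_nonneg (hτ0 ω)]
        exact hτb ω
      have iD : Integrable (fun ω => S.Va κ n ω ^ 2 - 4 * S.Ta κ n ω) (P n) :=
        iV2.sub (iτ.const_mul 4)
      have hXb : ∀ ω, |m n (κ n ω) ω - m0 n| ≤ 2 / Real.pi * (i1 * (4 * s)) + K * s ^ 2 := by
        intro ω
        have h4 := (gx (κ n ω) ω (hSt.bef n ω)).1
        have h5 : |2 / Real.pi * (I n * S.Va κ n ω)| ≤ 2 / Real.pi * (i1 * (4 * s)) := by
          rw [abs_mul, abs_mul, abs_of_pos (show 0 < 2 / Real.pi by positivity)]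
          have := hVb ω
          gcongr
        have h6 : m n (κ n ω) ω - m0 n = (m n (κ n ω) ω - m0 n -
          2 / Real.pi * (I n * S.V n (κ n ω) ω)) + 2 / Real.pi * (I n * S.Va κ n ω) := by
          unfold Va; ring
        rw [h6]
        refine (abs_add_le _ _).trans ?_
        linarith
      have iX : Integrable (fun ω => m n (κ n ω) ω - m0 n) (P n) :=
        Integrable.of_bound (hm'.sub_const _).aestronglyMeasurable _
          (Eventually.of_forall hXb)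
      set err : Ω n → ℝ := fun ω =>
        (m n (κ n ω) ω ^ 2 - m0 n ^ 2 + kap * (q n (κ n ω) ω - q0 n)) -
        (2 * m0 n * (m n (κ n ω) ω - m0 n) + (2 / Real.pi) ^ 2 * I n ^ 2 *
          (S.Va κ n ω ^ 2 - 4 * S.Ta κ n ω) + A * I n ^ 2 * S.Ta κ n ω) with herr
      have errb : ∀ ω, |err ω| ≤ K' * s ^ 3 := by
        intro ω
        obtain ⟨h4, h5⟩ := gx (κ n ω) ω (hSt.bef n ω)
        set r1 : ℝ := m n (κ n ω) ω - m0 n - 2 / Real.pi * (I n * S.V n (κ n ω) ω) with hr1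
        set r2 : ℝ := q n (κ n ω) ω - q0 n + 2 / Real.pi * (I n ^ 2 * S.τ n (κ n ω) ω) with hr2
        have e4 : err ω = 2 * (2 / Real.pi * (I n * S.Va κ n ω)) * r1 + r1 ^ 2 + kap * r2 := by
          rw [herr, hr1, hr2, hA]
          unfold Va Ta
          ring
        have h6 : |2 / Real.pi * (I n * S.Va κ n ω)| ≤ 2 / Real.pi * (i1 * (4 * s)) := by
          rw [abs_mul, abs_mul, abs_of_pos (show 0 < 2 / Real.pi by positivity)]
          have := hVb ω
          gcongr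
        have b1 : |2 * (2 / Real.pi * (I n * S.Va κ n ω)) * r1| ≤
            2 * (2 / Real.pi * (i1 * (4 * s))) * (K * s ^ 2) := by
          rw [abs_mul, abs_mul, abs_two]
          gcongr
        have b2 : |r1 ^ 2| ≤ (K * s ^ 2) ^ 2 := by
          rw [abs_pow]
          exact pow_le_pow_left₀ (abs_nonneg _) h4 2
        have b3 : |kap * r2| ≤ |kap| * (K * s ^ 3) := by
          rw [abs_mul]
          gcongr
        rw [e4]
        refine (abs_add_le _ _).trans ((add_le_add (abs_add_le _ _) le_rfl).trans ?_)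
        have b4 : (K * s ^ 2) ^ 2 ≤ K ^ 2 * s0 * s ^ 3 := by
          have : (K * s ^ 2) ^ 2 = K ^ 2 * s * s ^ 3 := by ring
          rw [this]
          gcongr
        calc _ ≤ 2 * (2 / Real.pi * (i1 * (4 * s))) * (K * s ^ 2) + K ^ 2 * s0 * s ^ 3 +
              |kap| * (K * s ^ 3) := by linarith
          _ = K' * s ^ 3 := by rw [hK']; ring
      have merr : Measurable err := by
        rw [herr]
        exact (((hm'.pow_const 2).sub_const _).add ((hq'.sub_const _).const_mul _)).sub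
          ((((hm'.sub_const _).const_mul _).add (((hV'.pow_const 2).sub
            (hτ'.const_mul 4)).const_mul _)).add (hτ'.const_mul _))
      have ierr : Integrable err (P n) :=
        Integrable.of_bound merr.aestronglyMeasurable _ (Eventually.of_forall errb)
      have hint : ∫ ω, (m n (κ n ω) ω ^ 2 - m0 n ^ 2 + kap * (q n (κ n ω) ω - q0 n)) ∂(P n) =
          2 * m0 n * (∫ ω, (m n (κ n ω) ω - m0 n) ∂(P n)) + (2 / Real.pi) ^ 2 * I n ^ 2 *
          (∫ ω, (S.Va κ n ω ^ 2 - 4 * S.Ta κ n ω) ∂(P n)) +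
          A * I n ^ 2 * (∫ ω, S.Ta κ n ω ∂(P n)) + ∫ ω, err ω ∂(P n) := by
        have j1 : Integrable (fun ω => 2 * m0 n * (m n (κ n ω) ω - m0 n)) (P n) := iX.const_mul _
        have j2 : Integrable (fun ω => (2 / Real.pi) ^ 2 * I n ^ 2 *
          (S.Va κ n ω ^ 2 - 4 * S.Ta κ n ω)) (P n) := iD.const_mul _
        have j3 : Integrable (fun ω => A * I n ^ 2 * S.Ta κ n ω) (P n) := iτ.const_mul _
        have j12 : Integrable (fun ω => 2 * m0 n * (m n (κ n ω) ω - m0 n) +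
          (2 / Real.pi) ^ 2 * I n ^ 2 * (S.Va κ n ω ^ 2 - 4 * S.Ta κ n ω)) (P n) := j1.add j2
        have j123 : Integrable (fun ω => 2 * m0 n * (m n (κ n ω) ω - m0 n) +
          (2 / Real.pi) ^ 2 * I n ^ 2 * (S.Va κ n ω ^ 2 - 4 * S.Ta κ n ω) +
          A * I n ^ 2 * S.Ta κ n ω) (P n) := j12.add j3
        rw [← integral_const_mul, ← integral_const_mul, ← integral_const_mul,
          ← integral_add j1 j2, ← integral_add j12 j3, ← integral_add j123 ierr]
        congr 1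
        funext ω
        rw [herr]
        ring
      have herr2 : |∫ ω, err ω ∂(P n)| ≤ K' * s ^ 3 := by
        have := norm_integral_le_of_norm_le_const (μ := P n) (f := err) (C := K' * s ^ 3)
          (Eventually.of_forall errb)
        simpa using this
      -- lower bound for the time
      have hlow : 9 / 13 * (s ^ 2 - 1 / 9 * ∫ ω, (S.Va κ n ω ^ 2 - 4 * S.Ta κ n ω) ∂(P n)) ≤
          ∫ ω, S.Ta κ n ω ∂(P n) := by
        have h4 : ∫ ω, (s ^ 2 - 1 / 9 * S.Va κ n ω ^ 2) ∂(P n) ≤ ∫ ω, S.Ta κ n ω ∂(P n) := by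
          refine integral_mono ((integrable_const _).sub (iV2.const_mul _)) iτ fun ω => ?_
          have h5 := first_spec (Q := fun k ω => s ^ 2 < S.τ n k ω ∨ 3 * s < |S.V n k ω|)
            (fun ω => (hS.unb n ω (s ^ 2)).imp fun _ h => Or.inl h) ω
          rcases h5 with h5 | h5
          · have h6 : s ^ 2 < S.Ta κ n ω := h5
            have := sq_nonneg (S.Va κ n ω)
            simp only
            linarith
          · have h6 : 3 * s < |S.Va κ n ω| := h5
            have h7 : (3 * s) ^ 2 < S.Va κ n ω ^ 2 := by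
              rw [← sq_abs (S.Va κ n ω)]
              exact pow_lt_pow_left₀ h6 (by positivity) (by norm_num)
            have := hτ0 ω
            simp only
            nlinarith
        have h5 : ∫ ω, (s ^ 2 - 1 / 9 * S.Va κ n ω ^ 2) ∂(P n) =
            s ^ 2 - 1 / 9 * ∫ ω, S.Va κ n ω ^ 2 ∂(P n) := by
          rw [integral_sub (integrable_const _) (iV2.const_mul _), integral_const_mul]
          simp
        have h6 : ∫ ω, (S.Va κ n ω ^ 2 - 4 * S.Ta κ n ω) ∂(P n) =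
            ∫ ω, S.Va κ n ω ^ 2 ∂(P n) - 4 * ∫ ω, S.Ta κ n ω ∂(P n) := by
          rw [integral_sub iV2 (iτ.const_mul 4), integral_const_mul]
        rw [h6]
        rw [h5] at h4
        linarith
      have hτi : 0 ≤ ∫ ω, S.Ta κ n ω ∂(P n) := integral_nonneg hτ0
      set J := ∫ ω, S.Ta κ n ω ∂(P n) with hJ
      set D := ∫ ω, (S.Va κ n ω ^ 2 - 4 * S.Ta κ n ω) ∂(P n) with hD
      have c1 : |A| * (i0 ^ 2 * (9 / 13 * (s ^ 2 - 1 / 9 * D))) ≤ |A| * (I n ^ 2 * J) := by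
        refine mul_le_mul_of_nonneg_left ?_ (abs_nonneg _)
        have h4 : i0 ^ 2 ≤ I n ^ 2 := by
          rw [← sq_abs (I n)]
          exact pow_le_pow_left₀ hi0.le g0 2
        calc i0 ^ 2 * (9 / 13 * (s ^ 2 - 1 / 9 * D)) ≤ i0 ^ 2 * J :=
              mul_le_mul_of_nonneg_left hlow (by positivity)
          _ ≤ I n ^ 2 * J := mul_le_mul_of_nonneg_right h4 hτi
      have c2 : |A| * (I n ^ 2 * J) = |A * I n ^ 2 * J| := by
        rw [abs_mul, abs_mul, abs_of_nonneg hτi, abs_of_nonneg (sq_nonneg (I n))]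
        ring
      have c3 : A * I n ^ 2 * J =
          (∫ ω, (m n (κ n ω) ω ^ 2 - m0 n ^ 2 + kap * (q n (κ n ω) ω - q0 n)) ∂(P n)) +
          (-(2 * m0 n * (∫ ω, (m n (κ n ω) ω - m0 n) ∂(P n)))) +
          (-((2 / Real.pi) ^ 2 * I n ^ 2 * D)) + (-(∫ ω, err ω ∂(P n))) := by
        rw [hint]; ring
      have c4 : |2 * m0 n * (∫ ω, (m n (κ n ω) ω - m0 n) ∂(P n))| ≤
          2 * N * |∫ ω, (m n (κ n ω) ω - m0 n) ∂(P n)| := by
        rw [abs_mul, abs_mul, abs_two]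
        have := hN n
        gcongr
      have c5 : |(2 / Real.pi) ^ 2 * I n ^ 2 * D| ≤ (2 / Real.pi) ^ 2 * i1 ^ 2 * |D| := by
        rw [abs_mul, abs_mul, abs_of_nonneg (sq_nonneg (2 / Real.pi)), abs_pow]
        gcongr
      refine c1.trans ?_
      rw [c2, c3]
      refine (abs_add_le _ _).trans ?_
      refine add_le_add ((abs_add_le _ _).trans (add_le_add ((abs_add_le _ _).trans
        (add_le_add le_rfl ?_)) ?_)) ?_
      · rw [abs_neg]; exact c4
      · rw [abs_neg]; exact c5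
      · rw [abs_neg]; exact herr2
    have L1 : Tendsto (fun n => |A| * (i0 ^ 2 * (9 / 13 * (s ^ 2 - 1 / 9 *
        ∫ ω, (S.Va κ n ω ^ 2 - 4 * S.Ta κ n ω) ∂(P n))))) atTop
        (𝓝 (|A| * (i0 ^ 2 * (9 / 13 * (s ^ 2 - 1 / 9 * 0))))) :=
      ((((t3.const_mul _).const_sub _).const_mul _).const_mul _).const_mul _
    have L2 : Tendsto (fun n =>
        |∫ ω, (m n (κ n ω) ω ^ 2 - m0 n ^ 2 + kap * (q n (κ n ω) ω - q0 n)) ∂(P n)| +
        2 * N * |∫ ω, (m n (κ n ω) ω - m0 n) ∂(P n)| +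
        (2 / Real.pi) ^ 2 * i1 ^ 2 * |∫ ω, (S.Va κ n ω ^ 2 - 4 * S.Ta κ n ω) ∂(P n)| +
        K' * s ^ 3) atTop (𝓝 (|(0 : ℝ)| + 2 * N * |(0 : ℝ)| +
          (2 / Real.pi) ^ 2 * i1 ^ 2 * |(0 : ℝ)| + K' * s ^ 3)) :=
      ((t2.abs.add (t1.abs.const_mul _)).add (t3.abs.const_mul _)).add_const _
    have h3 := le_of_tendsto_of_tendsto L1 L2 key
    rw [abs_zero, mul_zero, mul_zero, mul_zero, sub_zero, zero_add, zero_add, zero_add] at h3
    have h4 : |A| * (i0 ^ 2 * (s ^ 2 / 2)) ≤ |A| * (i0 ^ 2 * (9 / 13 * s ^ 2)) := by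
      refine mul_le_mul_of_nonneg_left (mul_le_mul_of_nonneg_left ?_ (by positivity))
        (abs_nonneg _)
      nlinarith [sq_nonneg s]
    exact h4.trans h3
  have hA0 : A = 0 := by
    by_contra hne
    have hpos : 0 < |A| * i0 ^ 2 := by positivity
    set s : ℝ := min s0 (|A| * i0 ^ 2 / (4 * (K' + 1))) with hs
    have hs1 : 0 < s := lt_min hs0 (by positivity)
    have h3 := main s hs1 (min_le_left _ _)
    have h4 : s ≤ |A| * i0 ^ 2 / (4 * (K' + 1)) := min_le_right _ _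
    rw [le_div_iff₀ (by positivity)] at h4
    have h5 : 0 < s ^ 2 := by positivity
    nlinarith
  rw [hA] at hA0
  field_simp at hA0 ⊢
  linarith

end Vale.Agent.P153.R2.KAPV
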