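import Vale.Agent.P153.R2.KAPV.Exp
import Vale.Agent.P153.R2.KAPV.Kap

/-!
# P153, block KAPV: the value of the variance constant

The abstract theorem `kap_abs` for the mean `∫ (1 - (2/π) arg ζ) dν` and the Green functional
`∫ ∫ G(ζ, ζ') dν dν` along the centred Loewner flow `ζ`.
-/

set_option linter.unusedSectionVars false
set_option linter.unusedVariables false

namespace Vale.Agent.P153.R2.KAPV

open MeasureTheory Filter Topology Set Vale.Agent.P153.M1 Vale.Agent.P153.M1.Sys Vale.Agent.P164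
open scoped ComplexConjugate

variable {A : Type*} [MeasurableSpace A]

/-- The mean of the field with the values `1`, `-1` on the two sides of `0`, integrated against
`ν`; `ζ` are the coordinates in the half-plane. -/
noncomputable def mF (ν : Measure A) (ζ : A → ℂ) : ℝ :=
  ∫ a, (1 - 2 / Real.pi * Complex.arg (ζ a)) ∂ν

/-- The Green functional. -/
noncomputable def qF (ν : Measure A) (ζ : A → ℂ) : ℝ :=
  ∫ x : A × A, GH (ζ x.1) (ζ x.2) ∂(ν.prod ν)

/-- The flow is continuous high above the real line. -/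
theorem flow_contOn {W : ℝ → ℝ} {t c : ℝ} (ht : 0 ≤ t) (hW : ContinuousOn W (Icc 0 t))
    (hc : 0 < c) (h8 : 8 * t ≤ c ^ 2) : ContinuousOn (flow W t) {z : ℂ | c ≤ z.im} ∧
      ∀ z : ℂ, c ≤ z.im → 0 < (flow W t z).im := by
  have hsol : ∀ z : ℂ, c ≤ z.im → ∃ g, IsLoewnerSol W z t g := fun z hz => by
    obtain ⟨g, hg, -⟩ := exists_sol ht hW (hc.trans_le hz) (h8.trans (pow_le_pow_left₀ hc.le hz 2))
    exact ⟨g, hg⟩
  refine ⟨fun z hz => ?_, fun z hz => ?_⟩
  · exact (hasDerivAt_flow ht hW (hsol z hz)).continuousAt.continuousWithinAt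
  · obtain ⟨g, hg⟩ := hsol z hz
    rw [flow_eq ht hg]
    have := (hg.2 t ⟨ht, le_rfl⟩).1
    simpa using this

theorem meas_of_contOn {E : Type*} [TopologicalSpace E] [MeasurableSpace E] [BorelSpace E]
    {F : ℂ → E} {s : Set ℂ} (hF : ContinuousOn F s) {p : A → ℂ} (hp : Measurable p)
    (hps : ∀ a, p a ∈ s) : Measurable fun a => F (p a) := by
  have h1 : Measurable (s.domRestrict F) :=
    (continuousOn_iff_continuous_domRestrict.1 hF).measurable
  have h2 : Measurable fun a => (⟨p a, hps a⟩ : s) := hp.subtype_mk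
  exact h1.comp h2

variable {ν : Measure A} [IsFiniteMeasure ν]

theorem int_im {c : ℝ} (hc : 0 < c) {p : A → ℂ} (hp : Measurable p) (hpc : ∀ a, c ≤ (p a).im) :
    Integrable (fun a => (1 / p a).im) ν := by
  refine Integrable.of_bound (C := 1 / c)
    (Complex.measurable_im.comp ((measurable_const.div hp))).aestronglyMeasurable
    (Eventually.of_forall fun a => ?_)
  exact im_inv_le hc (hpc a)

theorem measurable_GH : Measurable (Function.uncurry GH) := by
  unfold GH Function.uncurry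
  have : Measurable fun x : ℂ × ℂ => (x.1 - conj x.2) / (x.1 - x.2) :=
    (measurable_fst.sub (Complex.continuous_conj.measurable.comp measurable_snd)).div
      (measurable_fst.sub measurable_snd)
  exact (Real.measurable_log.comp this.norm).const_mul _

theorem measurable_GH' {f : A → ℂ} (hf : Measurable f) :
    Measurable fun x : A × A => GH (f x.1) (f x.2) := by
  have h : Measurable (fun x : A × A => ((f x.1, f x.2) : ℂ × ℂ)) :=
    (hf.comp measurable_fst).prodMk (hf.comp measurable_snd)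
  have h2 := measurable_GH.comp h
  exact h2

/-- Expansion of the mean. -/
theorem mF_exp {W : ℝ → ℝ} {t c r : ℝ} (ht : 0 ≤ t) (hW : ContinuousOn W (Icc 0 t))
    (hr : ∀ s ∈ Icc 0 t, |W s| ≤ r) (hc : 0 < c) (h8 : 8 * t ≤ c ^ 2)
    (hsm : (4 * t / c + r) / c ≤ 1 / 2) {p : A → ℂ} (hp : Measurable p)
    (hpc : ∀ a, c ≤ (p a).im) :
    |mF ν (fun a => flow W t (p a)) - mF ν p - 2 / Real.pi * ((∫ a, (1 / p a).im ∂ν) * W t)| ≤
      2 / Real.pi * (4 * t / c ^ 2 + ((4 * t / c + r) / c) ^ 2) * ν.real univ := by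
  obtain ⟨hcont, him⟩ := flow_contOn ht hW hc h8
  have hf : Measurable fun a => flow W t (p a) :=
    meas_of_contOn hcont hp hpc
  have ha : ∀ ζ : A → ℂ, Measurable ζ →
      Integrable (fun a => (1 - 2 / Real.pi * Complex.arg (ζ a))) ν := by
    intro ζ hζ
    refine Integrable.of_bound (C := 3) (((Complex.measurable_arg.comp hζ).const_mul
      _).const_sub _).aestronglyMeasurable (Eventually.of_forall fun a => ?_)
    have h1 := Complex.abs_arg_le_pi (ζ a)
    rw [Real.norm_eq_abs]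
    refine (abs_sub _ _).trans ?_
    rw [abs_mul, abs_one, abs_of_pos (show 0 < 2 / Real.pi by positivity)]
    have h2 : 2 / Real.pi * |Complex.arg (ζ a)| ≤ 2 / Real.pi * Real.pi := by gcongr
    have h3 : 2 / Real.pi * Real.pi = 2 := by field_simp
    linarith
  have hI : Integrable (fun a => (1 / p a).im) ν := int_im hc hp hpc
  have e1 : mF ν (fun a => flow W t (p a)) - mF ν p -
      2 / Real.pi * ((∫ a, (1 / p a).im ∂ν) * W t) =
      ∫ a, (-(2 / Real.pi)) * (Complex.arg (flow W t (p a)) - Complex.arg (p a) +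
        W t * (1 / p a).im) ∂ν := by
    have i1 := ha _ hf
    have i2 := ha _ hp
    have i3 : Integrable (fun a => 2 / Real.pi * (W t * (1 / p a).im)) ν :=
      (hI.const_mul _).const_mul _
    unfold mF
    have e2 : 2 / Real.pi * ((∫ a, (1 / p a).im ∂ν) * W t) =
        ∫ a, 2 / Real.pi * (W t * (1 / p a).im) ∂ν := by
      rw [integral_const_mul, integral_const_mul]; ring
    rw [e2, ← integral_sub i1 i2]
    have i12 : Integrable (fun a => (1 - 2 / Real.pi * Complex.arg (flow W t (p a))) -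
      (1 - 2 / Real.pi * Complex.arg (p a))) ν := i1.sub i2
    rw [← integral_sub i12 i3]
    congr 1
    funext a
    ring
  rw [e1, ← Real.norm_eq_abs]
  refine (norm_integral_le_of_norm_le_const (C := 2 / Real.pi *
    (4 * t / c ^ 2 + ((4 * t / c + r) / c) ^ 2)) (Eventually.of_forall fun a => ?_)).trans le_rfl
  rw [Real.norm_eq_abs, abs_mul, abs_neg, abs_of_pos (show 0 < 2 / Real.pi by positivity)]
  exact mul_le_mul_of_nonneg_left (arg_exp ht hW hr hc h8 (hpc a) hsm) (by positivity)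

/-- An integration lemma. -/
theorem int_exp {X : Type*} [MeasurableSpace X] {μ : Measure X} [IsFiniteMeasure μ]
    {F G H : X → ℝ} {B b : ℝ} (hF : Measurable F) (hG : Integrable G μ) (hH : Integrable H μ)
    (hpt : ∀ᵐ x ∂μ, |F x - G x + b * H x| ≤ B) :
    |∫ x, F x ∂μ - ∫ x, G x ∂μ + b * ∫ x, H x ∂μ| ≤ B * μ.real univ := by
  have hbH : Integrable (fun x => b * H x) μ := hH.const_mul b
  have hE : Integrable (fun x => F x - G x + b * H x) μ := by
    refine Integrable.of_bound (C := B) ?_ hpt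
    exact (hF.aestronglyMeasurable.sub hG.aestronglyMeasurable).add hbH.aestronglyMeasurable
  have hFi : Integrable F μ := by
    have h1 := (hE.add hG).sub hbH
    refine h1.congr (Eventually.of_forall fun x => ?_)
    simp only [Pi.add_apply, Pi.sub_apply]
    ring
  have i12 : Integrable (fun x => F x - G x) μ := hFi.sub hG
  have e1 : ∫ x, F x ∂μ - ∫ x, G x ∂μ + b * ∫ x, H x ∂μ = ∫ x, (F x - G x + b * H x) ∂μ := by
    rw [integral_add i12 hbH, integral_sub hFi hG, integral_const_mul]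
  rw [e1, ← Real.norm_eq_abs]
  exact norm_integral_le_of_norm_le_const hpt

/-- Expansion of the Green functional. -/
theorem qF_exp {W : ℝ → ℝ} {t c r : ℝ} (ht : 0 ≤ t) (hW : ContinuousOn W (Icc 0 t))
    (hr : ∀ s ∈ Icc 0 t, |W s| ≤ r) (hc : 0 < c) (h8 : 8 * t ≤ c ^ 2)
    {p : A → ℂ} (hp : Measurable p) (hpc : ∀ a, c ≤ (p a).im)
    (hint : Integrable (fun x : A × A => GH (p x.1) (p x.2)) (ν.prod ν))
    (hne : ∀ᵐ x : A × A ∂(ν.prod ν), p x.1 ≠ p x.2) :
    |qF ν (fun a => flow W t (p a)) - qF ν p + 2 / Real.pi * ((∫ a, (1 / p a).im ∂ν) ^ 2 * t)| ≤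
      12 / Real.pi * t * (4 * t / c + r) / c ^ 3 * (ν.real univ) ^ 2 := by
  obtain ⟨hcont, him⟩ := flow_contOn ht hW hc h8
  have hf : Measurable fun a => flow W t (p a) :=
    meas_of_contOn hcont hp hpc
  have hGf := measurable_GH' hf
  have hI : Integrable (fun a => (1 / p a).im) ν := int_im hc hp hpc
  have hII : Integrable (fun x : A × A => (1 / p x.1).im * (1 / p x.2).im) (ν.prod ν) :=
    hI.mul_prod hI
  have hpt : ∀ᵐ x : A × A ∂(ν.prod ν), |GH (flow W t (p x.1)) (flow W t (p x.2)) -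
      GH (p x.1) (p x.2) + 2 / Real.pi * t * ((1 / p x.1).im * (1 / p x.2).im)| ≤
      12 / Real.pi * t * (4 * t / c + r) / c ^ 3 := by
    filter_upwards [hne] with x hx
    exact green_exp ht hW hr hc h8 (hpc _) (hpc _) hx
  have h1 := int_exp hGf hint hII hpt
  have e2 : ∫ x : A × A, (1 / p x.1).im * (1 / p x.2).im ∂(ν.prod ν) =
      (∫ a, (1 / p a).im ∂ν) ^ 2 := by
    rw [integral_prod_mul (fun a => (1 / p a).im) (fun a => (1 / p a).im), sq]
  have e3 : (ν.prod ν).real univ = ν.real univ ^ 2 := by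
    rw [← Set.univ_prod_univ, measureReal_prod_prod, sq]
  rw [e2, e3] at h1
  have e4 : 2 / Real.pi * ((∫ a, (1 / p a).im ∂ν) ^ 2 * t) =
      2 / Real.pi * t * (∫ a, (1 / p a).im ∂ν) ^ 2 := by ring
  unfold qF
  rw [e4]
  exact h1

variable {Ω : ℕ → Type*} [mΩ : ∀ n, MeasurableSpace (Ω n)] {S : Sys Ω}
  {P : ∀ n, Measure (Ω n)} [∀ n, IsProbabilityMeasure (P n)]

/-- The centred flow at the exploration step `k`. -/
noncomputable def zt (S : Sys Ω) (p : ℕ → A → ℂ) (n k : ℕ) (ω : Ω n) (a : A) : ℂ :=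
  flow (S.W n ω) (S.τ n k ω) (p n a)

/-- **The value of the variance constant is `8 / π`**: if the integrated mean and the integrated
second moment `mF² + kap qF` are asymptotically preserved up to the exit from
`[0, s²] × [-3 s, 3 s]` for all small `s`, then `kap = 8 / π`. -/
theorem kap_flow (hS : S.Ok) (hM : S.AM P) (hW : ∀ n ω, ContinuousOn (S.W n ω) (Ici 0))
    {p : ℕ → A → ℂ} {c C kap s1 : ℝ} (hp : ∀ n, Measurable (p n)) (hc : 0 < c)
    (hpc : ∀ n a, c ≤ (p n a).im) (hpC : ∀ n a, ‖p n a‖ ≤ C) (hν : ν ≠ 0)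
    (hint : ∀ n, Integrable (fun x : A × A => GH (p n x.1) (p n x.2)) (ν.prod ν))
    (hne : ∀ n, ∀ᵐ x : A × A ∂(ν.prod ν), p n x.1 ≠ p n x.2)
    (hmm : ∀ n k, Measurable fun ω => mF ν (zt S p n k ω))
    (hmq : ∀ n k, Measurable fun ω => qF ν (zt S p n k ω)) (hs1 : 0 < s1)
    (h1 : ∀ s : ℝ, 0 < s → s ≤ s1 → Tendsto (fun n => ∫ ω,
      (mF ν (zt S p n (ex hS (s ^ 2) (3 * s) n ω) ω) - mF ν (p n)) ∂(P n)) atTop (𝓝 0))
    (h2 : ∀ s : ℝ, 0 < s → s ≤ s1 → Tendsto (fun n => ∫ ω,
      (mF ν (zt S p n (ex hS (s ^ 2) (3 * s) n ω) ω) ^ 2 - mF ν (p n) ^ 2 +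
        kap * (qF ν (zt S p n (ex hS (s ^ 2) (3 * s) n ω) ω) - qF ν (p n))) ∂(P n)) atTop
          (𝓝 0)) : kap = 8 / Real.pi := by
  have hpi := Real.pi_pos
  set N : ℝ := ν.real univ with hN
  have hN0 : 0 < N := by
    rw [hN, measureReal_def]
    exact ENNReal.toReal_pos ((Measure.measure_univ_ne_zero).2 hν) (measure_ne_top _ _)
  have hC0 : 0 < C := by
    obtain ⟨a⟩ : Nonempty A := by
      by_contra h
      rw [not_nonempty_iff] at h
      exact hν (Measure.eq_zero_of_isEmpty ν)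
    exact hc.trans_le ((hpc 0 a).trans ((le_abs_self _).trans
      ((Complex.abs_im_le_norm _).trans (hpC 0 a))))
  set D1 : ℝ := 8 / c + 4 with hD1
  have hD10 : 0 < D1 := by positivity
  set Ka : ℝ := 2 / Real.pi * (8 / c ^ 2 + (D1 / c) ^ 2) * N with hKa
  set Kg : ℝ := 12 / Real.pi * 2 * D1 / c ^ 3 * N ^ 2 with hKg
  set s0 : ℝ := min s1 (min 1 (min (c / 4) (c / (2 * D1)))) with hs0
  have hs00 : 0 < s0 := lt_min hs1 (lt_min one_pos (lt_min (by positivity) (by positivity)))
  have hI : ∀ n, Integrable (fun a => (1 / p n a).im) ν := fun n => by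
    refine Integrable.of_bound (C := 1 / c) ?_ (Eventually.of_forall fun a => ?_)
    · exact (Complex.measurable_im.comp ((measurable_const.div (hp n)))).aestronglyMeasurable
    · exact im_inv_le hc (hpc n a)
  refine kap_abs hS hM (m := fun n k ω => mF ν (zt S p n k ω))
    (q := fun n k ω => qF ν (zt S p n k ω)) (m0 := fun n => mF ν (p n))
    (q0 := fun n => qF ν (p n)) (I := fun n => ∫ a, (1 / p n a).im ∂ν) (i0 := c / C ^ 2 * N)
    (i1 := 1 / c * N) (N := 3 * N) (K := Ka + Kg) (s0 := s0) hmm hmq (by positivity) ?_ ?_ ?_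
    hs00 ?_ (fun s hs hss => h1 s hs (hss.trans (min_le_left _ _)))
    (fun s hs hss => h2 s hs (hss.trans (min_le_left _ _)))
  · refine Eventually.of_forall fun n => ?_
    have h3 : ∫ a, (1 / p n a).im ∂ν ≤ ∫ a, (-(c / C ^ 2)) ∂ν := by
      refine integral_mono (hI n) (integrable_const _) fun a => ?_
      have h4 := hpc n a
      have h5 : (1 / p n a).im = -((p n a).im / ‖p n a‖ ^ 2) := by
        rw [one_div, Complex.inv_im, Complex.normSq_eq_norm_sq, neg_div]
      simp only
      rw [h5]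
      have h6 : 0 < ‖p n a‖ := (hc.trans_le h4).trans_le ((le_abs_self _).trans
        (Complex.abs_im_le_norm _))
      have h7 : c / C ^ 2 ≤ (p n a).im / ‖p n a‖ ^ 2 :=
        div_le_div₀ (hc.le.trans h4) h4 (by positivity)
          (pow_le_pow_left₀ h6.le (hpC n a) 2)
      linarith
    rw [integral_const, smul_eq_mul] at h3
    rw [abs_of_nonpos (by nlinarith [show 0 < c / C ^ 2 by positivity])]
    linarith
  · refine Eventually.of_forall fun n => ?_
    rw [← Real.norm_eq_abs]
    exact norm_integral_le_of_norm_le_const (Eventually.of_forall fun a => im_inv_le hc (hpc n a))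
  · intro n
    unfold mF
    rw [← Real.norm_eq_abs]
    refine norm_integral_le_of_norm_le_const (Eventually.of_forall fun a => ?_)
    have h3 := Complex.abs_arg_le_pi (p n a)
    rw [Real.norm_eq_abs]
    refine (abs_sub _ _).trans ?_
    rw [abs_mul, abs_one, abs_of_pos (show 0 < 2 / Real.pi by positivity)]
    have h4 : 2 / Real.pi * |Complex.arg (p n a)| ≤ 2 / Real.pi * Real.pi := by gcongr
    have h5 : 2 / Real.pi * Real.pi = 2 := by field_simp
    linarith
  · intro s hs hss
    have g1 : s ≤ 1 := hss.trans ((min_le_right _ _).trans (min_le_left _ _))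
    have g2 : s ≤ c / 4 := hss.trans ((min_le_right _ _).trans ((min_le_right _ _).trans
      (min_le_left _ _)))
    have g3 : s ≤ c / (2 * D1) := hss.trans ((min_le_right _ _).trans ((min_le_right _ _).trans
      (min_le_right _ _)))
    obtain ⟨e, he0, he, hpth⟩ := path_bd' hS (show (0 : ℝ) ≤ s ^ 2 by positivity)
      (show (0 : ℝ) ≤ 3 * s by positivity)
    have hes : ∀ᶠ n in atTop, e n < min s (s ^ 2) :=
      he.eventually (gt_mem_nhds (lt_min hs (by positivity)))
    filter_upwards [hes] with n hn k ω hk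
    have hn1 : e n < s := hn.trans_le (min_le_left _ _)
    have hn2 : e n < s ^ 2 := hn.trans_le (min_le_right _ _)
    obtain ⟨hb1, hb2⟩ := hpth n ω k hk
    set t : ℝ := S.τ n k ω with ht
    have ht0 : 0 ≤ t := τ_nonneg hS n k ω
    have ht2 : t ≤ 2 * s ^ 2 := by linarith
    have hr : ∀ u ∈ Icc 0 t, |S.W n ω u| ≤ 4 * s := fun u hu => by
      have := hb1 u hu.1 hu.2
      linarith
    have hWt : ContinuousOn (S.W n ω) (Icc 0 t) := (hW n ω).mono Icc_subset_Ici_self
    have h8 : 8 * t ≤ c ^ 2 := by nlinarith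
    have hD : 4 * t / c + 4 * s ≤ D1 * s := by
      rw [hD1, add_mul]
      have : 4 * t / c ≤ 8 / c * s := by
        rw [div_mul_eq_mul_div]
        apply div_le_div_of_nonneg_right _ hc.le
        nlinarith
      linarith
    have hD0 : 0 ≤ 4 * t / c + 4 * s := by positivity
    have hsm : (4 * t / c + 4 * s) / c ≤ 1 / 2 := by
      rw [le_div_iff₀ (by positivity)] at g3
      rw [div_le_iff₀ hc]
      linarith
    have hm := mF_exp (ν := ν) ht0 hWt hr hc h8 hsm (hp n) (hpc n)
    have hq := qF_exp (ν := ν) ht0 hWt hr hc h8 (hp n) (hpc n) (hint n) (hne n)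
    constructor
    · refine (hm.trans ?_)
      have h3 : 4 * t / c ^ 2 + ((4 * t / c + 4 * s) / c) ^ 2 ≤
          (8 / c ^ 2 + (D1 / c) ^ 2) * s ^ 2 := by
        have h4 : 4 * t / c ^ 2 ≤ 8 / c ^ 2 * s ^ 2 := by
          rw [div_mul_eq_mul_div]
          apply div_le_div_of_nonneg_right _ (by positivity)
          linarith
        have h5 : ((4 * t / c + 4 * s) / c) ^ 2 ≤ (D1 / c) ^ 2 * s ^ 2 := by
          rw [← mul_pow, div_mul_eq_mul_div]
          apply pow_le_pow_left₀ (by positivity)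
          apply div_le_div_of_nonneg_right hD hc.le
        linarith
      have hKg0 : 0 ≤ Kg := by positivity
      calc 2 / Real.pi * (4 * t / c ^ 2 + ((4 * t / c + 4 * s) / c) ^ 2) * N
          ≤ 2 / Real.pi * ((8 / c ^ 2 + (D1 / c) ^ 2) * s ^ 2) * N := by gcongr
        _ = Ka * s ^ 2 := by rw [hKa]; ring
        _ ≤ (Ka + Kg) * s ^ 2 := by nlinarith [sq_nonneg s]
    · refine (hq.trans ?_)
      have hKa0 : 0 ≤ Ka := by positivity
      calc 12 / Real.pi * t * (4 * t / c + 4 * s) / c ^ 3 * N ^ 2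
          ≤ 12 / Real.pi * (2 * s ^ 2) * (D1 * s) / c ^ 3 * N ^ 2 := by gcongr
        _ = Kg * s ^ 3 := by rw [hKg]; ring
        _ ≤ (Ka + Kg) * s ^ 3 := by
            have : 0 < s ^ 3 := by positivity
            nlinarith

end Vale.Agent.P153.R2.KAPV
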