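import Vale.Agent.P153.R2.KAPV.Val
import Vale.Agent.P153.R2.OBSV.Fin

/-!
P153, block KAPV: `κ = 8 / π` from the landing statement, the Schwinger-Dyson equations of all the
arc domains and the moment and boundary estimates.
-/

set_option autoImplicit false
set_option linter.all false

namespace Vale.Agent.P153.R2.KAPV

/-- **The value of `κ`.** -/
theorem kap_top {κ : ℝ} (hκ : 0 < κ) (hS : LAND.S_land 2) (hmb : L_mb) (hl2 : L_l2) (hvb : L_vb)
    (hsd : L_sd κ) (hP : L_landP) (hM : L_landM) : κ = 8 / Real.pi :=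
  kap_val' hκ OBSV.s_crv OBSV.s_geo INTF.s_side POLY.s_can DRV.s_step
    (OBSV.s_landv (LOC.s_land_of (by norm_num) hS)) hmb hl2 hvb hsd hP hM

/-- The drivers, from the same inputs. -/
theorem i_drv_of_sd {κ : ℝ} (hS : LAND.S_land 2) (hsd : L_sd κ) : UNIQ.I_drv :=
  OBSV.i_drv_of hS (slitsd_of hsd)

end Vale.Agent.P153.R2.KAPV
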