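import Vale.Agent.P153.R2.OBSV.Lat
import Vale.Agent.P153.R2.FLDI.Riem

/-!
P153, block KAPV: the inputs on the lattice laws in arc domains, uniformly in the domain.
-/

set_option autoImplicit false

namespace Vale.Agent.P153.R2.KAPV

open Filter Topology Set Metric MeasureTheory
open Vale.Agent.P145.PT Vale.Agent.P153 Vale.Agent.P153.F.Top
open Vale.Agent.P153.R2.INTF (PP Arcs CA)
open Vale.Agent.P153.R2.OBSV (rd)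

/-- The smeared height. -/
noncomputable def hf (δ : ℝ) (f : ℝ × ℝ → ℝ) (h : Hg) : ℝ := hv δ f fun v => (h v : ℝ)

/-- Arc domains in a fixed ball. -/
structure Adm (R₀ δ : ℝ) (F P M : Set Pt) : Prop where
  dpos : 0 < δ
  arcs : Arcs F P M
  bF : ∀ v ∈ F, ‖dp δ v‖ ≤ R₀

/-- The lattice points close to the support of `f` are in `F`. -/
def InsF (δ : ℝ) (F : Set Pt) (f : ℝ × ℝ → ℝ) (r : ℝ) : Prop :=
  ∀ v : Pt, (∃ z ∈ tsupport f, dist (dp δ v) z ≤ r) → v ∈ F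

/-- `x` is at distance of order `s` from the complement of `F`. -/
def WhitF (δ : ℝ) (F : Set Pt) (x : ℝ × ℝ) (s : ℝ) : Prop :=
  (∀ v : Pt, dist (dp δ v) x ≤ 21 / 20 * s → v ∈ F) ∧ ∃ v : Pt, v ∉ F ∧ dist (dp δ v) x ≤ 5 * s

/-- INPUT (helper307): boundedness of the moments. -/
def L_mb : Prop := ∀ (R₀ : ℝ) (f : ℝ × ℝ → ℝ), TestOn univ f → ∀ (k : ℕ) (r : ℝ), 0 < r →
  ∃ C δ₀ : ℝ, 0 < δ₀ ∧ ∀ δ, δ < δ₀ → ∀ F P M : Set Pt, Adm R₀ δ F P M → InsF δ F f r →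
    Ex (CA F M) (fun h => hf δ f h ^ (2 * k)) ≤ C

/-- INPUT (helper307): the `L²` bound. -/
def L_l2 : Prop := ∀ R₀ : ℝ, ∃ C : ℝ, 0 ≤ C ∧ ∀ f, TestOn univ f → ∀ r ε : ℝ, 0 < r → 0 < ε →
  ∃ δ₀ : ℝ, 0 < δ₀ ∧ ∀ δ, δ < δ₀ → ∀ F P M : Set Pt, Adm R₀ δ F P M → InsF δ F f r →
    Ex (CA F M) (fun h => hf δ f h ^ 2) ≤ C * (∫ z, f z ^ 2) + ε

/-- INPUT (helper307): the averages over Whitney balls. -/
def L_vb : Prop := ∀ R₀ : ℝ, ∃ K : ℝ, 0 ≤ K ∧ ∀ (x : ℝ × ℝ) (s : ℝ), 0 < s →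
  ∃ δ₀ : ℝ, 0 < δ₀ ∧ ∀ δ, δ < δ₀ → ∀ F P M : Set Pt, Adm R₀ δ F P M → WhitF δ F x s →
    Ex (CA F M) (fun h => hf δ (bump s x) h ^ 2) ≤ K

/-- INPUT (helper506, helper443): the Schwinger-Dyson equations with all powers. -/
def L_sd (κ : ℝ) : Prop := ∀ (R₀ : ℝ) (ψ f : ℝ × ℝ → ℝ), TestOn univ ψ → TestOn univ f →
  ∀ (j : ℕ) (r ε : ℝ), 0 < r → 0 < ε → ∃ δ₀ : ℝ, 0 < δ₀ ∧ ∀ δ, δ < δ₀ → ∀ F P M : Set Pt,
    Adm R₀ δ F P M → InsF δ F ψ r → InsF δ F f r →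
      |Ex (CA F M) (fun h => hf δ (lap ψ) h * hf δ f h ^ j) +
        κ * j * (∫ z, ψ z * f z) * Ex (CA F M) (fun h => hf δ f h ^ (j - 1))| ≤ ε

/-- INPUT (helper307): landing with powers, at points from which no wall `+1` is visible. -/
def L_landP : Prop := ∀ (R₀ : ℝ) (f : ℝ × ℝ → ℝ), TestOn univ f → ∀ (k : ℕ) (r η : ℝ), 0 < r →
  0 < η → ∃ c : ℝ, 0 < c ∧ ∀ R : ℝ, 0 < R → ∀ (x : ℝ × ℝ) (s : ℝ), 0 < s → 4 * s ≤ c * R →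
    (∀ z ∈ tsupport f, R ≤ dist z x) → ∃ δ₀ : ℝ, 0 < δ₀ ∧ ∀ δ, δ < δ₀ → ∀ F P M : Set Pt,
      Adm R₀ δ F P M → InsF δ F f r → WhitF δ F x s →
      (∀ a ∈ Cl (F ∩ bx (rd δ x) ⌊R / (16 * δ)⌋) {rd δ x}, ∀ b ∈ P, ¬ Adj a b) →
        |Ex (CA F M) (fun h => (hf δ (bump s x) h + 1) * hf δ f h ^ k)| ≤ η

/-- INPUT (helper307): landing with powers, at points from which no wall `-1` is visible. -/
def L_landM : Prop := ∀ (R₀ : ℝ) (f : ℝ × ℝ → ℝ), TestOn univ f → ∀ (k : ℕ) (r η : ℝ), 0 < r →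
  0 < η → ∃ c : ℝ, 0 < c ∧ ∀ R : ℝ, 0 < R → ∀ (x : ℝ × ℝ) (s : ℝ), 0 < s → 4 * s ≤ c * R →
    (∀ z ∈ tsupport f, R ≤ dist z x) → ∃ δ₀ : ℝ, 0 < δ₀ ∧ ∀ δ, δ < δ₀ → ∀ F P M : Set Pt,
      Adm R₀ δ F P M → InsF δ F f r → WhitF δ F x s →
      (∀ a ∈ Cl (F ∩ bx (rd δ x) ⌊R / (16 * δ)⌋) {rd δ x}, ∀ b ∈ M, ¬ Adj a b) →
        |Ex (CA F M) (fun h => (hf δ (bump s x) h - 1) * hf δ f h ^ k)| ≤ η

end Vale.Agent.P153.R2.KAPV
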