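import Vale.Agent.P153.R2.FLDI.Gauss
import Vale.Agent.P153.R2.KAPV.Prime

/-!
P153, block KAPV: identification of the limit in a conformal image of the half-plane, with
boundary values along the images of the vertical lines (for slit domains).
-/

set_option autoImplicit false

namespace Vale.Agent.P153.R2.KAPV

open Filter Topology Set MeasureTheory Polynomial
open Vale.Agent.P145.PT Vale.Agent.P153 Vale.Agent.P153.F.Top Vale.Agent.P153.R2.FLDI

/-- The facts about the lattice laws `μ n` inside the open set `D`, without boundary values. -/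
structure ArcB (κ : ℝ) (δ : ℕ → ℝ) (B : ℕ → Finset (ℤ × ℤ)) (μ : ℕ → Measure Om)
    (D : Set (ℝ × ℝ)) (U : Ultrafilter ℕ) : Prop where
  κpos : 0 < κ
  op : IsOpen D
  bdd : Bornology.IsBounded D
  mom : ∀ n, Mom (μ n)
  /-- Boundedness of the moments. -/
  mb : ∀ f, TestOn D f → ∀ k : ℕ, ∃ C : ℝ, ∀ᶠ n in (U : Filter ℕ),
    ∫ ω, hB (B n) (δ n) f ω ^ (2 * k) ∂(μ n) ≤ C
  /-- `L²` bound. -/
  l2 : ∃ C : ℝ, 0 ≤ C ∧ ∀ f, TestOn D f → ∀ ε : ℝ, 0 < ε → ∀ᶠ n in (U : Filter ℕ),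
    ∫ ω, hB (B n) (δ n) f ω ^ 2 ∂(μ n) ≤ C * (∫ z, f z ^ 2) + ε
  /-- Second moments of the averages over Whitney balls. -/
  vb : ∃ K : ℝ, 0 ≤ K ∧ ∀ x ∈ D, ∀ᶠ n in (U : Filter ℕ),
    ∫ ω, hB (B n) (δ n) (bump (dd D x / 2) x) ω ^ 2 ∂(μ n) ≤ K
  /-- The mean is harmonic. -/
  sd0 : ∀ ψ, TestOn D ψ → Tendsto (fun n => ∫ ω, hB (B n) (δ n) (lap ψ) ω ∂(μ n)) U (𝓝 0)
  /-- The Schwinger-Dyson equations. -/
  sd : ∀ ψ f, TestOn D ψ → TestOn D f → ∀ k : ℕ,
    Tendsto (fun n => sdE κ (B n) (δ n) (μ n) ψ f k) U (𝓝 0)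

variable {κ : ℝ} {δ : ℕ → ℝ} {B : ℕ → Finset (ℤ × ℤ)} {μ : ℕ → Measure Om}
  {D : Set (ℝ × ℝ)} {U : Ultrafilter ℕ}

/-- Boundedness of polynomials of the field. -/
theorem ArcB.bd_poly (A : ArcB κ δ B μ D U) {f : ℝ × ℝ → ℝ} (hf : TestOn D f) (p : ℝ[X]) :
    ∃ C : ℝ, 0 ≤ C ∧ ∀ᶠ n in (U : Filter ℕ), ∫ ω, p.eval (hB (B n) (δ n) f ω) ^ 2 ∂(μ n) ≤ C := by
  induction p using Polynomial.induction_on' with
  | add p q hp hq =>
    obtain ⟨C1, h1, hC1⟩ := hp
    obtain ⟨C2, h2, hC2⟩ := hq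
    refine ⟨2 * C1 + 2 * C2, by positivity, ?_⟩
    filter_upwards [hC1, hC2] with n g1 g2
    have i1 := (A.mom n).integrable ((alg_poly (B := B n) (δ := δ n) f p).pow 2)
    have i2 := (A.mom n).integrable ((alg_poly (B := B n) (δ := δ n) f q).pow 2)
    have i3 := (A.mom n).integrable ((alg_poly (B := B n) (δ := δ n) f (p + q)).pow 2)
    calc ∫ ω, (p + q).eval (hB (B n) (δ n) f ω) ^ 2 ∂(μ n)
        ≤ ∫ ω, (2 * p.eval (hB (B n) (δ n) f ω) ^ 2 + 2 * q.eval (hB (B n) (δ n) f ω) ^ 2) ∂(μ n) := by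
          refine integral_mono i3 ((i1.const_mul 2).add (i2.const_mul 2)) fun ω => ?_
          simp only [eval_add]
          nlinarith [sq_nonneg (p.eval (hB (B n) (δ n) f ω) - q.eval (hB (B n) (δ n) f ω))]
      _ ≤ 2 * C1 + 2 * C2 := by
          rw [integral_add (i1.const_mul 2) (i2.const_mul 2), integral_const_mul,
            integral_const_mul]
          linarith
  | monomial k a =>
    obtain ⟨C, hC⟩ := A.mb f hf k
    refine ⟨a ^ 2 * max C 0, by positivity, ?_⟩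
    filter_upwards [hC] with n g
    have e : ∀ ω, (monomial k a).eval (hB (B n) (δ n) f ω) ^ 2 =
        a ^ 2 * hB (B n) (δ n) f ω ^ (2 * k) := fun ω => by
      rw [eval_monomial, mul_pow, ← pow_mul, mul_comm k 2]
    simp_rw [e]
    rw [integral_const_mul]
    exact mul_le_mul_of_nonneg_left (g.trans (le_max_left _ _)) (sq_nonneg a)

/-- The Schwinger-Dyson equation for polynomials. -/
theorem ArcB.sd_poly (A : ArcB κ δ B μ D U) {ψ f : ℝ × ℝ → ℝ} (hψ : TestOn D ψ)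
    (hf : TestOn D f) (p : ℝ[X]) :
    Tendsto (fun n => (∫ ω, hB (B n) (δ n) (lap ψ) ω * p.eval (hB (B n) (δ n) f ω) ∂(μ n)) +
      κ * (∫ z, ψ z * f z) * ∫ ω, (derivative p).eval (hB (B n) (δ n) f ω) ∂(μ n)) U (𝓝 0) := by
  induction p using Polynomial.induction_on' with
  | add p q hp hq =>
    have h := hp.add hq
    rw [add_zero] at h
    refine h.congr fun n => ?_
    have i1 := (A.mom n).integrable (Alg.mul (alg_hB (B := B n) (δ := δ n) (f := lap ψ))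
      (alg_poly (B := B n) (δ := δ n) f p))
    have i2 := (A.mom n).integrable (Alg.mul (alg_hB (B := B n) (δ := δ n) (f := lap ψ))
      (alg_poly (B := B n) (δ := δ n) f q))
    have i3 := (A.mom n).integrable (alg_poly (B := B n) (δ := δ n) f (derivative p))
    have i4 := (A.mom n).integrable (alg_poly (B := B n) (δ := δ n) f (derivative q))
    simp only [derivative_add, eval_add, mul_add]
    rw [integral_add i1 i2, integral_add i3 i4]
    ring
  | monomial k a =>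
    rcases k with _ | k
    · have h := (A.sd0 ψ hψ).const_mul a
      rw [mul_zero] at h
      refine h.congr fun n => ?_
      simp only [derivative_monomial, eval_monomial, pow_zero, mul_one, Nat.cast_zero, mul_zero,
        monomial_zero_right, eval_zero, integral_zero, add_zero]
      rw [← integral_const_mul]
      congr 1
      funext ω
      ring
    · have h := (A.sd ψ f hψ hf k).const_mul a
      rw [mul_zero] at h
      refine h.congr fun n => ?_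
      unfold sdE
      simp only [derivative_monomial, eval_monomial, add_tsub_cancel_right]
      have e1 : ∫ ω, hB (B n) (δ n) (lap ψ) ω * (a * hB (B n) (δ n) f ω ^ (k + 1)) ∂(μ n) =
          a * ∫ ω, hB (B n) (δ n) (lap ψ) ω * hB (B n) (δ n) f ω ^ (k + 1) ∂(μ n) := by
        rw [← integral_const_mul]
        congr 1
        funext ω
        ring
      rw [e1, integral_const_mul]
      push_cast
      ring

theorem ArcB.tend_poly (A : ArcB κ δ B μ D U) {f : ℝ × ℝ → ℝ} (hf : TestOn D f) (p : ℝ[X]) :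
    Tendsto (fun n => ∫ ω, p.eval (hB (B n) (δ n) f ω) ∂(μ n)) U
      (𝓝 (lm U fun n => ∫ ω, p.eval (hB (B n) (δ n) f ω) ∂(μ n))) := by
  obtain ⟨C, hC0, hC⟩ := A.bd_poly hf p
  refine tend_lm (C := Real.sqrt C) ?_
  filter_upwards [hC] with n hn
  refine Real.abs_le_sqrt ?_
  have h1 := (A.mom n).cs (alg_poly (B := B n) (δ := δ n) f p) (alg_const 1)
  have := (A.mom n).prob
  simp only [mul_one, one_pow, integral_const, probReal_univ, smul_eq_mul] at h1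
  exact h1.trans hn

/-- Mixed moments with a polynomial. -/
theorem ArcB.tend_mixed (A : ArcB κ δ B μ D U) {g f : ℝ × ℝ → ℝ} (hg : TestOn D g)
    (hf : TestOn D f) (c : ℝ) (p : ℝ[X]) :
    Tendsto (fun n => ∫ ω, (hB (B n) (δ n) g ω - c) * p.eval (hB (B n) (δ n) f ω) ∂(μ n)) U
      (𝓝 (lm U fun n => ∫ ω, (hB (B n) (δ n) g ω - c) * p.eval (hB (B n) (δ n) f ω) ∂(μ n))) := by
  obtain ⟨C, hC0, hC⟩ := A.bd_poly hf p
  obtain ⟨C', hC0', hC'⟩ := A.bd_poly hg (X - Polynomial.C c)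
  refine tend_lm (C := Real.sqrt (C' * C)) ?_
  filter_upwards [hC, hC'] with n hn hn'
  refine Real.abs_le_sqrt ?_
  have h1 := (A.mom n).cs (alg_sub_const (B := B n) (δ := δ n) g c) (alg_poly (B := B n) (δ := δ n) f p)
  refine h1.trans (mul_le_mul ?_ hn (integral_nonneg fun ω => sq_nonneg _) hC0')
  simpa using hn'

theorem ArcB.mean_l2fn (A : ArcB κ δ B μ D U) :
    ∃ C, L2Fn D (fun g => lm U fun n => ∫ ω, hB (B n) (δ n) g ω ∂(μ n)) C := by
  obtain ⟨C₂, hC₂, h2⟩ := A.l2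
  have ht : ∀ g, TestOn D g → Tendsto (fun n => ∫ ω, hB (B n) (δ n) g ω ∂(μ n)) U
      (𝓝 (lm U fun n => ∫ ω, hB (B n) (δ n) g ω ∂(μ n))) := fun g hg => by
    have := A.tend_poly hg X
    simpa using this
  refine ⟨Real.sqrt C₂, ?_, ?_, ?_⟩
  · intro g g' hg hg'
    refine lm_eq ?_
    refine ((ht g hg).add (ht g' hg')).congr fun n => ?_
    rw [← integral_add ((A.mom n).integrable alg_hB) ((A.mom n).integrable alg_hB)]
    congr 1
    funext ω
    rw [hB_add]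
  · intro a g hg
    refine lm_eq ?_
    refine ((ht g hg).const_mul a).congr fun n => ?_
    rw [← integral_const_mul]
    congr 1
    funext ω
    rw [hB_smul]
  · intro g hg
    have h3 : (lm U fun n => ∫ ω, hB (B n) (δ n) g ω ∂(μ n)) ^ 2 ≤ (C₂ * ∫ z, g z ^ 2) * 1 := by
      refine sq_limit zero_le_one (ht g hg) fun ε hε => ?_
      filter_upwards [h2 g hg ε hε] with n h3
      have h1 := (A.mom n).cs (alg_hB (B := B n) (δ := δ n) (f := g)) (alg_const 1)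
      have := (A.mom n).prob
      simp only [mul_one, one_pow, integral_const, probReal_univ, smul_eq_mul] at h1
      rw [mul_one]
      exact h1.trans h3
    have h4 := Real.abs_le_sqrt h3
    rw [mul_one, Real.sqrt_mul hC₂] at h4
    exact h4

theorem ArcB.uu_spec (A : ArcB κ δ B μ D U) : Harm D (uu δ B μ D U) ∧ ∀ f, TestOn D f →
    (lm U fun n => ∫ ω, hB (B n) (δ n) f ω ∂(μ n)) = ∫ z, uu δ B μ D U z * f z := by
  obtain ⟨C, hC⟩ := A.mean_l2fn
  exact uT_spec A.op A.bdd hC fun ψ hψ => lm_eq (A.sd0 ψ hψ)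

theorem ArcB.tend_mean (A : ArcB κ δ B μ D U) {f : ℝ × ℝ → ℝ} (hf : TestOn D f) :
    Tendsto (fun n => ∫ ω, hB (B n) (δ n) f ω ∂(μ n)) U (𝓝 (∫ z, uu δ B μ D U z * f z)) := by
  rw [← A.uu_spec.2 f hf]
  have := A.tend_poly hf X
  simpa using this

theorem ArcB.tend_Ac (A : ArcB κ δ B μ D U) {g f : ℝ × ℝ → ℝ} (hg : TestOn D g)
    (hf : TestOn D f) (u : ℝ × ℝ → ℝ) (k : ℕ) :
    Tendsto (fun n => ∫ ω, (hB (B n) (δ n) g ω - ∫ z, u z * g z) *
      (hB (B n) (δ n) f ω - ∫ z, u z * f z) ^ k ∂(μ n)) U (𝓝 (Ac δ B μ u U f k g)) := by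
  have h := A.tend_mixed hg hf (∫ z, u z * g z) ((X - Polynomial.C (∫ z, u z * f z)) ^ k)
  simp only [eval_pk] at h
  exact h

theorem ArcB.tend_ac (A : ArcB κ δ B μ D U) {f : ℝ × ℝ → ℝ}
    (hf : TestOn D f) (u : ℝ × ℝ → ℝ) (k : ℕ) :
    Tendsto (fun n => ∫ ω, (hB (B n) (δ n) f ω - ∫ z, u z * f z) ^ k ∂(μ n)) U
      (𝓝 (ac δ B μ u U f k)) := by
  have h := A.tend_poly hf ((X - Polynomial.C (∫ z, u z * f z)) ^ k)
  simp only [eval_pk] at h
  exact h

theorem ArcB.Ac_sq (A : ArcB κ δ B μ D U) {g f : ℝ × ℝ → ℝ} (hg : TestOn D g)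
    (hf : TestOn D f) (u : ℝ × ℝ → ℝ) (k : ℕ) {C Q : ℝ} (hQ0 : 0 ≤ Q)
    (hC : ∀ᶠ n in (U : Filter ℕ), ∫ ω, (hB (B n) (δ n) f ω - ∫ z, u z * f z) ^ (2 * k) ∂(μ n) ≤ C)
    (hQ : ∀ᶠ n in (U : Filter ℕ), ∫ ω, hB (B n) (δ n) g ω ^ 2 ∂(μ n) ≤ Q) :
    Ac δ B μ u U f k g ^ 2 ≤ (2 * Q + 2 * (∫ z, u z * g z) ^ 2) * C := by
  refine le_of_tendsto ((A.tend_Ac hg hf u k).pow 2) ?_
  filter_upwards [hC, hQ] with n h1 h2
  have h3 := (A.mom n).cs (alg_sub_const (B := B n) (δ := δ n) g (∫ z, u z * g z))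
    ((alg_sub_const (B := B n) (δ := δ n) f (∫ z, u z * f z)).pow k)
  have e : ∀ ω, ((hB (B n) (δ n) f ω - ∫ z, u z * f z) ^ k) ^ 2 =
      (hB (B n) (δ n) f ω - ∫ z, u z * f z) ^ (2 * k) := fun ω => by
    rw [← pow_mul, mul_comm]
  simp_rw [e] at h3
  have h0 : 0 ≤ ∫ ω, (hB (B n) (δ n) f ω - ∫ z, u z * f z) ^ (2 * k) ∂(μ n) :=
    integral_nonneg fun ω => by
      rw [pow_mul]
      exact pow_nonneg (sq_nonneg _) k
  refine h3.trans (mul_le_mul ?_ h1 h0 (by positivity))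
  have hprob := (A.mom n).prob
  calc ∫ ω, (hB (B n) (δ n) g ω - ∫ z, u z * g z) ^ 2 ∂(μ n)
      ≤ ∫ ω, (2 * hB (B n) (δ n) g ω ^ 2 + 2 * (∫ z, u z * g z) ^ 2) ∂(μ n) := by
        refine integral_mono ((A.mom n).integrable
          ((alg_sub_const (B := B n) (δ := δ n) g (∫ z, u z * g z)).pow 2))
          ((((A.mom n).integrable (alg_hB.pow 2)).const_mul 2).add (integrable_const _))
          fun ω => ?_
        simp only
        nlinarith [sq_nonneg (hB (B n) (δ n) g ω + ∫ z, u z * g z)]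
    _ = 2 * (∫ ω, hB (B n) (δ n) g ω ^ 2 ∂(μ n)) + 2 * (∫ z, u z * g z) ^ 2 := by
        rw [integral_add (((A.mom n).integrable (alg_hB.pow 2)).const_mul 2)
          (integrable_const _), integral_const_mul]
        simp
    _ ≤ 2 * Q + 2 * (∫ z, u z * g z) ^ 2 := by linarith

theorem ArcB.bd_ck (A : ArcB κ δ B μ D U) {f : ℝ × ℝ → ℝ} (hf : TestOn D f) (m : ℝ) (k : ℕ) :
    ∃ C : ℝ, 0 ≤ C ∧ ∀ᶠ n in (U : Filter ℕ),
      ∫ ω, (hB (B n) (δ n) f ω - m) ^ (2 * k) ∂(μ n) ≤ C := by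
  obtain ⟨C, hC0, hC⟩ := A.bd_poly hf ((X - Polynomial.C m) ^ k)
  refine ⟨C, hC0, ?_⟩
  filter_upwards [hC] with n hn
  simp only [eval_pk] at hn
  refine le_trans (le_of_eq ?_) hn
  congr 1
  funext ω
  rw [← pow_mul, mul_comm]

theorem ArcB.Ac_l2fn (A : ArcB κ δ B μ D U) {f u : ℝ × ℝ → ℝ} (hf : TestOn D f)
    (hu : Harm D u) {K : ℝ} (hK : ∀ z ∈ D, |u z| ≤ K) (k : ℕ) :
    ∃ C, L2Fn D (Ac δ B μ u U f k) C := by
  obtain ⟨C₂, hC₂, h2⟩ := A.l2
  obtain ⟨C', hC'0, hC'⟩ := A.bd_ck hf (∫ z, u z * f z) k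
  obtain ⟨Cu, hCu⟩ := harm_l2fn A.op A.bdd hu.smooth hK
  refine ⟨Real.sqrt ((2 * C₂ + 2 * Cu ^ 2) * C'), ?_, ?_, ?_⟩
  · intro g g' hg hg'
    refine lm_eq ?_
    refine ((A.tend_Ac hg hf u k).add (A.tend_Ac hg' hf u k)).congr fun n => ?_
    have i1 := fun g : ℝ × ℝ → ℝ => (A.mom n).integrable (Alg.mul
      (alg_sub_const (B := B n) (δ := δ n) g (∫ z, u z * g z))
      ((alg_sub_const (B := B n) (δ := δ n) f (∫ z, u z * f z)).pow k))
    rw [← integral_add (i1 g) (i1 g')]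
    congr 1
    funext ω
    rw [hB_add]
    have := hCu.add g g' hg hg'
    simp only at this
    rw [this]
    ring
  · intro a g hg
    refine lm_eq ?_
    refine ((A.tend_Ac hg hf u k).const_mul a).congr fun n => ?_
    rw [← integral_const_mul]
    congr 1
    funext ω
    rw [hB_smul]
    have := hCu.smul a g hg
    simp only at this
    rw [this]
    ring
  · intro g hg
    have h3 : Ac δ B μ u U f k g ^ 2 ≤ ((2 * C₂ + 2 * Cu ^ 2) * ∫ z, g z ^ 2) * C' := by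
      have hub := hCu.bd g hg
      have hI : 0 ≤ ∫ z, g z ^ 2 := integral_nonneg fun z => sq_nonneg _
      have hub2 : (∫ z, u z * g z) ^ 2 ≤ Cu ^ 2 * ∫ z, g z ^ 2 := by
        rw [← sq_abs]
        calc |∫ z, u z * g z| ^ 2 ≤ (Cu * Real.sqrt (∫ z, g z ^ 2)) ^ 2 :=
              pow_le_pow_left₀ (abs_nonneg _) hub 2
          _ = Cu ^ 2 * ∫ z, g z ^ 2 := by rw [mul_pow, Real.sq_sqrt hI]
      refine le_of_forall_pos_le_add fun η hη => ?_
      have h4 := A.Ac_sq hg hf u k (Q := C₂ * (∫ z, g z ^ 2) + η / (2 * (C' + 1))) (by positivity)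
        hC' (h2 g hg _ (by positivity))
      have h5 : (2 * (C₂ * (∫ z, g z ^ 2) + η / (2 * (C' + 1))) + 2 * (∫ z, u z * g z) ^ 2) * C' ≤
          (2 * (C₂ * (∫ z, g z ^ 2) + η / (2 * (C' + 1))) + 2 * (Cu ^ 2 * ∫ z, g z ^ 2)) * C' :=
        mul_le_mul_of_nonneg_right (by linarith) hC'0
      have h6 : η / (C' + 1) * C' ≤ η := by
        rw [div_mul_eq_mul_div, div_le_iff₀ (by linarith)]
        nlinarith
      have h7 : 2 * (η / (2 * (C' + 1))) * C' = η / (C' + 1) * C' := by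
        field_simp
      nlinarith
    have h4 := Real.abs_le_sqrt h3
    rw [show (2 * C₂ + 2 * Cu ^ 2) * (∫ z, g z ^ 2) * C' =
      ((2 * C₂ + 2 * Cu ^ 2) * C') * ∫ z, g z ^ 2 by ring,
      Real.sqrt_mul (by positivity)] at h4
    exact h4

theorem ArcB.Ac_sd0 (A : ArcB κ δ B μ D U) {f u ψ : ℝ × ℝ → ℝ}
    (hu : Harm D u) (hψ : TestOn D ψ) : Ac δ B μ u U f 0 (lap ψ) = 0 := by
  refine lm_eq ?_
  rw [hu.weak A.op A.bdd hψ]
  simpa using A.sd0 ψ hψ

theorem ArcB.Ac_sd (A : ArcB κ δ B μ D U) {f u ψ : ℝ × ℝ → ℝ} (hf : TestOn D f)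
    (hu : Harm D u) (hψ : TestOn D ψ) (k : ℕ) : Ac δ B μ u U f (k + 1) (lap ψ) =
      - (κ * (k + 1) * (∫ z, ψ z * f z) * ac δ B μ u U f k) := by
  have h1 := A.sd_poly hψ hf ((X - Polynomial.C (∫ z, u z * f z)) ^ (k + 1))
  have h2 := (A.tend_ac hf u k).const_mul (κ * (∫ z, ψ z * f z) * (k + 1))
  have h3 := h1.sub h2
  rw [zero_sub] at h3
  have h4 := A.tend_Ac hψ.lap hf u (k + 1)
  rw [hu.weak A.op A.bdd hψ] at h4
  refine tendsto_nhds_unique h4 ?_
  rw [show κ * (k + 1) * (∫ z, ψ z * f z) * ac δ B μ u U f k =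
    κ * (∫ z, ψ z * f z) * (k + 1) * ac δ B μ u U f k by ring]
  refine h3.congr fun n => ?_
  simp only [eval_pk, sub_zero]
  rw [derivative_X_sub_C_pow]
  simp only [eval_mul, eval_C, eval_pk, add_tsub_cancel_right]
  rw [integral_const_mul]
  push_cast
  ring


end Vale.Agent.P153.R2.KAPV
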