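import Vale.Agent.P153.R2.KAPV.ArcB

/-!
P153, block KAPV: identification of the limit with boundary values along the images of the
vertical lines.
-/

set_option autoImplicit false

namespace Vale.Agent.P153.R2.KAPV

open Filter Topology Set MeasureTheory Polynomial
open Vale.Agent.P145.PT Vale.Agent.P153 Vale.Agent.P153.F.Top Vale.Agent.P153.R2.FLDI

/-- The average of a bounded harmonic function over a Whitney ball. -/
theorem harm_avg {D : Set (ℝ × ℝ)} (hD : IsOpen D) (hb : Bornology.IsBounded D)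
    {u : ℝ × ℝ → ℝ} (hu : Harm D u) {K : ℝ} (hK : ∀ z ∈ D, |u z| ≤ K) {x : ℝ × ℝ} (hx : x ∈ D) :
    ∫ z, u z * bump (dd D x / 2) x z = u x := by
  obtain ⟨C, hC⟩ := harm_l2fn hD hb hu.smooth hK
  obtain ⟨h1, h2⟩ := uT_spec hD hb hC fun ψ hψ => hu.weak hD hb hψ
  have h3 : ∀ f, TestOn D f →
      ∫ z, (uT D (fun f => ∫ z, u z * f z) z + (-1) * u z) * f z = 0 := by
    intro f hf
    have e := h2 f hf
    have e1 : ∀ z, (uT D (fun f => ∫ z, u z * f z) z + (-1) * u z) * f z =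
        uT D (fun f => ∫ z, u z * f z) z * f z - u z * f z := fun z => by ring
    simp_rw [e1]
    rw [integral_sub (TestOn.locInt hD hb h1.smooth hf) (TestOn.locInt hD hb hu.smooth hf)]
    rw [e]
    ring
  have h4 := zero_of_weak hD hb (h1.comb hD hb hu (-1)).smooth h3 x hx
  unfold uT at h4
  linarith

/-- The facts about the lattice laws `μ n` in a conformal image `D` of the half-plane, with the
boundary values `s` along the images of the vertical lines. -/
structure ArcP (κ : ℝ) (δ : ℕ → ℝ) (B : ℕ → Finset (ℤ × ℤ)) (μ : ℕ → Measure Om)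
    (D : Set (ℝ × ℝ)) (F G : ℂ → ℂ) (s : ℝ → ℝ) (U : Ultrafilter ℕ) : Prop where
  base : ArcB κ δ B μ D U
  un : Unif D F G
  bvp : ∀ᵐ y : ℝ, ∀ f, TestOn D f → ∀ (k : ℕ) (ε : ℝ), 0 < ε → ∀ᶠ η : ℝ in 𝓝[>] 0,
    ∀ᶠ n in (U : Filter ℕ),
      |∫ ω, (hB (B n) (δ n) (bump (dd D (toR (F ⟨y, η⟩)) / 2) (toR (F ⟨y, η⟩))) ω - s y) *
        hB (B n) (δ n) f ω ^ k ∂(μ n)| ≤ ε

/-- A bounded harmonic function with the boundary values `s` along the images of the vertical
lines. -/
structure DirP (D : Set (ℝ × ℝ)) (F : ℂ → ℂ) (s : ℝ → ℝ) (u : ℝ × ℝ → ℝ) : Prop where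
  harm : Harm D u
  bdd : ∃ K : ℝ, ∀ z ∈ D, |u z| ≤ K
  bv : ∀ᵐ y : ℝ, Tendsto (fun η : ℝ => u (toR (F ⟨y, η⟩))) (𝓝[>] 0) (𝓝 (s y))

variable {κ : ℝ} {δ : ℕ → ℝ} {B : ℕ → Finset (ℤ × ℤ)} {μ : ℕ → Measure Om}
  {D : Set (ℝ × ℝ)} {F G : ℂ → ℂ} {s : ℝ → ℝ} {U : Ultrafilter ℕ}

theorem Unif.mem (h : Unif D F G) {y η : ℝ} (hη : 0 < η) : toR (F ⟨y, η⟩) ∈ D := h.Fm _ hη

theorem ArcP.bvp_poly (A : ArcP κ δ B μ D F G s U) (p : ℝ[X]) :
    ∀ᵐ y : ℝ, ∀ f, TestOn D f → ∀ ε : ℝ, 0 < ε → ∀ᶠ η : ℝ in 𝓝[>] 0,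
    ∀ᶠ n in (U : Filter ℕ),
      |∫ ω, (hB (B n) (δ n) (bump (dd D (toR (F ⟨y, η⟩)) / 2) (toR (F ⟨y, η⟩))) ω - s y) *
        p.eval (hB (B n) (δ n) f ω) ∂(μ n)| ≤ ε := by
  induction p using Polynomial.induction_on' with
  | add p q hp hq =>
    filter_upwards [hp, hq] with y hpy hqy f hf ε hε
    filter_upwards [hpy f hf (ε / 2) (half_pos hε), hqy f hf (ε / 2) (half_pos hε)] with η h1 h2
    filter_upwards [h1, h2] with n g1 g2
    have i1 := (A.base.mom n).integrable (Alg.mul (alg_sub_const (B := B n) (δ := δ n)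
      (bump (dd D (toR (F ⟨y, η⟩)) / 2) (toR (F ⟨y, η⟩))) (s y))
      (alg_poly (B := B n) (δ := δ n) f p))
    have i2 := (A.base.mom n).integrable (Alg.mul (alg_sub_const (B := B n) (δ := δ n)
      (bump (dd D (toR (F ⟨y, η⟩)) / 2) (toR (F ⟨y, η⟩))) (s y))
      (alg_poly (B := B n) (δ := δ n) f q))
    simp only [eval_add, mul_add]
    rw [integral_add i1 i2]
    exact (abs_add_le _ _).trans (by linarith)
  | monomial k a =>
    filter_upwards [A.bvp] with y hy f hf ε hε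
    filter_upwards [hy f hf k (ε / (|a| + 1)) (by positivity)] with η h
    filter_upwards [h] with n g
    simp only [eval_monomial]
    have e1 : ∫ ω, (hB (B n) (δ n) (bump (dd D (toR (F ⟨y, η⟩)) / 2) (toR (F ⟨y, η⟩))) ω - s y) *
        (a * hB (B n) (δ n) f ω ^ k) ∂(μ n) =
        a * ∫ ω, (hB (B n) (δ n) (bump (dd D (toR (F ⟨y, η⟩)) / 2) (toR (F ⟨y, η⟩))) ω - s y) *
          hB (B n) (δ n) f ω ^ k ∂(μ n) := by
      rw [← integral_const_mul]
      congr 1
      funext ω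
      ring
    rw [e1, abs_mul]
    calc |a| * _ ≤ |a| * (ε / (|a| + 1)) := mul_le_mul_of_nonneg_left g (abs_nonneg _)
      _ = ε * (|a| / (|a| + 1)) := by ring
      _ ≤ ε := by
          have : |a| / (|a| + 1) ≤ 1 := by rw [div_le_one (by positivity)]; linarith
          nlinarith

/-- Decay of the centred functionals at the boundary. -/
theorem ArcP.Ac_dec (A : ArcP κ δ B μ D F G s U) {u : ℝ × ℝ → ℝ} (hu : DirP D F s u)
    {f : ℝ × ℝ → ℝ} (hf : TestOn D f) (k : ℕ) : DecE D ∅ (Ac δ B μ u U f k) := by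
  have hD := A.base.op
  have hb := A.base.bdd
  obtain ⟨K, hK⟩ := hu.bdd
  obtain ⟨C, hC0, hC⟩ := A.base.bd_ck hf (∫ z, u z * f z) k
  obtain ⟨K2, hK20, hK2⟩ := A.base.vb
  obtain ⟨CL, hCL⟩ := A.base.Ac_l2fn hf hu.harm hK k
  set a := ac δ B μ u U f k with ha
  have hsd : ∃ g, TestOn D g ∧ ∀ ψ, TestOn D ψ →
      Ac δ B μ u U f k (lap ψ) = - ∫ z, ψ z * g z := by
    cases k with
    | zero =>
      refine ⟨fun _ => 0, TestOn.zero D, fun ψ hψ => ?_⟩
      rw [A.base.Ac_sd0 hu.harm hψ]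
      simp
    | succ k =>
      refine ⟨fun z => (κ * (k + 1) * ac δ B μ u U f k) * f z, hf.smul _, fun ψ hψ => ?_⟩
      rw [A.base.Ac_sd hf hu.harm hψ k]
      have : ∀ z, ψ z * ((κ * (k + 1) * ac δ B μ u U f k) * f z) =
          (κ * (k + 1) * ac δ B μ u U f k) * (ψ z * f z) := fun z => by ring
      simp_rw [this]
      rw [integral_const_mul]
      ring
  obtain ⟨g, hg, hsd⟩ := hsd
  refine dec_prime hD hb A.un hCL hg hsd ⟨Real.sqrt ((2 * K2 + 2 * K ^ 2) * C), 1, one_pos,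
    fun x hx _ => ?_⟩ ?_
  · have hbx := bump_test' hD hb hx
    have h1 := A.base.Ac_sq hbx hf u k hK20 hC (hK2 x hx)
    refine Real.abs_le_sqrt (h1.trans (mul_le_mul_of_nonneg_right ?_ hC0))
    have h2 := avg_bdd hD hb hu.harm.smooth hK hx
    have h3 : (∫ y, u y * bump (dd D x / 2) x y) ^ 2 ≤ K ^ 2 := by
      rw [← sq_abs]
      exact pow_le_pow_left₀ (abs_nonneg _) h2 2
    linarith
  · filter_upwards [A.bvp_poly ((X - Polynomial.C (∫ z, u z * f z)) ^ k), hu.bv] with y hy huy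
    rw [Metric.tendsto_nhds]
    intro ε hε
    have hu1 := (Metric.tendsto_nhds.1 huy) (ε / (4 * (|a| + 1))) (by positivity)
    filter_upwards [hy f hf (ε / 4) (by positivity), hu1, self_mem_nhdsWithin] with η h1 h2 hη
    have hη' : 0 < η := hη
    have hx := A.un.mem (y := y) hη'
    set x := toR (F ⟨y, η⟩) with hxd
    have hbx := bump_test' hD hb hx
    set c := ∫ z, u z * bump (dd D x / 2) x z with hc
    have hcu : c = u x := harm_avg hD hb hu.harm hK hx
    have t1 := A.base.tend_mixed hbx hf (s y) ((X - Polynomial.C (∫ z, u z * f z)) ^ k)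
    have t1' : Tendsto (fun n => ∫ ω, (hB (B n) (δ n) (bump (dd D x / 2) x) ω - c) *
        ((X - Polynomial.C (∫ z, u z * f z)) ^ k).eval (hB (B n) (δ n) f ω) ∂(μ n)) U
        (𝓝 ((lm U fun n => ∫ ω, (hB (B n) (δ n) (bump (dd D x / 2) x) ω - s y) *
          ((X - Polynomial.C (∫ z, u z * f z)) ^ k).eval (hB (B n) (δ n) f ω) ∂(μ n)) +
          (s y - c) * a)) := by
      refine (t1.add ((A.base.tend_ac hf u k).const_mul (s y - c))).congr fun n => ?_
      have i1 := (A.base.mom n).integrable (Alg.mul (alg_sub_const (B := B n) (δ := δ n)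
        (bump (dd D x / 2) x) (s y)) (alg_poly (B := B n) (δ := δ n) f
        ((X - Polynomial.C (∫ z, u z * f z)) ^ k)))
      have i2 := (A.base.mom n).integrable ((alg_sub_const (B := B n) (δ := δ n) f
        (∫ z, u z * f z)).pow k)
      rw [← integral_const_mul, ← integral_add i1 (i2.const_mul _)]
      congr 1
      funext ω
      rw [eval_pk]
      ring
    have e1 : Ac δ B μ u U f k (bump (dd D x / 2) x) =
        (lm U fun n => ∫ ω, (hB (B n) (δ n) (bump (dd D x / 2) x) ω - s y) *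
          ((X - Polynomial.C (∫ z, u z * f z)) ^ k).eval (hB (B n) (δ n) f ω) ∂(μ n)) +
          (s y - c) * a := by
      have t2 := A.base.tend_Ac hbx hf u k
      simp only [eval_pk] at t1' ⊢
      exact tendsto_nhds_unique t2 t1'
    have e2 : |lm U fun n => ∫ ω, (hB (B n) (δ n) (bump (dd D x / 2) x) ω - s y) *
          ((X - Polynomial.C (∫ z, u z * f z)) ^ k).eval (hB (B n) (δ n) f ω) ∂(μ n)| ≤ ε / 4 :=
      le_of_tendsto t1.abs h1
    have e3 : |s y - c| * |a| ≤ ε / 4 := by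
      rw [hcu, abs_sub_comm]
      rw [Real.dist_eq] at h2
      calc |u x - s y| * |a| ≤ ε / (4 * (|a| + 1)) * |a| :=
            mul_le_mul_of_nonneg_right h2.le (abs_nonneg _)
        _ = ε / 4 * (|a| / (|a| + 1)) := by field_simp
        _ ≤ ε / 4 := by
            have : |a| / (|a| + 1) ≤ 1 := by rw [div_le_one (by positivity)]; linarith
            nlinarith
    rw [Real.dist_eq, sub_zero]
    unfold wv
    rw [e1]
    refine lt_of_le_of_lt (abs_add_le _ _) ?_
    rw [abs_mul]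
    linarith

/-- The mean. -/
theorem ArcP.mean (A : ArcP κ δ B μ D F G s U) {u : ℝ × ℝ → ℝ} (hu : DirP D F s u)
    {f : ℝ × ℝ → ℝ} (hf : TestOn D f) :
    Tendsto (fun n => ∫ ω, hB (B n) (δ n) f ω ∂(μ n)) U (𝓝 (∫ z, u z * f z)) := by
  obtain ⟨K, hK⟩ := hu.bdd
  obtain ⟨CL, hCL⟩ := A.base.Ac_l2fn (TestOn.zero D) hu.harm hK 0
  have h0 := uniqE A.base.op A.base.bdd (fun e he => absurd he (Finset.notMem_empty e)) hCL
    (fun ψ hψ => A.base.Ac_sd0 hu.harm hψ) (A.Ac_dec hu (TestOn.zero D) 0) hf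
  have h1 := A.base.tend_Ac hf (TestOn.zero D) u 0
  rw [h0] at h1
  have h2 := h1.add_const (∫ z, u z * f z)
  rw [zero_add] at h2
  refine h2.congr fun n => ?_
  have := (A.base.mom n).prob
  simp only [pow_zero, mul_one]
  rw [integral_sub ((A.base.mom n).integrable alg_hB) (integrable_const _)]
  simp

theorem ArcP.covE (A : ArcP κ δ B μ D F G s U) {u : ℝ × ℝ → ℝ} (hu : DirP D F s u) :
    CovE D ∅ κ fun g f => Ac δ B μ u U f 1 g where
  symm := fun f g _ _ => by
    unfold Ac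
    congr 1
    funext n
    congr 1
    funext ω
    ring
  pos := fun f hf => ge_of_tendsto' (A.base.tend_Ac hf hf u 1) fun n => integral_nonneg fun ω => by
    simp only [pow_one]
    exact mul_self_nonneg _
  bd := fun g hg => by
    obtain ⟨K, hK⟩ := hu.bdd
    exact A.base.Ac_l2fn hg hu.harm hK 1
  sd := fun ψ g hψ hg => by
    have h := A.base.Ac_sd hg hu.harm hψ 0
    have h0 : ac δ B μ u U g 0 = 1 := by
      refine lm_eq ?_
      have : (fun n => ∫ ω, (hB (B n) (δ n) g ω - ∫ z, u z * g z) ^ 0 ∂(μ n)) =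
          fun _ => (1 : ℝ) := by
        funext n
        have := (A.base.mom n).prob
        simp
      rw [this]
      exact tendsto_const_nhds
    rw [h0] at h
    simp only [zero_add] at h
    rw [h]
    push_cast
    ring
  dec := fun g hg => A.Ac_dec hu hg 1

/-- The limit moments. -/
theorem ArcP.gauss (A : ArcP κ δ B μ D F G s U) {u : ℝ × ℝ → ℝ} (hu : DirP D F s u)
    {f : ℝ × ℝ → ℝ} (hf : TestOn D f) (k : ℕ) :
    Tendsto (fun n => ∫ ω, (hB (B n) (δ n) f ω - ∫ z, u z * f z) ^ k ∂(μ n)) U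
      (𝓝 (gm (κ * V D f) k)) := by
  have h0 : ac δ B μ u U f 0 = 1 := by
    refine lm_eq ?_
    have : (fun n => ∫ ω, (hB (B n) (δ n) f ω - ∫ z, u z * f z) ^ 0 ∂(μ n)) =
        fun _ => (1 : ℝ) := by
      funext n
      have := (A.base.mom n).prob
      simp
    rw [this]
    exact tendsto_const_nhds
  have h := moments_gaussE A.base.op A.base.bdd (fun e he => absurd he (Finset.notMem_empty e))
    A.base.κpos hf (A.covE hu)
    (fun k g => Ac δ B μ u U f k g) (fun k => ac δ B μ u U f k) rfl h0 (fun n => ?_)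
    (fun n => ?_) (fun ψ hψ => A.base.Ac_sd0 hu.harm hψ)
    (fun n ψ hψ => A.base.Ac_sd hf hu.harm hψ n)
    (fun n => A.Ac_dec hu hf n) k
  · rw [← h]
    exact A.base.tend_ac hf u k
  · unfold ac Ac
    congr 1
    funext n
    congr 1
    funext ω
    rw [pow_succ, mul_comm]
  · obtain ⟨K, hK⟩ := hu.bdd
    exact A.base.Ac_l2fn hf hu.harm hK n

/-- The limit variance from a kernel: if `N` is bounded on `D`, decays at the boundary and solves
`Δ N = - f` in the weak sense, then `V D f = ∫ N f`. -/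
theorem ArcP.V_eq (A : ArcP κ δ B μ D F G s U) {u : ℝ × ℝ → ℝ} (hu : DirP D F s u)
    {f : ℝ × ℝ → ℝ} (hf : TestOn D f) {N : ℝ × ℝ → ℝ} (hN : AEStronglyMeasurable N
    (volume.restrict D)) {KN : ℝ} (hKN : ∀ z ∈ D, |N z| ≤ KN)
    (heq : ∀ ψ, TestOn D ψ → ∫ z, N z * lap ψ z = - ∫ z, ψ z * f z)
    (hdec : ∀ ε : ℝ, 0 < ε → ∃ r : ℝ, 0 < r ∧ ∀ x ∈ D, dd D x < r → |N x| ≤ ε) :
    V D f = ∫ z, N z * f z := by
  have hD := A.base.op
  have hb := A.base.bdd
  obtain ⟨K, hK⟩ := hu.bdd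
  obtain ⟨CL, hCL⟩ := A.base.Ac_l2fn hf hu.harm hK 1
  have hfin : volume D < ⊤ := hb.measure_lt_top
  have hN2 : IntegrableOn (fun z => N z ^ 2) D := by
    have hc : Integrable (fun _ : ℝ × ℝ => KN ^ 2) (volume.restrict D) :=
      integrableOn_const (hs := hfin.ne)
    refine hc.mono' (hN.pow 2) ?_
    refine (ae_restrict_iff' hD.measurableSet).2 (ae_of_all _ fun z hz => ?_)
    rw [Real.norm_eq_abs, abs_pow]
    exact pow_le_pow_left₀ (abs_nonneg _) (hKN z hz) 2
  have hNl := l2fn_int hN hN2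
  have hT := hCL.comb hNl (-κ)
  have hsdf := (A.covE hu).sd
  have hdN : DecE D ∅ fun g => ∫ z, N z * g z := by
    have havg : ∀ x ∈ D, ∀ ε : ℝ, (∀ z ∈ D, dist z x ≤ dd D x / 2 → |N z| ≤ ε) →
        |∫ z, N z * bump (dd D x / 2) x z| ≤ ε := by
      intro x hx ε h
      have hx0 : 0 < dd D x := (dd_pos hD hb).2 hx
      have hbx := bump_test' hD hb hx
      refine (abs_integral_le_integral_abs).trans ?_
      have e4 : ε = ∫ z, ε * bump (dd D x / 2) x z := by
        rw [integral_const_mul, bump_int (by linarith), mul_one]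
      rw [e4]
      refine integral_mono_of_nonneg (ae_of_all _ fun z => abs_nonneg _) (hbx.int.const_mul ε)
        (ae_of_all _ fun z => ?_)
      simp only
      rw [abs_mul, abs_of_nonneg (bump_nonneg _ _ z)]
      by_cases hz : bump (dd D x / 2) x z = 0
      · simp [hz]
      · obtain ⟨h1, h2⟩ := bump_mem hD hb hx hz
        exact mul_le_mul_of_nonneg_right (h z h1 h2) (bump_nonneg _ _ _)
    refine ⟨fun ε ρ hε hρ => ?_, ⟨KN, 1, one_pos, fun x hx _ => havg x hx KN fun z hz _ =>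
      hKN z hz⟩⟩
    obtain ⟨r, hr, h⟩ := hdec ε hε
    refine ⟨r / 2, by linarith, fun x hx hxr _ => havg x hx ε fun z hz hzx => h z hz ?_⟩
    have h1 := dd_le_add D z x
    linarith
  have h := uniqE hD hb (fun e he => absurd he (Finset.notMem_empty e)) hT (fun ψ hψ => by
      have h1 := hsdf ψ f hψ hf
      rw [h1, heq ψ hψ]
      ring) ((A.Ac_dec hu hf 1).comb hdN (-κ)) hf
  have h2 := (A.covE hu).eq_V hD hb (fun e he => absurd he (Finset.notMem_empty e)) A.base.κpos hf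
  rw [h2] at h
  have hκ := A.base.κpos
  have : κ * (V D f - ∫ z, N z * f z) = 0 := by linarith
  rcases mul_eq_zero.1 this with h3 | h3
  · exact absurd h3 hκ.ne'
  · linarith

end Vale.Agent.P153.R2.KAPV
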