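import Vale.Agent.P153.R2.KAPV.Lat2

/-!
P153, block KAPV: the second-moment core. The first two moments of the field in conformal images of
the half-plane, along an arbitrary filter on a countable index type.
-/

set_option autoImplicit false
set_option linter.unusedVariables false

namespace Vale.Agent.P153.R2.KAPV

open Filter Topology Set Metric MeasureTheory
open Vale.Agent.P145.PT Vale.Agent.P153 Vale.Agent.P153.F.Top Vale.Agent.P153.R2.FLDI
open Vale.Agent.P153.R2.OBSV (cay icay cay_im cay_inj icay_cay cay_icay icay_mem icay_den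
  cay_image cay_diff im_pos_iff_arg one_sub_ne Dsc Bas dm dm_open dm_bdd inv_mem f_inv inv_f
  inv_diff isOpen_image lim_diff lim_inj lim_dsc lim_pt ker_up ker_compact tc tp tc_cont Wall
  wall_move noWall_pi noWall_zero rho0 rho0_pos exists_dsc_limit)

variable {ι : Type*} {κ : ℝ} {F : ι → ℂ → ℂ} {δ : ι → ℝ} {B : ι → Finset (ℤ × ℤ)}
  {μ : ι → Measure Om} {w : ι → ℂ} {z₀ w₁ : ℂ} {R₀ c₀ : ℝ} {g : ℂ → ℂ} {𝒰 : Ultrafilter ι}

/-- Boundary values on one side. -/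
theorem bvp_side (h : ∀ i, Bas (F i) (w i) z₀ R₀ c₀ (fun _ => 0)) (hc : 0 < c₀)
    (hg : TendstoLocallyUniformlyOn (fun i w' => F i (cay (w i) w')) g (𝒰 : Filter ι) (ball 0 1))
    (hw₁ : 0 < w₁.im) {θ σ : ℝ} (hland : Land2 F δ B μ (𝒰 : Filter ι) θ σ) {y ρ0 : ℝ}
    (hρ0 : 0 < ρ0) (hno : ∀ᶠ η : ℝ in 𝓝[>] 0, ∀ᶠ i in (𝒰 : Filter ι),
      ¬ Wall (F i) θ (F i (cay (w i) (icay w₁ ⟨y, η⟩))) ρ0) :
    ∀ f, TestOn (dm (g '' ball 0 1)) f → ∀ (k : ℕ) (ε : ℝ), 0 < ε → ∀ᶠ η : ℝ in 𝓝[>] 0,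
      ∀ᶠ i in (𝒰 : Filter ι),
        |∫ ω, (hB (B i) (δ i) (bump (dd (dm (g '' ball 0 1)) (toR (g (icay w₁ ⟨y, η⟩))) / 2)
          (toR (g (icay w₁ ⟨y, η⟩)))) ω - σ) * hB (B i) (δ i) f ω ^ k ∂(μ i)| ≤ ε := by
  have hD : ∀ i, Dsc (fun w' => F i (cay (w i) w')) z₀ R₀ c₀ := fun i => (h i).dsc
  have hgd := lim_diff hD hg
  have hgi := lim_inj hD hc hg
  have hgb := (lim_dsc hD hg).2
  have hgo : IsOpen (g '' ball 0 1) := isOpen_image isOpen_ball hgd hgi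
  have hopenD := dm_open hgo
  have hbD : Bornology.IsBounded (dm (g '' ball 0 1)) :=
    dm_bdd (R := R₀) (by rintro _ ⟨y, hy, rfl⟩; exact hgb y hy)
  have hun := lim_unif hD hc hg hw₁
  set D := dm (g '' ball 0 1) with hDd
  intro f hf k ε hε
  obtain ⟨r, hr, hins⟩ := ins_ev h hc hg hf
  obtain ⟨ρ₁, hρ₁, hlow⟩ := exists_low_compact hopenD hbD hf.cs.isCompact hf.2.2
  set R := min (ρ0 / 2) (ρ₁ / 2) with hRd
  have hR : 0 < R := lt_min (by positivity) (by positivity)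
  have hR1 : R ≤ ρ0 / 2 := min_le_left _ _
  have hR2 : R ≤ ρ₁ / 2 := min_le_right _ _
  obtain ⟨c, hcp, hL⟩ := hland f (hf.mono (subset_univ _)) k r ε hr hε
  have hcR : 0 < c * R := mul_pos hcp hR
  obtain ⟨s₀, R', hs₀, hR', hnear⟩ := hun.near hopenD hbD
    (r := min (ρ₁ / 2) (c * R / 2)) (lt_min (by positivity) (by positivity))
  filter_upwards [hno, Ioo_mem_nhdsGT hs₀] with η hη1 hη2
  have hηH : (⟨y, η⟩ : ℂ) ∈ HP := hη2.1
  set ζ := icay w₁ ⟨y, η⟩ with hζ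
  have hζb : ζ ∈ ball (0 : ℂ) 1 := icay_mem hw₁ hηH
  set x := toR (g ζ) with hx
  have hxD : x ∈ D := hun.Fm _ hηH
  have hxc : toC x = g ζ := toC_toR _
  have hdx : dd D x < min (ρ₁ / 2) (c * R / 2) := hnear ⟨y, η⟩ hηH (Or.inl hη2.2)
  have hdx1 : dd D x < ρ₁ / 2 := hdx.trans_le (min_le_left _ _)
  have hdx2 : dd D x < c * R / 2 := hdx.trans_le (min_le_right _ _)
  obtain ⟨hs, hwh⟩ := whit_ev h hc hg hxD
  -- a small ball around `g ζ`
  have hgx : g ζ ∈ g '' ball 0 1 := mem_image_of_mem _ hζb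
  obtain ⟨e0, he0, he0s⟩ := Metric.isOpen_iff.1 hgo (g ζ) hgx
  set d := min (e0 / 4) (ρ0 / 8) with hd
  have hdp : 0 < d := lt_min (by positivity) (by positivity)
  have hd1 : d ≤ e0 / 4 := min_le_left _ _
  have hd3 : d ≤ ρ0 / 8 := min_le_right _ _
  have hcl : closedBall (g ζ) (2 * d) ⊆ g '' ball 0 1 :=
    (closedBall_subset_ball (by linarith)).trans he0s
  have ev1 := ker_compact hD hc hg (isCompact_closedBall (g ζ) (2 * d)) hcl
  have ev3 : ∀ᶠ i in (𝒰 : Filter ι), dist (F i (cay (w i) ζ)) (g ζ) < d :=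
    (lim_pt hg hζb).eventually (ball_mem_nhds _ hdp)
  have ev4 := hL R hR x (dd D x / 2) hs (by linarith) (fun z hz => by
    have h1 := hlow z hz
    have h2 := dd_le_add D z x
    linarith)
  filter_upwards [ev1, ev3, ev4, hη1, hins, hwh] with i h1 h3 h4 h5 h6 h7
  refine h4 h6 h7 fun hwall => ?_
  rw [(h i).image] at h1
  have hbb : ball (g ζ) d ⊆ F i '' HP :=
    (ball_subset_closedBall.trans (closedBall_subset_closedBall (by linarith))).trans h1
  rw [hxc] at hwall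
  refine h5 ((wall_move (h i).diff (h i).inj (x₀ := g ζ) (d := d) hbb ?_ ?_ hwall).mono ?_)
  · rw [mem_ball]; exact h3
  · exact mem_ball_self hdp
  · linarith

theorem norm_icay_ev {a : ℂ} (ha : 0 < a.im) (y : ℝ) :
    ∀ᶠ η : ℝ in 𝓝[>] 0, 1 / 2 ≤ ‖icay a ⟨y, η⟩‖ := by
  have h1 := (icay_tendsto ha y).norm
  rw [icay_real_norm ha y] at h1
  exact h1.eventually (le_mem_nhds (by norm_num))

theorem ang_icay_ev {a : ℂ} (ha : 0 < a.im) (y : ℝ) {e : ℝ} (he : 0 < e) :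
    ∀ᶠ η : ℝ in 𝓝[>] 0, |ang (icay a ⟨y, η⟩) - ang (icay a y)| < e := by
  have h1 := (ang_cont (icay_real_slit ha y)).tendsto.comp (icay_tendsto ha y)
  have h2 := h1.eventually (ball_mem_nhds _ he)
  filter_upwards [h2] with η hη
  rw [Real.dist_eq] at hη
  exact hη

/-- Boundary values. -/
theorem bvp_of (h : ∀ i, Bas (F i) (w i) z₀ R₀ c₀ (fun _ => 0)) (hR : 0 < R₀) (hc : 0 < c₀)
    (hg : TendstoLocallyUniformlyOn (fun i w' => F i (cay (w i) w')) g (𝒰 : Filter ι) (ball 0 1))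
    (hw₁ : 0 < w₁.im) (hw : Tendsto w 𝒰 (𝓝 w₁))
    (hL1 : Land2 F δ B μ (𝒰 : Filter ι) Real.pi 1) (hL2 : Land2 F δ B μ (𝒰 : Filter ι) 0 (-1))
    {y : ℝ} (hy : y ≠ 0) :
    ∀ f, TestOn (dm (g '' ball 0 1)) f → ∀ (k : ℕ) (ε : ℝ), 0 < ε → ∀ᶠ η : ℝ in 𝓝[>] 0,
      ∀ᶠ i in (𝒰 : Filter ι),
        |∫ ω, (hB (B i) (δ i) (bump (dd (dm (g '' ball 0 1)) (toR (g (icay w₁ ⟨y, η⟩))) / 2)
          (toR (g (icay w₁ ⟨y, η⟩)))) ω - sg 0 y) * hB (B i) (δ i) f ω ^ k ∂(μ i)| ≤ ε := by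
  have hD : ∀ i, Dsc (fun w' => F i (cay (w i) w')) z₀ R₀ c₀ := fun i => (h i).dsc
  have harg : Tendsto (fun i => Complex.arg (w i)) 𝒰 (𝓝 (Complex.arg w₁)) :=
    (Complex.continuousAt_arg (Or.inr hw₁.ne')).tendsto.comp hw
  obtain ⟨r1, r2⟩ := ang_range (icay_real_slit hw₁ y)
  rcases lt_or_gt_of_ne hy with hlt | hgt
  · have hs : sg 0 y = -1 := by unfold sg; exact if_neg (not_lt.2 hlt.le)
    rw [hs]
    have ha := ang_neg hw₁ hlt
    set c := min (ang (icay w₁ y)) (2 * Complex.arg w₁ - ang (icay w₁ y)) / 4 with hcd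
    have hcp : 0 < c := by
      have : 0 < min (ang (icay w₁ y)) (2 * Complex.arg w₁ - ang (icay w₁ y)) :=
        lt_min r1 (by linarith)
      positivity
    have hc1 : 4 * c ≤ ang (icay w₁ y) := by
      have := min_le_left (ang (icay w₁ y)) (2 * Complex.arg w₁ - ang (icay w₁ y))
      rw [hcd]; linarith
    have hc2 : 4 * c ≤ 2 * Complex.arg w₁ - ang (icay w₁ y) := by
      have := min_le_right (ang (icay w₁ y)) (2 * Complex.arg w₁ - ang (icay w₁ y))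
      rw [hcd]; linarith
    refine bvp_side h hc hg hw₁ hL2 (rho0_pos hR hc (c := c)) ?_
    filter_upwards [norm_icay_ev hw₁ y, ang_icay_ev hw₁ y hcp, self_mem_nhdsWithin]
      with η g1 g2 g3
    have g4 := icay_mem hw₁ (show 0 < (⟨y, η⟩ : ℂ).im from g3)
    rw [mem_ball_zero_iff] at g4
    rw [abs_lt] at g2
    have h3 : ∀ᶠ i in (𝒰 : Filter ι), Complex.arg w₁ - c / 2 < Complex.arg (w i) :=
      harg.eventually (lt_mem_nhds (by linarith))
    filter_upwards [h3] with i hi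
    rw [ang_eq (icay w₁ ⟨y, η⟩)]
    exact noWall_zero (h i).pt hR hc (h i).inj (hD i) hcp g1 g4 (by linarith [g2.1])
      (by linarith [g2.2])
  · have hs : sg 0 y = 1 := by unfold sg; exact if_pos hgt
    rw [hs]
    have ha := ang_pos hw₁ hgt
    set c := min (2 * Real.pi - ang (icay w₁ y)) (ang (icay w₁ y) - 2 * Complex.arg w₁) / 4
      with hcd
    have hcp : 0 < c := by
      have : 0 < min (2 * Real.pi - ang (icay w₁ y)) (ang (icay w₁ y) - 2 * Complex.arg w₁) :=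
        lt_min (by linarith) (by linarith)
      positivity
    have hc1 : 4 * c ≤ 2 * Real.pi - ang (icay w₁ y) := by
      have := min_le_left (2 * Real.pi - ang (icay w₁ y)) (ang (icay w₁ y) - 2 * Complex.arg w₁)
      rw [hcd]; linarith
    have hc2 : 4 * c ≤ ang (icay w₁ y) - 2 * Complex.arg w₁ := by
      have := min_le_right (2 * Real.pi - ang (icay w₁ y)) (ang (icay w₁ y) - 2 * Complex.arg w₁)
      rw [hcd]; linarith
    refine bvp_side h hc hg hw₁ hL1 (rho0_pos hR hc (c := c)) ?_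
    filter_upwards [norm_icay_ev hw₁ y, ang_icay_ev hw₁ y hcp, self_mem_nhdsWithin]
      with η g1 g2 g3
    have g4 := icay_mem hw₁ (show 0 < (⟨y, η⟩ : ℂ).im from g3)
    rw [mem_ball_zero_iff] at g4
    rw [abs_lt] at g2
    have h3 : ∀ᶠ i in (𝒰 : Filter ι), Complex.arg (w i) < Complex.arg w₁ + c / 2 :=
      harg.eventually (gt_mem_nhds (by linarith))
    filter_upwards [h3] with i hi
    rw [ang_eq (icay w₁ ⟨y, η⟩)]
    exact noWall_pi (h i).pt hR hc (h i).inj (hD i) hcp g1 g4 (by linarith [g2.1])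
      (by linarith [g2.2])

/-- The core along an ultrafilter. -/
theorem core2_ultra [Countable ι] (𝒰 : Ultrafilter ι)
    (h : ∀ i, Bas (F i) (w i) z₀ R₀ c₀ (fun _ => 0)) (hR : 0 < R₀)
    (hc : 0 < c₀) {b M : ℝ} (hb : 0 < b) (hw : ∀ i, b ≤ (w i).im ∧ ‖w i‖ ≤ M)
    (hm : ∀ i, Mom (μ i)) (hL : Lat2 κ F δ B μ (𝒰 : Filter ι))
    (hL1 : Land2 F δ B μ (𝒰 : Filter ι) Real.pi 1) (hL2 : Land2 F δ B μ (𝒰 : Filter ι) 0 (-1))
    {f : ℝ × ℝ → ℝ} (hf : TestOn (dm (closedBall z₀ (c₀ / 4))) f) :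
    Tendsto (fun i => (∫ ω, hB (B i) (δ i) f ω ∂(μ i)) -
      ∫ z, uarg (Function.invFunOn (F i) HP) 0 z * f z) 𝒰 (𝓝 0) ∧
    Tendsto (fun i => (∫ ω, hB (B i) (δ i) f ω ^ 2 ∂(μ i)) -
      ((∫ z, uarg (Function.invFunOn (F i) HP) 0 z * f z) ^ 2 +
        κ * Gr (Function.invFunOn (F i) HP) f)) 𝒰 (𝓝 0) := by
  have hD : ∀ i, Dsc (fun w' => F i (cay (w i) w')) z₀ R₀ c₀ := fun i => (h i).dsc
  obtain ⟨g, hg⟩ := exists_dsc_limit 𝒰 hR hD
  -- the limit of the base points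
  obtain ⟨w₁, hw₁K, hw₁⟩ := ((isCompact_closedBall (0 : ℂ) M).inter_left
    (isClosed_le continuous_const Complex.continuous_im (f := fun _ => b))).ultrafilter_le_nhds
    (𝒰.map w) (by
      rw [le_principal_iff, Ultrafilter.coe_map, Filter.mem_map]
      exact Filter.Eventually.of_forall (p := fun i => w i ∈ {b_1 : ℂ | b ≤ b_1.im} ∩
        closedBall 0 M) fun i => ⟨(hw i).1, by rw [mem_closedBall_zero_iff]; exact (hw i).2⟩)
  have hwt : Tendsto w 𝒰 (𝓝 w₁) := hw₁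
  have hw₁p : 0 < w₁.im := lt_of_lt_of_le hb hw₁K.1
  have hgd := lim_diff hD hg
  have hgi := lim_inj hD hc hg
  have hgb := (lim_dsc hD hg).2
  have hgo : IsOpen (g '' ball 0 1) := isOpen_image isOpen_ball hgd hgi
  have hopenD := dm_open hgo
  have hun := lim_unif hD hc hg hw₁p
  have hne : Nonempty ι := 𝒰.neBot.nonempty
  obtain ⟨e, he⟩ := Countable.exists_injective_nat ι
  have hj : Function.LeftInverse (Function.invFun e) e := Function.leftInverse_invFun he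
  set j := Function.invFun e with hjd
  have hbase := arcB_of hj h hc hg hL hm
  have tr : ∀ {P : ι → Prop}, (∀ᶠ i in (𝒰 : Filter ι), P i) →
      ∀ᶠ n in ((𝒰.map e : Ultrafilter ℕ) : Filter ℕ), P (j n) := by
    intro P hP
    rw [Ultrafilter.coe_map, Filter.eventually_map]
    filter_upwards [hP] with i hi
    rw [hj i]; exact hi
  have hA : ArcP κ (fun n => δ (j n)) (fun n => B (j n)) (fun n => μ (j n))
      (dm (g '' ball 0 1)) (fun z => g (icay w₁ z))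
      (fun z => cay w₁ (Function.invFunOn g (ball 0 1) z)) (sg 0) (𝒰.map e) := by
    refine ⟨hbase, hun, ?_⟩
    have hae : ∀ᵐ y : ℝ, y ≠ 0 := by rw [ae_iff]; simp
    filter_upwards [hae] with y hy f hf k ε hε
    filter_upwards [bvp_of h hR hc hg hw₁p hwt hL1 hL2 hy f hf k ε hε] with η hη
    exact tr (P := fun i => |∫ ω, (hB (B i) (δ i)
      (bump (dd (dm (g '' ball 0 1)) (toR (g (icay w₁ ⟨y, η⟩))) / 2)
          (toR (g (icay w₁ ⟨y, η⟩)))) ω - sg 0 y) * hB (B i) (δ i) f ω ^ k ∂(μ i)| ≤ ε) hη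
  -- the test function
  have hsub := lim_sub hD hc hg
  have hK : closedBall z₀ (c₀ / 4) ⊆ ball z₀ c₀ := closedBall_subset_ball (by linarith)
  have hfD : TestOn (dm (g '' ball 0 1)) f := hf.mono fun z hz => hsub (hK hz)
  have hfi : ∀ i, TestOn (dm (F i '' HP)) f := fun i => hf.mono fun z hz => (h i).sub (hK hz)
  obtain ⟨t1, t2⟩ := hA.two hfD
  have back : ∀ {X : ι → ℝ} {a : ℝ}, Tendsto (fun n => X (j n))
      ((𝒰.map e : Ultrafilter ℕ) : Filter ℕ) (𝓝 a) → Tendsto X 𝒰 (𝓝 a) := by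
    intro X a hX
    rw [Ultrafilter.coe_map, Filter.tendsto_map'_iff] at hX
    refine hX.congr fun i => ?_
    simp only [Function.comp]
    rw [hj i]
  have s1 := back (X := fun i => ∫ ω, hB (B i) (δ i) f ω ∂(μ i)) t1
  have s2 := back (X := fun i => ∫ ω, hB (B i) (δ i) f ω ^ 2 ∂(μ i)) t2
  -- the convergence of the harmonic functions
  have hI : 0 ≤ ∫ z, |f z| := integral_nonneg fun z => abs_nonneg _
  set I := (∫ z, |f z|) + 1 with hId
  have hI1 : 1 ≤ I := by rw [hId]; linarith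
  have hIle : (∫ z, |f z|) ≤ I := by rw [hId]; linarith
  have u1 : Tendsto (fun i => ∫ z, uarg (Function.invFunOn (F i) HP) 0 z * f z) 𝒰
      (𝓝 (∫ z, uarg (fun z => cay w₁ (Function.invFunOn g (ball 0 1) z)) 0 z * f z)) := by
    rw [Metric.tendsto_nhds]
    intro ε hε
    filter_upwards [arg_lim hw₁p hwt hD hc hg (ε := ε / (2 * I)) (by positivity)] with i hi
    rw [Real.dist_eq]
    refine lt_of_le_of_lt (uarg_close (bas_unif (h i)) hun (bas_open (h i)) hopenD (hfi i) hfD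
      (ε := ε / (2 * I)) fun z hz => ?_) ?_
    · have hz' : toC z ∈ closedBall z₀ (c₀ / 4) := hf.2.2 hz
      have := hi _ hz'
      rwa [← bas_inv (h i) (hK hz')] at this
    · calc ε / (2 * I) * ∫ z, |f z| ≤ ε / (2 * I) * I :=
            mul_le_mul_of_nonneg_left hIle (by positivity)
        _ = ε / 2 := by field_simp
        _ < ε := by linarith
  have u2 : Tendsto (fun i => Gr (Function.invFunOn (F i) HP) f) 𝒰
      (𝓝 (Gr (fun z => cay w₁ (Function.invFunOn g (ball 0 1) z)) f)) := by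
    rw [Metric.tendsto_nhds]
    intro ε hε
    filter_upwards [gk_lim (fun i => (h i).pt) hw₁p hD hc hg (ε := ε / (2 * I ^ 2))
      (by positivity)] with i hi
    rw [Real.dist_eq]
    refine lt_of_le_of_lt (Gr_close (bas_unif (h i)) hun (bas_open (h i)) hopenD (hfi i) hfD
      (ε := ε / (2 * I ^ 2)) (by positivity) fun z hz y hy hzy => ?_) ?_
    · have hz' : toC z ∈ closedBall z₀ (c₀ / 4) := hf.2.2 hz
      have hy' : toC y ∈ closedBall z₀ (c₀ / 4) := hf.2.2 hy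
      have := hi _ hz' _ hy' (fun he => hzy (by rw [← toR_toC z, he, toR_toC]))
      rwa [← bas_inv (h i) (hK hz'), ← bas_inv (h i) (hK hy')] at this
    · have h5 : (∫ z, |f z|) ^ 2 ≤ I ^ 2 := pow_le_pow_left₀ hI hIle 2
      calc ε / (2 * I ^ 2) * (∫ z, |f z|) ^ 2 ≤ ε / (2 * I ^ 2) * I ^ 2 :=
            mul_le_mul_of_nonneg_left h5 (by positivity)
        _ = ε / 2 := by field_simp
        _ < ε := by linarith
  refine ⟨?_, ?_⟩
  · have := s1.sub u1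
    rwa [sub_self] at this
  · have := s2.sub ((u1.pow 2).add (u2.const_mul κ))
    rwa [sub_self] at this

/-- **The second-moment core.** -/
theorem core2 [Countable ι] {l : Filter ι}
    (h : ∀ᶠ i in l, Bas (F i) (w i) z₀ R₀ c₀ (fun _ => 0)) (hR : 0 < R₀)
    (hc : 0 < c₀) {b M : ℝ} (hb : 0 < b) (hw : ∀ᶠ i in l, b ≤ (w i).im ∧ ‖w i‖ ≤ M)
    (hL : Lat2 κ F δ B μ l)
    (hL1 : Land2 F δ B μ l Real.pi 1) (hL2 : Land2 F δ B μ l 0 (-1))
    {f : ℝ × ℝ → ℝ} (hf : TestOn (dm (closedBall z₀ (c₀ / 4))) f) :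
    Tendsto (fun i => (∫ ω, hB (B i) (δ i) f ω ∂(μ i)) -
      ∫ z, uarg (Function.invFunOn (F i) HP) 0 z * f z) l (𝓝 0) ∧
    Tendsto (fun i => (∫ ω, hB (B i) (δ i) f ω ^ 2 ∂(μ i)) -
      ((∫ z, uarg (Function.invFunOn (F i) HP) 0 z * f z) ^ 2 +
        κ * Gr (Function.invFunOn (F i) HP) f)) l (𝓝 0) := by
  classical
  suffices hsuff : ∀ 𝒰 : Ultrafilter ι, (𝒰 : Filter ι) ≤ l →
    Tendsto (fun i => (∫ ω, hB (B i) (δ i) f ω ∂(μ i)) -
      ∫ z, uarg (Function.invFunOn (F i) HP) 0 z * f z) 𝒰 (𝓝 0) ∧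
    Tendsto (fun i => (∫ ω, hB (B i) (δ i) f ω ^ 2 ∂(μ i)) -
      ((∫ z, uarg (Function.invFunOn (F i) HP) 0 z * f z) ^ 2 +
        κ * Gr (Function.invFunOn (F i) HP) f)) 𝒰 (𝓝 0) from
    ⟨tendsto_iff_ultrafilter _ _ _ |>.2 fun 𝒰 hU => (hsuff 𝒰 hU).1,
      tendsto_iff_ultrafilter _ _ _ |>.2 fun 𝒰 hU => (hsuff 𝒰 hU).2⟩
  intro 𝒰 hU
  set P : ι → Prop := fun i => Bas (F i) (w i) z₀ R₀ c₀ (fun _ => 0) ∧
    (b ≤ (w i).im ∧ ‖w i‖ ≤ M) ∧ Mom (μ i) with hP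
  have hPe : ∀ᶠ i in (𝒰 : Filter ι), P i := by
    filter_upwards [h.filter_mono hU, hw.filter_mono hU, hL.mom.filter_mono hU] with i h1 h2 h3
    exact ⟨h1, h2, h3⟩
  obtain ⟨i₀, hi₀⟩ := hPe.exists
  set σ : ι → ι := fun i => if P i then i else i₀ with hσ
  have hσP : ∀ i, P (σ i) := by
    intro i
    by_cases hi : P i
    · simp only [hσ, if_pos hi]; exact hi
    · simp only [hσ, if_neg hi]; exact hi₀
  have hσe : ∀ᶠ i in (𝒰 : Filter ι), σ i = i := by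
    filter_upwards [hPe] with i hi
    simp only [hσ]
    exact if_pos hi
  have key := core2_ultra 𝒰 (F := fun i => F (σ i)) (w := fun i => w (σ i))
    (δ := fun i => δ (σ i)) (B := fun i => B (σ i)) (μ := fun i => μ (σ i))
    (fun i => (hσP i).1) hR hc hb (fun i => (hσP i).2.1) (fun i => (hσP i).2.2)
    ((hL.mono hU).subst hσe) ((hL1.mono hU).subst hσe) ((hL2.mono hU).subst hσe) hf
  refine ⟨key.1.congr' ?_, key.2.congr' ?_⟩
  · filter_upwards [hσe] with i hi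
    rw [hi]
  · filter_upwards [hσe] with i hi
    rw [hi]

end Vale.Agent.P153.R2.KAPV
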