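import Vale.Agent.P153.R2.KAPV.GrCmp
import Vale.Agent.P153.R2.KAPV.Inst

/-!
P153, block KAPV: the functionals `mF` and `qF` for measures with a density.
-/

set_option autoImplicit false

namespace Vale.Agent.P153.R2.KAPV

open Filter Topology Set MeasureTheory
open Vale.Agent.P145.PT Vale.Agent.P153.R2.FLDI

/-- The measure with the density `f`. -/
noncomputable def nuf (f : ℝ × ℝ → ℝ) : Measure (ℝ × ℝ) :=
  volume.withDensity fun a => ENNReal.ofReal (f a)

variable {D : Set (ℝ × ℝ)} {F G : ℂ → ℂ} {f : ℝ × ℝ → ℝ}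

theorem nuf_fin (hf : TestOn D f) : IsFiniteMeasure (nuf f) :=
  isFiniteMeasure_withDensity_ofReal hf.int.2

theorem nuf_meas (hf : TestOn D f) : Measurable fun a => ENNReal.ofReal (f a) :=
  hf.cont.measurable.ennreal_ofReal

theorem nuf_int (hf : TestOn D f) (h0 : ∀ a, 0 ≤ f a) (g : ℝ × ℝ → ℝ) :
    ∫ a, g a ∂(nuf f) = ∫ a, g a * f a := by
  unfold nuf
  rw [integral_withDensity_eq_integral_toReal_smul (nuf_meas hf)
    (ae_of_all _ fun a => ENNReal.ofReal_lt_top)]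
  congr 1
  funext a
  rw [ENNReal.toReal_ofReal (h0 a), smul_eq_mul, mul_comm]

theorem mF_nuf (hf : TestOn D f) (h0 : ∀ a, 0 ≤ f a) (ζ : ℝ × ℝ → ℂ) :
    mF (nuf f) ζ = ∫ a, (1 - 2 / Real.pi * (ζ a).arg) * f a := nuf_int hf h0 _

theorem GH_eq (z w : ℂ) : GH z w = gk z w := by
  unfold GH gk
  rw [norm_div, one_div]

theorem nuf_prod (hf : TestOn D f) : (nuf f).prod (nuf f) =
    (volume.prod volume).withDensity fun x => ENNReal.ofReal (f x.1) * ENNReal.ofReal (f x.2) :=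
  prod_withDensity (nuf_meas hf) (nuf_meas hf)

theorem nuf_prod_meas (hf : TestOn D f) : Measurable fun x : (ℝ × ℝ) × (ℝ × ℝ) =>
    ENNReal.ofReal (f x.1) * ENNReal.ofReal (f x.2) :=
  ((nuf_meas hf).comp measurable_fst).mul ((nuf_meas hf).comp measurable_snd)

theorem nuf_prod_real (h0 : ∀ a, 0 ≤ f a) (x : (ℝ × ℝ) × (ℝ × ℝ)) :
    (ENNReal.ofReal (f x.1) * ENNReal.ofReal (f x.2)).toReal = f x.1 * f x.2 := by
  rw [ENNReal.toReal_mul, ENNReal.toReal_ofReal (h0 _), ENNReal.toReal_ofReal (h0 _)]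

theorem Unif.GH_int (h : Unif D F G) (hD : IsOpen D) (hf : TestOn D f) (h0 : ∀ a, 0 ≤ f a) :
    Integrable (fun x : (ℝ × ℝ) × (ℝ × ℝ) => GH (G (toC x.1)) (G (toC x.2)))
      ((nuf f).prod (nuf f)) := by
  rw [nuf_prod hf, integrable_withDensity_iff_integrable_smul' (nuf_prod_meas hf)
    (ae_of_all _ fun x => ENNReal.mul_lt_top ENNReal.ofReal_lt_top ENNReal.ofReal_lt_top)]
  refine (h.int_prod hD hf).congr (ae_of_all _ fun x => ?_)
  simp only
  rw [nuf_prod_real h0, smul_eq_mul, GH_eq]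
  by_cases hx : x.1 ∈ D
  · by_cases hy : x.2 ∈ D
    · rw [Gt_mem hx, Gt_mem hy]; ring
    · rw [zero_off hf hy]; ring
  · rw [zero_off hf hx]; ring

theorem Unif.qF_nuf (h : Unif D F G) (hD : IsOpen D) (hf : TestOn D f) (h0 : ∀ a, 0 ≤ f a) :
    qF (nuf f) (fun a => G (toC a)) = Gr G f := by
  unfold qF
  rw [h.Gr_prod hD hf, nuf_prod hf, integral_withDensity_eq_integral_toReal_smul
    (nuf_prod_meas hf)
    (ae_of_all _ fun x => ENNReal.mul_lt_top ENNReal.ofReal_lt_top ENNReal.ofReal_lt_top)]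
  congr 1
  funext x
  rw [nuf_prod_real h0, smul_eq_mul, GH_eq]
  by_cases hx : x.1 ∈ D
  · by_cases hy : x.2 ∈ D
    · rw [Gt_mem hx, Gt_mem hy]; ring
    · rw [zero_off hf hy]; ring
  · rw [zero_off hf hx]; ring

/-- The measure is concentrated on the set where `f ≠ 0`. -/
theorem nuf_ae (hf : TestOn D f) : ∀ᵐ a ∂(nuf f), f a ≠ 0 := by
  unfold nuf
  rw [ae_withDensity_iff (nuf_meas hf)]
  refine ae_of_all _ fun a ha h => ha ?_
  rw [h, ENNReal.ofReal_zero]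

/-- Two independent points are distinct. -/
theorem nuf_diag (hf : TestOn D f) : ∀ᵐ x ∂((nuf f).prod (nuf f)), x.1 ≠ x.2 ∧ f x.1 ≠ 0 ∧
    f x.2 ≠ 0 := by
  rw [nuf_prod hf, ae_withDensity_iff (nuf_prod_meas hf)]
  have h1 : ∀ᵐ x : (ℝ × ℝ) × (ℝ × ℝ) ∂(volume.prod volume), x.1 ≠ x.2 := by
    rw [Measure.ae_prod_iff_ae_ae]
    · refine ae_of_all _ fun a => ?_
      rw [ae_iff]
      have e : {b : ℝ × ℝ | ¬ a ≠ b} = {a} := by ext b; simp [eq_comm]
      rw [e]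
      exact measure_singleton a
    · exact (measurableSet_eq_fun measurable_fst measurable_snd).compl
  filter_upwards [h1] with x hx hw
  refine ⟨hx, fun h => hw ?_, fun h => hw ?_⟩
  · rw [h, ENNReal.ofReal_zero, zero_mul]
  · rw [h, ENNReal.ofReal_zero, mul_zero]

theorem nuf_ne (hf : TestOn D f) (h0 : ∀ a, 0 ≤ f a) (hI : ∫ a, f a ≠ 0) : nuf f ≠ 0 := by
  intro h
  apply hI
  have h1 := nuf_int hf h0 fun _ => 1
  rw [h] at h1
  simp only [integral_zero_measure, one_mul] at h1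
  exact h1.symm

end Vale.Agent.P153.R2.KAPV
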