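import Vale.Agent.P153.R2.M1.Loew

/-!
# P153, block KAPV: expansions for small times

Expansions, uniform on compact subsets of the half-plane, of the argument of the centred Loewner
flow and of the Green function evaluated along the flow.
-/

set_option linter.unusedSectionVars false
set_option linter.unusedVariables false

namespace Vale.Agent.P153.R2.KAPV

open Vale.Agent.P164 Vale.Agent.P153.M1 Set
open scoped ComplexConjugate

/-- The Green function of the upper half-plane (for minus the Laplacian). -/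
noncomputable def GH (z w : ℂ) : ℝ := 1 / (2 * Real.pi) * Real.log ‖(z - conj w) / (z - w)‖

theorem sub_conj_ne {z w : ℂ} (hz : 0 < z.im) (hw : 0 < w.im) : z - conj w ≠ 0 := by
  intro h
  have := congrArg Complex.im h
  simp at this
  linarith

/-- The derivative of the Green function along the Loewner flow. -/
theorem hasDeriv_log_green {W : ℝ → ℝ} {z w : ℂ} {t s : ℝ} {g g' : ℝ → ℂ}
    (hg : IsLoewnerSol W z t g) (hg' : IsLoewnerSol W w t g') (hs : s ∈ Icc 0 t)
    (hne : g s ≠ g' s) :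
    HasDerivWithinAt (fun s => Real.log ‖(g s - conj (g' s)) / (g s - g' s)‖)
      (-(4 * (1 / (g s - (W s : ℂ))).im * (1 / (g' s - (W s : ℂ))).im)) (Icc 0 t) s := by
  obtain ⟨hi, hd⟩ := hg.2 s hs
  obtain ⟨hi', hd'⟩ := hg'.2 s hs
  set a : ℂ := g s - (W s : ℂ) with ha
  set b : ℂ := g' s - (W s : ℂ) with hb
  have ha0 : a ≠ 0 := sub_ne_zero_of_im hi _
  have hb0 : b ≠ 0 := sub_ne_zero_of_im hi' _
  have hcb0 : conj b ≠ 0 := (map_ne_zero _).2 hb0
  have hA0 : g s - g' s ≠ 0 := sub_ne_zero.2 hne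
  have hB0 : g s - conj (g' s) ≠ 0 := sub_conj_ne hi hi'
  have eA : g s - g' s = a - b := by rw [ha, hb]; ring
  have eB : g s - conj (g' s) = a - conj b := by
    rw [ha, hb, map_sub, Complex.conj_ofReal]; ring
  have dA : HasDerivWithinAt (fun s => g s - g' s) (2 / a - 2 / b) (Icc 0 t) s := hd.sub hd'
  have dB : HasDerivWithinAt (fun s => g s - conj (g' s)) (2 / a - conj (2 / b)) (Icc 0 t) s :=
    hd.sub (Complex.conjCLE.hasFDerivAt.comp_hasDerivWithinAt s hd')
  have dq := dB.div dA hA0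
  have hq0 : (g s - conj (g' s)) / (g s - g' s) ≠ 0 := div_ne_zero hB0 hA0
  have dn := dq.norm_sq
  have hn0 : ‖(g s - conj (g' s)) / (g s - g' s)‖ ^ 2 ≠ 0 := by
    have := norm_pos_iff.2 hq0
    positivity
  have dl := (dn.log hn0).const_mul (1 / 2 : ℝ)
  have e1 : (fun s => Real.log ‖(g s - conj (g' s)) / (g s - g' s)‖) =
      fun s => (1 / 2 : ℝ) * Real.log (‖(g s - conj (g' s)) / (g s - g' s)‖ ^ 2) := by
    funext u
    rw [Real.log_pow]
    push_cast
    ring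
  rw [e1]
  refine dl.congr_deriv ?_
  set q : ℂ := (g s - conj (g' s)) / (g s - g' s) with hq
  have e2 : ((2 / a - conj (2 / b)) * (g s - g' s) - (g s - conj (g' s)) * (2 / a - 2 / b)) /
      (g s - g' s) ^ 2 = q * (2 / a * (1 / b - conj (1 / b))) := by
    rw [hq, eA, eB]
    have hab : a - b ≠ 0 := by rw [← eA]; exact hA0
    simp only [map_div₀, map_one, map_ofNat]
    field_simp
    ring
  rw [e2]
  have e3 : inner ℝ q (q * (2 / a * (1 / b - conj (1 / b)))) =
      ‖q‖ ^ 2 * (2 / a * (1 / b - conj (1 / b))).re := by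
    rw [Complex.inner]
    have : q * (2 / a * (1 / b - conj (1 / b))) * conj q =
        ((‖q‖ ^ 2 : ℝ) : ℂ) * (2 / a * (1 / b - conj (1 / b))) := by
      rw [← Complex.normSq_eq_norm_sq, ← Complex.mul_conj]
      ring
    rw [this, Complex.re_ofReal_mul]
  have e5 : (2 / a * (1 / b - conj (1 / b))).re = -(4 * (1 / a).im * (1 / b).im) := by
    have : 1 / b - conj (1 / b) = ((2 * (1 / b).im : ℝ) : ℂ) * Complex.I := Complex.sub_conj _
    rw [this]
    have e6 : 2 / a = 2 * (1 / a) := by ring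
    rw [e6]
    simp [Complex.mul_re, Complex.mul_im]
    ring
  change 1 / 2 * (2 * inner ℝ q (q * (2 / a * (1 / b - conj (1 / b)))) / ‖q‖ ^ 2) = _
  rw [e3, e5]
  have hq2 : ‖q‖ ^ 2 ≠ 0 := hn0
  field_simp

theorem inv_sub_le {c D : ℝ} (hc : 0 < c) {z a : ℂ} (hz : c ≤ z.im) (ha : c / 2 ≤ a.im)
    (hD : ‖a - z‖ ≤ D) : ‖1 / a - 1 / z‖ ≤ 2 * D / c ^ 2 := by
  have h1 : c ≤ ‖z‖ := hz.trans ((le_abs_self _).trans (Complex.abs_im_le_norm z))
  have h2 : c / 2 ≤ ‖a‖ := ha.trans ((le_abs_self _).trans (Complex.abs_im_le_norm a))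
  have hz0 : z ≠ 0 := norm_pos_iff.1 (hc.trans_le h1)
  have ha0 : a ≠ 0 := norm_pos_iff.1 ((half_pos hc).trans_le h2)
  have e : 1 / a - 1 / z = (z - a) / (a * z) := by field_simp
  rw [e, norm_div, norm_mul, norm_sub_rev]
  have h3 : c / 2 * c ≤ ‖a‖ * ‖z‖ := mul_le_mul h2 h1 hc.le (norm_nonneg _)
  calc ‖a - z‖ / (‖a‖ * ‖z‖) ≤ D / (c / 2 * c) :=
        div_le_div₀ ((norm_nonneg _).trans hD) hD (by positivity) h3
    _ = 2 * D / c ^ 2 := by field_simp

theorem im_inv_le {c : ℝ} (hc : 0 < c) {z : ℂ} (hz : c ≤ z.im) : |(1 / z).im| ≤ 1 / c := by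
  have h1 : c ≤ ‖z‖ := hz.trans ((le_abs_self _).trans (Complex.abs_im_le_norm z))
  refine (Complex.abs_im_le_norm _).trans ?_
  rw [norm_div, norm_one]
  exact one_div_le_one_div_of_le hc h1

/-- The Loewner flow for small times. -/
theorem exists_sol' {W : ℝ → ℝ} {t c r : ℝ} (ht : 0 ≤ t) (hW : ContinuousOn W (Icc 0 t))
    (hr : ∀ s ∈ Icc 0 t, |W s| ≤ r) (hc : 0 < c) (h8 : 8 * t ≤ c ^ 2) {z : ℂ} (hz : c ≤ z.im) :
    ∃ g, IsLoewnerSol W z t g ∧ ∀ s ∈ Icc 0 t, c / 2 ≤ (g s).im ∧ ‖g s - z‖ ≤ 4 * t / c ∧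
      ‖g s - (W s : ℂ) - z‖ ≤ 4 * t / c + r := by
  have hz0 : 0 < z.im := hc.trans_le hz
  obtain ⟨g, hg, hb⟩ := exists_sol ht hW hz0
    (h8.trans (pow_le_pow_left₀ hc.le hz 2))
  refine ⟨g, hg, fun s hs => ?_⟩
  obtain ⟨h1, h2⟩ := hb s hs
  have h3 : 4 * s / z.im ≤ 4 * t / c := by
    have := hs.2
    exact div_le_div₀ (by positivity) (by linarith) hc hz
  refine ⟨by linarith, h2.trans h3, ?_⟩
  have e : g s - (W s : ℂ) - z = (g s - z) - (W s : ℂ) := by ring
  rw [e]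
  refine (norm_sub_le _ _).trans ?_
  rw [Complex.norm_real, Real.norm_eq_abs]
  linarith [hr s hs]

/-- **Expansion of the Green function along the Loewner flow.** -/
theorem green_exp {W : ℝ → ℝ} {t c r : ℝ} (ht : 0 ≤ t) (hW : ContinuousOn W (Icc 0 t))
    (hr : ∀ s ∈ Icc 0 t, |W s| ≤ r) (hc : 0 < c) (h8 : 8 * t ≤ c ^ 2) {z w : ℂ} (hz : c ≤ z.im)
    (hw : c ≤ w.im) (hne : z ≠ w) :
    |GH (flow W t z) (flow W t w) - GH z w + 2 / Real.pi * t * ((1 / z).im * (1 / w).im)| ≤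
      12 / Real.pi * t * (4 * t / c + r) / c ^ 3 := by
  obtain ⟨g, hg, hb⟩ := exists_sol' ht hW hr hc h8 hz
  obtain ⟨g', hg', hb'⟩ := exists_sol' ht hW hr hc h8 hw
  set D : ℝ := 4 * t / c + r with hD
  have hD0 : 0 ≤ D := (norm_nonneg _).trans (hb 0 ⟨le_rfl, ht⟩).2.2
  have hgne : ∀ s ∈ Icc 0 t, g s ≠ g' s := by
    intro s hs h
    have h1 := flow_injOn hs.1 (hW.mono (Icc_subset_Icc_right hs.2)) ⟨g, hg.restrict hs.2⟩
      ⟨g', hg'.restrict hs.2⟩ (by
        rw [flow_eq hs.1 (hg.restrict hs.2), flow_eq hs.1 (hg'.restrict hs.2), h])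
    exact hne h1
  set F : ℝ → ℝ := fun s => Real.log ‖(g s - conj (g' s)) / (g s - g' s)‖ +
    s * (4 * (1 / z).im * (1 / w).im) with hF
  have hd : ∀ s ∈ Icc 0 t, HasDerivWithinAt F
      (-(4 * (1 / (g s - (W s : ℂ))).im * (1 / (g' s - (W s : ℂ))).im) +
        1 * (4 * (1 / z).im * (1 / w).im)) (Icc 0 t) s := fun s hs =>
    (hasDeriv_log_green hg hg' hs (hgne s hs)).add ((hasDerivWithinAt_id s _).mul_const _)
  have hbd : ∀ s ∈ Ico 0 t,
      ‖-(4 * (1 / (g s - (W s : ℂ))).im * (1 / (g' s - (W s : ℂ))).im) +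
        1 * (4 * (1 / z).im * (1 / w).im)‖ ≤ 24 * D / c ^ 3 := by
    intro s hs
    have hs' : s ∈ Icc 0 t := ⟨hs.1, hs.2.le⟩
    obtain ⟨a1, -, a3⟩ := hb s hs'
    obtain ⟨b1, -, b3⟩ := hb' s hs'
    set a : ℂ := g s - (W s : ℂ) with ha
    set b : ℂ := g' s - (W s : ℂ) with hb''
    have a4 : c / 2 ≤ a.im := by rw [ha]; simpa using a1
    have b4 : c / 2 ≤ b.im := by rw [hb'']; simpa using b1
    have d1 : |(1 / a).im - (1 / z).im| ≤ 2 * D / c ^ 2 := by
      rw [← Complex.sub_im]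
      exact (Complex.abs_im_le_norm _).trans (inv_sub_le hc hz a4 a3)
    have d2 : |(1 / b).im - (1 / w).im| ≤ 2 * D / c ^ 2 := by
      rw [← Complex.sub_im]
      exact (Complex.abs_im_le_norm _).trans (inv_sub_le hc hw b4 b3)
    have d3 : |(1 / b).im| ≤ 2 / c := by
      have := im_inv_le (half_pos hc) b4
      rwa [one_div_div] at this
    have d4 : |(1 / z).im| ≤ 1 / c := im_inv_le hc hz
    rw [Real.norm_eq_abs]
    have e : -(4 * (1 / a).im * (1 / b).im) + 1 * (4 * (1 / z).im * (1 / w).im) =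
        -(4 * (((1 / a).im - (1 / z).im) * (1 / b).im)) -
          4 * ((1 / z).im * ((1 / b).im - (1 / w).im)) := by ring
    rw [e]
    refine (abs_sub _ _).trans ?_
    rw [abs_neg, abs_mul, abs_mul, abs_mul, abs_mul, abs_of_pos (show (0 : ℝ) < 4 by norm_num)]
    calc 4 * (|(1 / a).im - (1 / z).im| * |(1 / b).im|) +
          4 * (|(1 / z).im| * |(1 / b).im - (1 / w).im|)
        ≤ 4 * ((2 * D / c ^ 2) * (2 / c)) + 4 * ((1 / c) * (2 * D / c ^ 2)) := by
          gcongr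
      _ = 24 * D / c ^ 3 := by field_simp; ring
  have key := norm_image_sub_le_of_norm_deriv_le_segment' hd hbd t ⟨ht, le_rfl⟩
  have e1 : GH (flow W t z) (flow W t w) - GH z w + 2 / Real.pi * t * ((1 / z).im * (1 / w).im) =
      1 / (2 * Real.pi) * (F t - F 0) := by
    rw [flow_eq ht hg, flow_eq ht hg', hF]
    simp only [GH, hg.1, hg'.1, map_sub, Complex.conj_ofReal]
    have e2 : g t - (W t : ℂ) - (conj (g' t) - (W t : ℂ)) = g t - conj (g' t) := by ring
    have e3 : g t - (W t : ℂ) - (g' t - (W t : ℂ)) = g t - g' t := by ring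
    rw [e2, e3]
    have := Real.pi_pos
    field_simp
    ring
  rw [e1, abs_mul, abs_of_pos (by positivity)]
  rw [Real.norm_eq_abs, sub_zero] at key
  calc 1 / (2 * Real.pi) * |F t - F 0| ≤ 1 / (2 * Real.pi) * (24 * D / c ^ 3 * t) :=
        mul_le_mul_of_nonneg_left key (by positivity)
    _ = 12 / Real.pi * t * D / c ^ 3 := by field_simp; ring

/-- **Expansion of the argument of the centred Loewner flow.** -/
theorem arg_exp {W : ℝ → ℝ} {t c r : ℝ} (ht : 0 ≤ t) (hW : ContinuousOn W (Icc 0 t))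
    (hr : ∀ s ∈ Icc 0 t, |W s| ≤ r) (hc : 0 < c) (h8 : 8 * t ≤ c ^ 2) {z : ℂ} (hz : c ≤ z.im)
    (hsm : (4 * t / c + r) / c ≤ 1 / 2) :
    |Complex.arg (flow W t z) - Complex.arg z + W t * (1 / z).im| ≤
      4 * t / c ^ 2 + ((4 * t / c + r) / c) ^ 2 := by
  obtain ⟨g, hg, hb⟩ := exists_sol' ht hW hr hc h8 hz
  obtain ⟨h1, h2, h3⟩ := hb t ⟨ht, le_rfl⟩
  have hz0' : 0 < z.im := hc.trans_le hz
  have hzn : c ≤ ‖z‖ := hz.trans ((le_abs_self _).trans (Complex.abs_im_le_norm z))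
  have hz0 : z ≠ 0 := norm_pos_iff.1 (hc.trans_le hzn)
  have hfl := flow_eq ht hg
  have him : 0 < (flow W t z).im := by
    rw [hfl]
    have : (0 : ℝ) < (g t).im := (half_pos hc).trans_le h1
    simpa using this
  set u : ℂ := (g t - (W t : ℂ) - z) / z with hu
  have hun : ‖u‖ ≤ (4 * t / c + r) / c := by
    rw [hu, norm_div]
    exact div_le_div₀ ((norm_nonneg _).trans h3) h3 hc hzn
  have e1 : flow W t z / z = 1 + u := by
    rw [hfl, hu]
    field_simp
    ring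
  have h4 : Complex.arg (flow W t z) - Complex.arg z = (Complex.log (1 + u)).im := by
    rw [← arg_div_upper him hz0', e1, Complex.log_im]
  have h5 : ‖Complex.log (1 + u) - u‖ ≤ ‖u‖ ^ 2 := by
    refine (Complex.norm_log_one_add_sub_self_le (by linarith)).trans ?_
    have h6 : (1 - ‖u‖)⁻¹ ≤ 2 := by
      rw [inv_le_comm₀ (by linarith) (by norm_num)]
      linarith
    nlinarith [sq_nonneg ‖u‖]
  have h7 : |(Complex.log (1 + u)).im - u.im| ≤ ((4 * t / c + r) / c) ^ 2 := by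
    rw [← Complex.sub_im]
    refine (Complex.abs_im_le_norm _).trans (h5.trans ?_)
    exact pow_le_pow_left₀ (norm_nonneg _) hun 2
  have e2 : u.im + W t * (1 / z).im = ((g t - z) / z).im := by
    have : u = (g t - z) / z - (W t : ℂ) * (1 / z) := by rw [hu]; field_simp; ring
    rw [this, Complex.sub_im, Complex.im_ofReal_mul]
    ring
  have h8 : |((g t - z) / z).im| ≤ 4 * t / c ^ 2 := by
    refine (Complex.abs_im_le_norm _).trans ?_
    rw [norm_div]
    calc ‖g t - z‖ / ‖z‖ ≤ (4 * t / c) / c := div_le_div₀ (by positivity) h2 hc hzn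
      _ = 4 * t / c ^ 2 := by field_simp
  rw [h4]
  have e3 : (Complex.log (1 + u)).im + W t * (1 / z).im =
      ((g t - z) / z).im + ((Complex.log (1 + u)).im - u.im) := by rw [← e2]; ring
  rw [e3]
  exact (abs_add_le _ _).trans (add_le_add h8 h7)

end Vale.Agent.P153.R2.KAPV
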