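import Vale.Agent.P153.R2.KAPV.Ker

/-!
P153, block KAPV: comparison of the Green functionals and of the harmonic functions of two
conformal maps.
-/

set_option autoImplicit false

namespace Vale.Agent.P153.R2.KAPV

open Filter Topology Set MeasureTheory
open Vale.Agent.P145.PT Vale.Agent.P153.R2.FLDI
open Vale.Agent.P152.GFF.S (green S10_phi S10_phi_integrable)

variable {D D₁ D₂ : Set (ℝ × ℝ)} {F G F₁ F₂ G₁ G₂ : ℂ → ℂ}

theorem gk_self (w : ℂ) : gk w w = 0 := by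
  unfold gk
  rw [sub_self, norm_zero, div_zero, Real.log_zero, mul_zero]

/-- Integrability of the Green function against a test function. -/
theorem Unif.int_prod (h : Unif D F G) (hD : IsOpen D) {f : ℝ × ℝ → ℝ} (hf : TestOn D f) :
    Integrable (fun p : (ℝ × ℝ) × (ℝ × ℝ) => gk (Gt D G p.1) (Gt D G p.2) * f p.2 * f p.1)
      (volume.prod volume) := by
  obtain ⟨A, hA, hsing⟩ := h.gk_sing hf.cs.isCompact hf.2.2
  have hgi := Vale.Agent.P152.GFF.S.green_integrable (f := f) (g := f) hf.cont hf.cont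
    hf.cs hf.cs
  have hpi : Integrable (fun p : (ℝ × ℝ) × (ℝ × ℝ) => A * (|f p.1| * |f p.2|)) :=
    ((hf.int.abs).mul_prod (hf.int.abs)).const_mul A
  refine (hpi.add hgi.abs).mono' ?_ (ae_of_all _ fun p => ?_)
  · exact (((h.kk_meas hD).mul (hf.cont.measurable.comp measurable_snd)).mul
      (hf.cont.measurable.comp measurable_fst)).aestronglyMeasurable
  · simp only [Pi.add_apply]
    rw [Real.norm_eq_abs]
    by_cases hz : f p.1 = 0
    · rw [hz, mul_zero, abs_zero]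
      positivity
    by_cases hy : f p.2 = 0
    · rw [hy, mul_zero, zero_mul, abs_zero]
      positivity
    have hz' : p.1 ∈ tsupport f := subset_tsupport _ hz
    have hy' : p.2 ∈ tsupport f := subset_tsupport _ hy
    rw [Gt_mem (hf.2.2 hz'), Gt_mem (hf.2.2 hy'), abs_mul, abs_mul,
      abs_of_nonneg (gk_nonneg (h.Gm _ (hf.2.2 hz')) (h.Gm _ (hf.2.2 hy')))]
    have h4 := hsing _ hz' _ hy'
    rw [abs_mul, abs_mul]
    calc gk (G (toC p.1)) (G (toC p.2)) * |f p.2| * |f p.1|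
        ≤ (A + |green p.1 p.2|) * |f p.2| * |f p.1| := by gcongr
      _ = A * (|f p.1| * |f p.2|) + |green p.1 p.2| * |f p.1| * |f p.2| := by ring

theorem Unif.Gr_prod (h : Unif D F G) (hD : IsOpen D) {f : ℝ × ℝ → ℝ} (hf : TestOn D f) :
    Gr G f = ∫ p : (ℝ × ℝ) × (ℝ × ℝ), gk (Gt D G p.1) (Gt D G p.2) * f p.2 * f p.1
      ∂(volume.prod volume) := by
  rw [integral_prod _ (h.int_prod hD hf)]
  unfold Gr
  congr 1
  funext z
  congr 1
  funext y
  simp only
  by_cases hz : z ∈ D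
  · by_cases hy : y ∈ D
    · rw [Gt_mem hz, Gt_mem hy]
    · rw [zero_off hf hy]
      ring
  · rw [zero_off hf hz]
    ring

theorem Gr_close (h₁ : Unif D₁ F₁ G₁) (h₂ : Unif D₂ F₂ G₂) (hD₁ : IsOpen D₁) (hD₂ : IsOpen D₂)
    {f : ℝ × ℝ → ℝ} (hf₁ : TestOn D₁ f) (hf₂ : TestOn D₂ f) {ε : ℝ} (hε : 0 ≤ ε)
    (hcl : ∀ z ∈ tsupport f, ∀ y ∈ tsupport f, z ≠ y →
      |gk (G₁ (toC z)) (G₁ (toC y)) - gk (G₂ (toC z)) (G₂ (toC y))| ≤ ε) :
    |Gr G₁ f - Gr G₂ f| ≤ ε * (∫ z, |f z|) ^ 2 := by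
  rw [h₁.Gr_prod hD₁ hf₁, h₂.Gr_prod hD₂ hf₂, ← integral_sub (h₁.int_prod hD₁ hf₁)
    (h₂.int_prod hD₂ hf₂)]
  have hpi : Integrable (fun p : (ℝ × ℝ) × (ℝ × ℝ) => |f p.1| * |f p.2|)
      (volume.prod volume) := (hf₁.int.abs).mul_prod (hf₁.int.abs)
  have e1 : ∫ p : (ℝ × ℝ) × (ℝ × ℝ), |f p.1| * |f p.2| ∂(volume.prod volume) =
      (∫ z, |f z|) ^ 2 := by
    rw [integral_prod_mul (fun z => |f z|) (fun z => |f z|), sq]
  refine (abs_integral_le_integral_abs).trans ?_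
  rw [← e1, ← integral_const_mul]
  refine integral_mono_of_nonneg (ae_of_all _ fun p => abs_nonneg _) (hpi.const_mul ε)
    (ae_of_all _ fun p => ?_)
  simp only
  by_cases hz : f p.1 = 0
  · rw [hz]; simp
  by_cases hy : f p.2 = 0
  · rw [hy]; simp
  have hz' : p.1 ∈ tsupport f := subset_tsupport _ hz
  have hy' : p.2 ∈ tsupport f := subset_tsupport _ hy
  rw [Gt_mem (hf₁.2.2 hz'), Gt_mem (hf₁.2.2 hy'), Gt_mem (hf₂.2.2 hz'), Gt_mem (hf₂.2.2 hy')]
  rw [mul_assoc, mul_assoc, ← sub_mul, abs_mul, abs_mul, mul_comm |f p.2|]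
  refine mul_le_mul_of_nonneg_right ?_ (by positivity)
  rcases eq_or_ne p.1 p.2 with he | he
  · rw [he, gk_self, gk_self]
    simpa using hε
  · exact hcl _ hz' _ hy' he

theorem arg_gt_meas : Measurable fun w : ℂ => 1 - 2 / Real.pi * w.arg :=
  measurable_const.sub (Complex.measurable_arg.const_mul _)

theorem Unif.uarg_int (h : Unif D F G) (hD : IsOpen D) {f : ℝ × ℝ → ℝ} (hf : TestOn D f) :
    Integrable fun z => uarg G 0 z * f z := by
  have e : (fun z => uarg G 0 z * f z) =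
      fun z => (1 - 2 / Real.pi * (Gt D G z).arg) * f z := by
    funext z
    by_cases hz : z ∈ D
    · rw [Gt_mem hz]
      unfold uarg
      simp
    · rw [zero_off hf hz]
      simp
  rw [e]
  refine hf.int.bdd_mul (c := 1) ?_ (ae_of_all _ fun z => ?_)
  · exact (arg_gt_meas.comp (h.Gt_meas hD)).aestronglyMeasurable
  · rw [Real.norm_eq_abs]
    refine uarg_abs ?_
    by_cases hz : z ∈ D
    · rw [Gt_mem hz]
      exact h.Gm z hz
    · have : Gt D G z = Complex.I := by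
        classical
        unfold Gt
        convert piecewise_eq_of_notMem D (fun z => G (toC z)) (fun _ => Complex.I) hz
      rw [this]
      change 0 < Complex.I.im
      simp

theorem uarg_close (h₁ : Unif D₁ F₁ G₁) (h₂ : Unif D₂ F₂ G₂) (hD₁ : IsOpen D₁) (hD₂ : IsOpen D₂)
    {f : ℝ × ℝ → ℝ} (hf₁ : TestOn D₁ f) (hf₂ : TestOn D₂ f) {ε : ℝ}
    (hcl : ∀ z ∈ tsupport f, |(G₁ (toC z)).arg - (G₂ (toC z)).arg| ≤ ε) :
    |(∫ z, uarg G₁ 0 z * f z) - ∫ z, uarg G₂ 0 z * f z| ≤ ε * ∫ z, |f z| := by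
  rw [← integral_sub (h₁.uarg_int hD₁ hf₁) (h₂.uarg_int hD₂ hf₂)]
  refine (abs_integral_le_integral_abs).trans ?_
  rw [← integral_const_mul]
  refine integral_mono_of_nonneg (ae_of_all _ fun p => abs_nonneg _) (hf₁.int.abs.const_mul ε)
    (ae_of_all _ fun z => ?_)
  simp only
  by_cases hz : f z = 0
  · rw [hz]; simp
  have hz' : z ∈ tsupport f := subset_tsupport _ hz
  rw [← sub_mul, abs_mul]
  refine mul_le_mul_of_nonneg_right ?_ (abs_nonneg _)
  have h1 := hcl z hz'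
  unfold uarg
  simp only [Complex.ofReal_zero, sub_zero]
  have e : 1 - 2 / Real.pi * (G₁ (toC z)).arg - (1 - 2 / Real.pi * (G₂ (toC z)).arg) =
      -(2 / Real.pi) * ((G₁ (toC z)).arg - (G₂ (toC z)).arg) := by ring
  rw [e, abs_mul, abs_neg, abs_of_pos (by positivity)]
  have h2 : 2 / Real.pi ≤ 1 := by
    rw [div_le_one Real.pi_pos]
    have := Real.pi_gt_three
    linarith
  calc 2 / Real.pi * |(G₁ (toC z)).arg - (G₂ (toC z)).arg| ≤
      1 * |(G₁ (toC z)).arg - (G₂ (toC z)).arg| := mul_le_mul_of_nonneg_right h2 (abs_nonneg _)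
    _ ≤ ε := by rw [one_mul]; exact h1

theorem uarg_int_le (h : Unif D F G) {f : ℝ × ℝ → ℝ} (hf : TestOn D f) :
    |∫ z, uarg G 0 z * f z| ≤ ∫ z, |f z| := by
  refine (abs_integral_le_integral_abs).trans ?_
  refine integral_mono_of_nonneg (ae_of_all _ fun p => abs_nonneg _) hf.int.abs
    (ae_of_all _ fun z => ?_)
  simp only
  by_cases hz : z ∈ D
  · rw [abs_mul]
    have h1 : |uarg G 0 z| ≤ 1 := by
      unfold uarg
      exact uarg_abs (HP_sub (h.Gm z hz) 0)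
    calc |uarg G 0 z| * |f z| ≤ 1 * |f z| := mul_le_mul_of_nonneg_right h1 (abs_nonneg _)
      _ = |f z| := one_mul _
  · rw [zero_off hf hz]; simp

end Vale.Agent.P153.R2.KAPV
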