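import Vale.Agent.P153.R2.KAPV.Ker
import Vale.Agent.P153.R2.OBSV.Core

/-!
P153, block KAPV: convergence of the inverse maps and of the Green functions along an ultrafilter.
-/

set_option autoImplicit false

namespace Vale.Agent.P153.R2.KAPV

open Filter Topology Set Metric MeasureTheory Complex
open Vale.Agent.P145.PT Vale.Agent.P153.R2.FLDI
open Vale.Agent.P153.R2.OBSV (cay icay cay_polar cos_diff cay_im cay_inj icay_cay cay_icay
  im_pos_iff_arg one_sub_ne Dsc Bas dm dm_open dm_bdd)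

/-! ### The angle -/

/-- The angle in `(0, 2π]`. -/
noncomputable def ang (ζ : ℂ) : ℝ := Real.pi + arg (-ζ)

theorem ang_eq (ζ : ℂ) : ζ = (‖ζ‖ : ℝ) * exp (ang ζ * I) := by
  have h := norm_mul_exp_arg_mul_I (-ζ)
  rw [norm_neg] at h
  unfold ang
  push_cast
  rw [add_mul, exp_add, exp_pi_mul_I]
  linear_combination h

theorem ang_range {ζ : ℂ} (h : -ζ ∈ slitPlane) : 0 < ang ζ ∧ ang ζ < 2 * Real.pi := by
  unfold ang
  have h1 := neg_pi_lt_arg (-ζ)
  have h2 : arg (-ζ) < Real.pi := lt_of_le_of_ne (arg_le_pi _) (mem_slitPlane_iff_arg.1 h).1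
  constructor <;> linarith

theorem ang_cont {ζ : ℂ} (h : -ζ ∈ slitPlane) : ContinuousAt ang ζ := by
  unfold ang
  exact continuousAt_const.add ((continuousAt_arg h).comp continuous_neg.continuousAt)

theorem acj_ne {a : ℂ} (ha : 0 < a.im) : a - (starRingEnd ℂ) a ≠ 0 := by
  intro h
  have := congrArg Complex.im h
  simp at this
  linarith

theorem den_ne {a : ℂ} (ha : 0 < a.im) (y : ℝ) : (y : ℂ) - (starRingEnd ℂ) a ≠ 0 := by
  intro h
  have := congrArg Complex.im h
  simp at this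
  linarith

theorem icay_real_norm {a : ℂ} (ha : 0 < a.im) (y : ℝ) : ‖icay a y‖ = 1 := by
  unfold icay
  rw [norm_div]
  have h1 : ‖(y : ℂ) - a‖ = ‖(y : ℂ) - (starRingEnd ℂ) a‖ := by
    rw [← Complex.norm_conj ((y : ℂ) - a)]
    simp
  rw [h1, div_self]
  exact (norm_pos_iff.2 (den_ne ha y)).ne'

theorem icay_real_ne {a : ℂ} (ha : 0 < a.im) (y : ℝ) : icay a y ≠ 1 := by
  unfold icay
  intro h
  rw [div_eq_one_iff_eq (den_ne ha y)] at h
  exact acj_ne ha (by linear_combination -h)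

theorem icay_real_slit {a : ℂ} (ha : 0 < a.im) (y : ℝ) : -icay a y ∈ slitPlane := by
  have h1 := icay_real_norm ha y
  have h2 := icay_real_ne ha y
  rw [mem_slitPlane_iff]
  by_contra hcon
  push Not at hcon
  obtain ⟨h3, h4⟩ := hcon
  simp only [neg_re, neg_im, neg_eq_zero] at h3 h4
  have h5 : icay a y = ((icay a y).re : ℂ) := by
    apply Complex.ext
    · simp
    · rw [h4]; simp
  have h6 : 0 ≤ (icay a y).re := by linarith
  rw [h5, norm_real, Real.norm_eq_abs, abs_of_nonneg h6] at h1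
  exact h2 (by rw [h5, h1]; simp)

theorem cay_icay_real {a : ℂ} (ha : 0 < a.im) (y : ℝ) : cay a (icay a y) = y := by
  have h1 := den_ne ha y
  have h2 : 1 - icay a y ≠ 0 := fun h => icay_real_ne ha y (by linear_combination -h)
  unfold cay
  rw [div_eq_iff h2]
  unfold icay
  field_simp
  ring

/-- The real point `y` in terms of the angle. -/
theorem real_ang {a : ℂ} (ha : 0 < a.im) (y : ℝ) : ∃ N : ℝ, 0 < N ∧
    y = N * (Real.sin (ang (icay a y) / 2) * Real.sin (ang (icay a y) / 2 - arg a)) := by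
  have h2 : 1 - icay a y ≠ 0 := fun h => icay_real_ne ha y (by linear_combination -h)
  have e : icay a y = ((1 : ℝ) : ℂ) * exp (ang (icay a y) * I) := by
    have := ang_eq (icay a y)
    rwa [icay_real_norm ha y] at this
  rw [e] at h2
  obtain ⟨N, hN, h3, -⟩ := cay_polar (a := a) 1 (ang (icay a y)) h2
  rw [← e, cay_icay_real ha y, ofReal_re, cos_diff] at h3
  have ha0 : 0 < ‖a‖ := by
    rw [norm_pos_iff]; rintro rfl; simp at ha
  refine ⟨N * (‖a‖ * 4), by positivity, h3.trans ?_⟩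
  ring

theorem ang_pos {a : ℂ} (ha : 0 < a.im) {y : ℝ} (hy : 0 < y) : 2 * arg a < ang (icay a y) := by
  obtain ⟨N, hN, h⟩ := real_ang ha y
  obtain ⟨r1, r2⟩ := ang_range (icay_real_slit ha y)
  obtain ⟨b1, b2⟩ := im_pos_iff_arg.1 ha
  by_contra hcon
  rw [not_lt] at hcon
  have h1 : 0 < Real.sin (ang (icay a y) / 2) :=
    Real.sin_pos_of_pos_of_lt_pi (by linarith) (by linarith)
  have h2 : Real.sin (ang (icay a y) / 2 - arg a) ≤ 0 :=
    Real.sin_nonpos_of_nonpos_of_neg_pi_le (by linarith) (by linarith)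
  have h3 : N * (Real.sin (ang (icay a y) / 2) * Real.sin (ang (icay a y) / 2 - arg a)) ≤ 0 :=
    mul_nonpos_of_nonneg_of_nonpos hN.le (mul_nonpos_of_nonneg_of_nonpos h1.le h2)
  linarith

theorem ang_neg {a : ℂ} (ha : 0 < a.im) {y : ℝ} (hy : y < 0) : ang (icay a y) < 2 * arg a := by
  obtain ⟨N, hN, h⟩ := real_ang ha y
  obtain ⟨r1, r2⟩ := ang_range (icay_real_slit ha y)
  obtain ⟨b1, b2⟩ := im_pos_iff_arg.1 ha
  by_contra hcon
  rw [not_lt] at hcon
  have h1 : 0 < Real.sin (ang (icay a y) / 2) :=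
    Real.sin_pos_of_pos_of_lt_pi (by linarith) (by linarith)
  have h2 : 0 ≤ Real.sin (ang (icay a y) / 2 - arg a) :=
    Real.sin_nonneg_of_nonneg_of_le_pi (by linarith) (by linarith)
  have h3 : 0 ≤ N * (Real.sin (ang (icay a y) / 2) * Real.sin (ang (icay a y) / 2 - arg a)) :=
    mul_nonneg hN.le (mul_nonneg h1.le h2)
  linarith

/-- Convergence of the vertical line in the disc. -/
theorem icay_tendsto {a : ℂ} (ha : 0 < a.im) (y : ℝ) :
    Tendsto (fun η : ℝ => icay a ⟨y, η⟩) (𝓝[>] 0) (𝓝 (icay a y)) := by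
  have h2 : Continuous fun η : ℝ => (⟨y, η⟩ : ℂ) := by
    have : (fun η : ℝ => (⟨y, η⟩ : ℂ)) = fun η : ℝ => (y : ℂ) + η * I := by
      funext η
      apply Complex.ext <;> simp
    rw [this]
    fun_prop
  have h3 := h2.tendsto 0
  have e : (⟨y, 0⟩ : ℂ) = y := by apply Complex.ext <;> simp
  rw [e] at h3
  have h4 : ContinuousAt (icay a) y := by
    unfold icay
    exact (continuousAt_id.sub continuousAt_const).div (continuousAt_id.sub continuousAt_const)
      (den_ne ha y)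
  exact (h4.tendsto.comp h3).mono_left nhdsWithin_le_nhds

/-! ### The Green function in the disc -/

theorem cay_sub_cay {a p q : ℂ} (hp : p ∈ ball (0 : ℂ) 1) (hq : q ∈ ball (0 : ℂ) 1) :
    cay a p - cay a q = (a - (starRingEnd ℂ) a) * (p - q) / ((1 - p) * (1 - q)) := by
  have h1 := one_sub_ne hp
  have h2 := one_sub_ne hq
  unfold cay
  field_simp
  ring

theorem cay_sub_conj {a p q : ℂ} (hp : p ∈ ball (0 : ℂ) 1) (hq : q ∈ ball (0 : ℂ) 1) :
    cay a p - (starRingEnd ℂ) (cay a q) =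
      (a - (starRingEnd ℂ) a) * (1 - p * (starRingEnd ℂ) q) /
        ((1 - p) * (1 - (starRingEnd ℂ) q)) := by
  have h1 := one_sub_ne hp
  have h2 : 1 - (starRingEnd ℂ) q ≠ 0 := by
    have := one_sub_ne (w := (starRingEnd ℂ) q) (by
      rw [mem_ball_zero_iff, norm_conj]; exact mem_ball_zero_iff.1 hq)
    exact this
  unfold cay
  rw [map_div₀, map_sub, map_sub, map_mul, map_one, conj_conj]
  field_simp
  ring

theorem gk_cay {a p q : ℂ} (ha : 0 < a.im) (hp : p ∈ ball (0 : ℂ) 1) (hq : q ∈ ball (0 : ℂ) 1) :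
    gk (cay a p) (cay a q) =
      (2 * Real.pi)⁻¹ * Real.log (‖1 - p * (starRingEnd ℂ) q‖ / ‖p - q‖) := by
  unfold gk
  congr 2
  rw [cay_sub_cay hp hq, cay_sub_conj hp hq]
  have e1 : ‖1 - (starRingEnd ℂ) q‖ = ‖1 - q‖ := by
    rw [← norm_conj (1 - q)]
    simp
  simp only [norm_div, norm_mul, e1]
  have n1 : ‖a - (starRingEnd ℂ) a‖ ≠ 0 := norm_ne_zero_iff.2 (acj_ne ha)
  have n2 : ‖1 - p‖ ≠ 0 := norm_ne_zero_iff.2 (one_sub_ne hp)
  have n3 : ‖1 - q‖ ≠ 0 := norm_ne_zero_iff.2 (one_sub_ne hq)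
  rw [div_div_div_cancel_right₀ (mul_ne_zero n2 n3), mul_div_mul_left _ _ n1]

theorem log_close2 {x y t : ℝ} (hy : 0 < y) (ht : t ≤ 1 / 2) (h : |x - y| ≤ t * y) :
    |Real.log x - Real.log y| ≤ 2 * t := by
  rw [abs_le] at h
  have hx : y / 2 ≤ x := by nlinarith [h.1]
  have hx0 : 0 < x := by linarith
  have ht0 : 0 ≤ t := by
    by_contra hc
    rw [not_le] at hc
    nlinarith [h.1, h.2]
  have h1 : Real.log (x / y) ≤ x / y - 1 := Real.log_le_sub_one_of_pos (div_pos hx0 hy)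
  have h2 : Real.log (y / x) ≤ y / x - 1 := Real.log_le_sub_one_of_pos (div_pos hy hx0)
  rw [Real.log_div hx0.ne' hy.ne'] at h1
  rw [Real.log_div hy.ne' hx0.ne'] at h2
  have h3 : x / y - 1 ≤ t := by
    rw [div_sub_one hy.ne', div_le_iff₀ hy]
    exact h.2
  have h4 : y / x - 1 ≤ 2 * t := by
    rw [div_sub_one hx0.ne', div_le_iff₀ hx0]
    nlinarith [h.1]
  rw [abs_le]
  constructor <;> linarith

end Vale.Agent.P153.R2.KAPV
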