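import Vale.Agent.P153.R2.KAPV.Inv

/-!
P153, block KAPV: convergence of the inverse maps and of the Green functions along an ultrafilter,
continued.
-/

set_option autoImplicit false

namespace Vale.Agent.P153.R2.KAPV

open Filter Topology Set Metric MeasureTheory Complex
open Vale.Agent.P145.PT Vale.Agent.P153.R2.FLDI
open Vale.Agent.P153.R2.OBSV (cay icay cay_polar cos_diff cay_im cay_inj icay_cay cay_icay
  im_pos_iff_arg one_sub_ne Dsc Bas dm dm_open dm_bdd inv_mem f_inv inv_f inv_diff exists_limit'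
  lim_diff lim_inj lim_dsc lim_pt ker_up cay_diff)

variable {ι : Type*} {𝒰 : Ultrafilter ι} {f : ι → ℂ → ℂ} {g : ℂ → ℂ} {z₀ : ℂ} {R₀ c₀ : ℝ}

theorem lim_sub (h : ∀ i, Dsc (f i) z₀ R₀ c₀) (hc : 0 < c₀)
    (hg : TendstoLocallyUniformlyOn f g (𝒰 : Filter ι) (ball 0 1)) :
    ball z₀ c₀ ⊆ g '' ball 0 1 := by
  have hg0 := (lim_dsc h hg).1
  have := ker_up h hc hg (mem_ball_self one_pos) (s := c₀) (Eventually.of_forall fun i => by
    rw [hg0]; exact (h i).sub)
  rwa [hg0] at this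

theorem inv_norm (h : Dsc g z₀ R₀ c₀) (hc : 0 < c₀) {z : ℂ} (hz : z ∈ ball z₀ c₀) :
    c₀ * ‖Function.invFunOn g (ball 0 1) z‖ ≤ ‖z - z₀‖ := by
  have h1 := h.low hc (inv_mem (h.sub hz))
  rwa [f_inv (h.sub hz)] at h1

/-- The inverse maps converge. -/
theorem inv_lim (h : ∀ i, Dsc (f i) z₀ R₀ c₀) (hc : 0 < c₀)
    (hg : TendstoLocallyUniformlyOn f g (𝒰 : Filter ι) (ball 0 1)) :
    TendstoLocallyUniformlyOn (fun i => Function.invFunOn (f i) (ball 0 1))
      (Function.invFunOn g (ball 0 1)) (𝒰 : Filter ι) (ball z₀ c₀) := by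
  have hgd := lim_diff h hg
  have hgi := lim_inj h hc hg
  obtain ⟨Q, hQ⟩ := exists_limit' (U := ball z₀ c₀) isOpen_ball 𝒰
    (fun i => Function.invFunOn (f i) (ball 0 1))
    (fun i => (inv_diff isOpen_ball (h i).diff (h i).inj).mono (h i).sub)
    (fun i z hz => by
      have := inv_mem ((h i).sub hz)
      rw [mem_ball_zero_iff] at this
      exact this.le)
  refine hQ.congr_right fun z hz => ?_
  have h1 : Tendsto (fun i => Function.invFunOn (f i) (ball 0 1) z) 𝒰 (𝓝 (Q z)) :=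
    hQ.tendsto_at hz
  have h2 : c₀ * ‖Q z‖ ≤ ‖z - z₀‖ :=
    le_of_tendsto (h1.norm.const_mul c₀) (Eventually.of_forall fun i => inv_norm (h i) hc hz)
  have h3 : Q z ∈ ball (0 : ℂ) 1 := by
    rw [mem_ball_zero_iff]
    rw [mem_ball, dist_eq_norm] at hz
    by_contra hcon
    rw [not_lt] at hcon
    nlinarith
  have h4 : Tendsto (fun i => f i (Function.invFunOn (f i) (ball 0 1) z)) 𝒰 (𝓝 (g (Q z))) := by
    refine hg.tendsto_comp (hgd.continuousOn (Q z) h3) h3 ?_
    refine tendsto_nhdsWithin_iff.2 ⟨h1, Eventually.of_forall fun i => inv_mem ((h i).sub hz)⟩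
  have h5 : g (Q z) = z := by
    refine tendsto_nhds_unique h4 ?_
    refine tendsto_const_nhds.congr fun i => ?_
    exact (f_inv ((h i).sub hz)).symm
  rw [← inv_f hgi h3, h5]

/-- Uniform closeness of the inverse maps. -/
theorem inv_unif (h : ∀ i, Dsc (f i) z₀ R₀ c₀) (hc : 0 < c₀)
    (hg : TendstoLocallyUniformlyOn f g (𝒰 : Filter ι) (ball 0 1)) {ε : ℝ} (hε : 0 < ε) :
    ∀ᶠ i in (𝒰 : Filter ι), ∀ z ∈ closedBall z₀ (c₀ / 4),
      ‖Function.invFunOn (f i) (ball 0 1) z - Function.invFunOn g (ball 0 1) z‖ ≤ ε := by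
  have hK : closedBall z₀ (c₀ / 4) ⊆ ball z₀ c₀ := closedBall_subset_ball (by linarith)
  have h1 := ((tendstoLocallyUniformlyOn_iff_forall_isCompact isOpen_ball).1 (inv_lim h hc hg))
    _ hK (isCompact_closedBall _ _)
  rw [Metric.tendstoUniformlyOn_iff] at h1
  filter_upwards [h1 ε hε] with i hi z hz
  have := hi z hz
  rw [dist_comm, dist_eq_norm] at this
  exact this.le

theorem invg_diff (h : ∀ i, Dsc (f i) z₀ R₀ c₀) (hc : 0 < c₀)
    (hg : TendstoLocallyUniformlyOn f g (𝒰 : Filter ι) (ball 0 1)) :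
    DifferentiableOn ℂ (Function.invFunOn g (ball 0 1)) (ball z₀ c₀) :=
  (inv_diff isOpen_ball (lim_diff h hg) (lim_inj h hc hg)).mono (lim_sub h hc hg)

/-- Uniform closeness of the increments of the inverse maps. -/
theorem inv_lip (h : ∀ i, Dsc (f i) z₀ R₀ c₀) (hc : 0 < c₀)
    (hg : TendstoLocallyUniformlyOn f g (𝒰 : Filter ι) (ball 0 1)) {ε : ℝ} (hε : 0 < ε) :
    ∀ᶠ i in (𝒰 : Filter ι), ∀ z ∈ closedBall z₀ (c₀ / 4), ∀ y ∈ closedBall z₀ (c₀ / 4),
      ‖(Function.invFunOn (f i) (ball 0 1) z - Function.invFunOn g (ball 0 1) z) -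
        (Function.invFunOn (f i) (ball 0 1) y - Function.invFunOn g (ball 0 1) y)‖ ≤
        ε * ‖z - y‖ := by
  have hK : closedBall z₀ (c₀ / 4) ⊆ ball z₀ c₀ := closedBall_subset_ball (by linarith)
  have hd : ∀ i, DifferentiableOn ℂ (Function.invFunOn (f i) (ball 0 1)) (ball z₀ c₀) := fun i =>
    (inv_diff isOpen_ball (h i).diff (h i).inj).mono (h i).sub
  have hdg := invg_diff h hc hg
  have h0 := (inv_lim h hc hg).deriv (Eventually.of_forall hd) isOpen_ball
  have h1 := ((tendstoLocallyUniformlyOn_iff_forall_isCompact isOpen_ball).1 h0)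
    _ hK (isCompact_closedBall _ _)
  rw [Metric.tendstoUniformlyOn_iff] at h1
  filter_upwards [h1 ε hε] with i hi z hz y hy
  have hda : ∀ x ∈ closedBall z₀ (c₀ / 4), DifferentiableAt ℂ
      (fun z => Function.invFunOn (f i) (ball 0 1) z - Function.invFunOn g (ball 0 1) z) x :=
    fun x hx => ((hd i).differentiableAt (isOpen_ball.mem_nhds (hK hx))).sub
      (hdg.differentiableAt (isOpen_ball.mem_nhds (hK hx)))
  refine Convex.norm_image_sub_le_of_norm_deriv_le (𝕜 := ℂ)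
    (f := fun z => Function.invFunOn (f i) (ball 0 1) z - Function.invFunOn g (ball 0 1) z)
    (C := ε) (s := closedBall z₀ (c₀ / 4)) hda (fun x hx => ?_) (convex_closedBall _ _) hy hz
  have h2 := hi x hx
  rw [dist_comm, dist_eq_norm] at h2
  have h3 : deriv (fun z => Function.invFunOn (f i) (ball 0 1) z -
      Function.invFunOn g (ball 0 1) z) x =
      deriv (Function.invFunOn (f i) (ball 0 1)) x - deriv (Function.invFunOn g (ball 0 1)) x :=
    deriv_fun_sub ((hd i).differentiableAt (isOpen_ball.mem_nhds (hK hx)))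
      (hdg.differentiableAt (isOpen_ball.mem_nhds (hK hx)))
  rw [h3]
  exact h2.le

/-- The lower bound for the increments of the limit map. -/
theorem invg_low (h : ∀ i, Dsc (f i) z₀ R₀ c₀) (hc : 0 < c₀)
    (hg : TendstoLocallyUniformlyOn f g (𝒰 : Filter ι) (ball 0 1)) :
    ∃ L : ℝ, 0 < L ∧ ∀ z ∈ closedBall z₀ (c₀ / 4), ∀ y ∈ closedBall z₀ (c₀ / 4),
      ‖z - y‖ ≤ L * ‖Function.invFunOn g (ball 0 1) z - Function.invFunOn g (ball 0 1) y‖ := by
  have hK : closedBall z₀ (c₀ / 4) ⊆ ball z₀ c₀ := closedBall_subset_ball (by linarith)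
  have hgd := lim_diff h hg
  have hD : Dsc g z₀ R₀ c₀ := ⟨hgd, lim_inj h hc hg, (lim_dsc h hg).1, (lim_dsc h hg).2,
    lim_sub h hc hg⟩
  have hin : ∀ z ∈ closedBall z₀ (c₀ / 4),
      Function.invFunOn g (ball 0 1) z ∈ closedBall (0 : ℂ) (1 / 4) := by
    intro z hz
    have h1 := inv_norm hD hc (hK hz)
    rw [mem_closedBall, dist_eq_norm] at hz
    rw [mem_closedBall_zero_iff]
    by_contra hcon
    rw [not_le] at hcon
    nlinarith
  have hsub : closedBall (0 : ℂ) (1 / 4) ⊆ ball 0 1 := closedBall_subset_ball (by norm_num)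
  have hdc : ContinuousOn (deriv g) (closedBall 0 (1 / 4)) := by
    intro w hw
    exact (hgd.analyticAt (isOpen_ball.mem_nhds (hsub hw))).deriv.continuousAt.continuousWithinAt
  obtain ⟨L, hL⟩ := (isCompact_closedBall (0 : ℂ) (1 / 4)).exists_bound_of_continuousOn hdc
  refine ⟨max L 1, by positivity, fun z hz y hy => ?_⟩
  have h1 := Convex.norm_image_sub_le_of_norm_deriv_le (𝕜 := ℂ) (f := g) (C := max L 1)
    (s := closedBall 0 (1 / 4))
    (fun w hw => hgd.differentiableAt (isOpen_ball.mem_nhds (hsub hw)))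
    (fun w hw => (hL w hw).trans (le_max_left _ _)) (convex_closedBall _ _) (hin y hy) (hin z hz)
  rwa [f_inv (lim_sub h hc hg (hK hz)), f_inv (lim_sub h hc hg (hK hy))] at h1

/-- Convergence of the Green functions. -/
theorem gk_lim {w : ι → ℂ} {w₁ : ℂ} (hw : ∀ i, 0 < (w i).im) (hw₁ : 0 < w₁.im)
    (h : ∀ i, Dsc (f i) z₀ R₀ c₀) (hc : 0 < c₀)
    (hg : TendstoLocallyUniformlyOn f g (𝒰 : Filter ι) (ball 0 1)) {ε : ℝ} (hε : 0 < ε) :
    ∀ᶠ i in (𝒰 : Filter ι), ∀ z ∈ closedBall z₀ (c₀ / 4), ∀ y ∈ closedBall z₀ (c₀ / 4), z ≠ y →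
      |gk (cay (w i) (Function.invFunOn (f i) (ball 0 1) z))
          (cay (w i) (Function.invFunOn (f i) (ball 0 1) y)) -
        gk (cay w₁ (Function.invFunOn g (ball 0 1) z))
          (cay w₁ (Function.invFunOn g (ball 0 1) y))| ≤ ε := by
  have hK : closedBall z₀ (c₀ / 4) ⊆ ball z₀ c₀ := closedBall_subset_ball (by linarith)
  have hD : Dsc g z₀ R₀ c₀ := ⟨lim_diff h hg, lim_inj h hc hg, (lim_dsc h hg).1, (lim_dsc h hg).2,
    lim_sub h hc hg⟩
  have hgen : ∀ (F : ℂ → ℂ), Dsc F z₀ R₀ c₀ → ∀ z ∈ closedBall z₀ (c₀ / 4),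
      ‖Function.invFunOn F (ball 0 1) z‖ ≤ 1 / 4 := by
    intro F hF z hz
    have h1 := inv_norm hF hc (hK hz)
    rw [mem_closedBall, dist_eq_norm] at hz
    by_contra hcon
    rw [not_le] at hcon
    nlinarith
  obtain ⟨L, hL, hlow⟩ := invg_low h hc hg
  set t : ℝ := min (1 / 8) (ε / 8) with ht
  have ht0 : 0 < t := lt_min (by norm_num) (by positivity)
  have ht1 : t ≤ 1 / 8 := min_le_left _ _
  have ht2 : t ≤ ε / 8 := min_le_right _ _
  filter_upwards [inv_unif h hc hg ht0, inv_lip h hc hg (ε := t / L) (by positivity)]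
    with i h1 h2 z hz y hy hzy
  set p := Function.invFunOn (f i) (ball 0 1) z with hp
  set p' := Function.invFunOn (f i) (ball 0 1) y with hp'
  set q := Function.invFunOn g (ball 0 1) z with hq
  set q' := Function.invFunOn g (ball 0 1) y with hq'
  have np := hgen _ (h i) z hz
  have np' := hgen _ (h i) y hy
  have nq := hgen _ hD z hz
  have nq' := hgen _ hD y hy
  rw [← hp] at np
  rw [← hp'] at np'
  rw [← hq] at nq
  rw [← hq'] at nq'
  have bp : p ∈ ball (0 : ℂ) 1 := by rw [mem_ball_zero_iff]; linarith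
  have bp' : p' ∈ ball (0 : ℂ) 1 := by rw [mem_ball_zero_iff]; linarith
  have bq : q ∈ ball (0 : ℂ) 1 := by rw [mem_ball_zero_iff]; linarith
  have bq' : q' ∈ ball (0 : ℂ) 1 := by rw [mem_ball_zero_iff]; linarith
  have hqq : q ≠ q' := by
    intro he
    apply hzy
    rw [← f_inv (lim_sub h hc hg (hK hz)), ← f_inv (lim_sub h hc hg (hK hy)), ← hq, ← hq', he]
  have hpp : p ≠ p' := by
    intro he
    apply hzy
    rw [← f_inv ((h i).sub (hK hz)), ← f_inv ((h i).sub (hK hy)), ← hp, ← hp', he]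
  have dq : 0 < ‖q - q'‖ := norm_pos_iff.2 (sub_ne_zero.2 hqq)
  have dp : 0 < ‖p - p'‖ := norm_pos_iff.2 (sub_ne_zero.2 hpp)
  have mul_bd : ∀ a b : ℂ, ‖a‖ ≤ 1 / 4 → ‖b‖ ≤ 1 / 4 →
      1 / 2 ≤ ‖1 - a * (starRingEnd ℂ) b‖ := by
    intro a b ha hb
    have e1 : ‖a * (starRingEnd ℂ) b‖ ≤ 1 / 4 * (1 / 4) := by
      rw [norm_mul, norm_conj]
      exact mul_le_mul ha hb (norm_nonneg _) (by norm_num)
    have e2 := norm_sub_norm_le (1 : ℂ) (a * (starRingEnd ℂ) b)
    rw [norm_one] at e2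
    linarith
  have c1 := mul_bd p p' np np'
  have c2 := mul_bd q q' nq nq'
  rw [gk_cay (hw i) bp bp', gk_cay hw₁ bq bq', Real.log_div (by linarith) dp.ne',
    Real.log_div (by linarith) dq.ne', ← mul_sub]
  have l1 : |Real.log ‖1 - p * (starRingEnd ℂ) p'‖ - Real.log ‖1 - q * (starRingEnd ℂ) q'‖| ≤
      2 * (4 * t) := by
    refine log_close2 (by linarith) (by linarith) ?_
    have e1 : (1 - p * (starRingEnd ℂ) p') - (1 - q * (starRingEnd ℂ) q') =
        (q - p) * (starRingEnd ℂ) q' + p * (starRingEnd ℂ) (q' - p') := by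
      rw [map_sub]; ring
    have e2 := abs_norm_sub_norm_le (1 - p * (starRingEnd ℂ) p') (1 - q * (starRingEnd ℂ) q')
    have e3 := h1 z hz
    have e4 := h1 y hy
    rw [← hp, ← hq] at e3
    rw [← hp', ← hq'] at e4
    rw [norm_sub_rev] at e3 e4
    have e5 : ‖(q - p) * (starRingEnd ℂ) q' + p * (starRingEnd ℂ) (q' - p')‖ ≤ 2 * t := by
      refine (norm_add_le _ _).trans ?_
      rw [norm_mul, norm_mul, norm_conj, norm_conj]
      have f1 : ‖q - p‖ * ‖q'‖ ≤ t * (1 / 4) := mul_le_mul e3 nq' (norm_nonneg _) ht0.le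
      have f2 : ‖p‖ * ‖q' - p'‖ ≤ 1 / 4 * t := mul_le_mul np e4 (norm_nonneg _) (by norm_num)
      linarith
    rw [e1] at e2
    refine (e2.trans e5).trans ?_
    nlinarith
  have l2 : |Real.log ‖p - p'‖ - Real.log ‖q - q'‖| ≤ 2 * t := by
    refine log_close2 dq (by linarith) ?_
    have e1 := h2 z hz y hy
    rw [← hp, ← hp', ← hq, ← hq'] at e1
    have e2 := abs_norm_sub_norm_le (p - p') (q - q')
    have e3 : (p - p') - (q - q') = (p - q) - (p' - q') := by ring
    rw [e3] at e2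
    refine (e2.trans e1).trans ?_
    have e4 := hlow z hz y hy
    calc t / L * ‖z - y‖ ≤ t / L * (L * ‖q - q'‖) :=
          mul_le_mul_of_nonneg_left e4 (by positivity)
      _ = t * ‖q - q'‖ := by field_simp
  rw [abs_mul]
  have hpi : |(2 * Real.pi)⁻¹| ≤ 1 / 2 := by
    rw [abs_of_pos (by positivity), inv_eq_one_div]
    refine one_div_le_one_div_of_le (by norm_num) ?_
    have := Real.pi_gt_three
    linarith
  have l3 : |Real.log ‖1 - p * (starRingEnd ℂ) p'‖ - Real.log ‖p - p'‖ -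
      (Real.log ‖1 - q * (starRingEnd ℂ) q'‖ - Real.log ‖q - q'‖)| ≤ 10 * t := by
    rw [abs_le] at l1 l2 ⊢
    constructor <;> linarith [l1.1, l1.2, l2.1, l2.2]
  calc |(2 * Real.pi)⁻¹| * |Real.log ‖1 - p * (starRingEnd ℂ) p'‖ - Real.log ‖p - p'‖ -
      (Real.log ‖1 - q * (starRingEnd ℂ) q'‖ - Real.log ‖q - q'‖)| ≤ 1 / 2 * (10 * t) :=
        mul_le_mul hpi l3 (abs_nonneg _) (by norm_num)
    _ ≤ ε := by linarith

/-- Convergence of the arguments. -/
theorem arg_lim {w : ι → ℂ} {w₁ : ℂ} (hw₁ : 0 < w₁.im)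
    (hwt : Tendsto w 𝒰 (𝓝 w₁))
    (h : ∀ i, Dsc (f i) z₀ R₀ c₀) (hc : 0 < c₀)
    (hg : TendstoLocallyUniformlyOn f g (𝒰 : Filter ι) (ball 0 1)) {ε : ℝ} (hε : 0 < ε) :
    ∀ᶠ i in (𝒰 : Filter ι), ∀ z ∈ closedBall z₀ (c₀ / 4),
      |arg (cay (w i) (Function.invFunOn (f i) (ball 0 1) z)) -
        arg (cay w₁ (Function.invFunOn g (ball 0 1) z))| ≤ ε := by
  have hK : closedBall z₀ (c₀ / 4) ⊆ ball z₀ c₀ := closedBall_subset_ball (by linarith)
  have hD : Dsc g z₀ R₀ c₀ := ⟨lim_diff h hg, lim_inj h hc hg, (lim_dsc h hg).1, (lim_dsc h hg).2,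
    lim_sub h hc hg⟩
  have hgen : ∀ (F : ℂ → ℂ), Dsc F z₀ R₀ c₀ → ∀ z ∈ closedBall z₀ (c₀ / 4),
      Function.invFunOn F (ball 0 1) z ∈ closedBall (0 : ℂ) (1 / 4) := by
    intro F hF z hz
    have h1 := inv_norm hF hc (hK hz)
    rw [mem_closedBall, dist_eq_norm] at hz
    rw [mem_closedBall_zero_iff]
    by_contra hcon
    rw [not_le] at hcon
    nlinarith
  -- a compact neighbourhood of `w₁`
  set S : Set (ℂ × ℂ) := closedBall w₁ (w₁.im / 2) ×ˢ closedBall 0 (1 / 4) with hS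
  have hSc : IsCompact S := (isCompact_closedBall _ _).prod (isCompact_closedBall _ _)
  have him : ∀ a ∈ closedBall w₁ (w₁.im / 2), 0 < a.im := by
    intro a ha
    rw [mem_closedBall, dist_eq_norm] at ha
    have h1 := abs_im_le_norm (a - w₁)
    rw [sub_im] at h1
    have h2 := (abs_le.1 (h1.trans ha)).1
    linarith
  have hcont : ContinuousOn (fun x : ℂ × ℂ => arg (cay x.1 x.2)) S := by
    intro x hx
    have hx2 : x.2 ∈ ball (0 : ℂ) 1 := closedBall_subset_ball (by norm_num) hx.2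
    have h1 : ContinuousAt (fun x : ℂ × ℂ => cay x.1 x.2) x := by
      unfold cay
      refine ContinuousAt.div ?_ ?_ (one_sub_ne hx2)
      · exact continuousAt_fst.sub ((continuous_conj.continuousAt.comp continuousAt_fst).mul
          continuousAt_snd)
      · exact continuousAt_const.sub continuousAt_snd
    have h2 : cay x.1 x.2 ∈ slitPlane := Or.inr (cay_im (him _ hx.1) hx2).ne'
    have h3 : ContinuousAt arg ((fun x : ℂ × ℂ => cay x.1 x.2) x) := continuousAt_arg h2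
    exact (ContinuousAt.comp (f := fun x : ℂ × ℂ => cay x.1 x.2) h3 h1).continuousWithinAt
  have huc := hSc.uniformContinuousOn_of_continuous hcont
  rw [Metric.uniformContinuousOn_iff] at huc
  obtain ⟨d, hd, hdd⟩ := huc ε hε
  have ev1 := hwt.eventually (ball_mem_nhds w₁ hd)
  have ev2 := hwt.eventually (closedBall_mem_nhds w₁ (show 0 < w₁.im / 2 by linarith))
  filter_upwards [inv_unif h hc hg (ε := d / 2) (by positivity), ev1, ev2] with i h1 h2 h3 z hz
  have h4 := hdd (w i, Function.invFunOn (f i) (ball 0 1) z) ⟨h3, hgen _ (h i) z hz⟩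
    (w₁, Function.invFunOn g (ball 0 1) z)
    ⟨mem_closedBall_self (by linarith), hgen _ hD z hz⟩ (by
      rw [Prod.dist_eq, max_lt_iff]
      refine ⟨h2, ?_⟩
      have := h1 z hz
      rw [← dist_eq_norm] at this
      simp only
      linarith)
  rw [Real.dist_eq] at h4
  exact h4.le

end Vale.Agent.P153.R2.KAPV
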