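import Vale.Agent.P153.R2.KAPV.ArcP
import Vale.Agent.P153.Bd5.B14

/-!
P153, block KAPV: the Green function of a conformal image of the half-plane, and the harmonic
function `1 - (2/π) arg (G - W)`.
-/

set_option autoImplicit false

namespace Vale.Agent.P153.R2.KAPV

open Filter Topology Set MeasureTheory InnerProductSpace
open Vale.Agent.P145.PT Vale.Agent.P153.R2.FLDI
open Vale.Agent.P152.GFF.S (green S10_phi S10_phi_integrable)

/-- The Green function of the half-plane. -/
noncomputable def gk (w₁ w₂ : ℂ) : ℝ :=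
  (2 * Real.pi)⁻¹ * Real.log (‖w₁ - (starRingEnd ℂ) w₂‖ / ‖w₁ - w₂‖)

theorem norm_sq_sub_conj (w₁ w₂ : ℂ) :
    ‖w₁ - (starRingEnd ℂ) w₂‖ ^ 2 = ‖w₁ - w₂‖ ^ 2 + 4 * w₁.im * w₂.im := by
  rw [← Complex.normSq_eq_norm_sq, ← Complex.normSq_eq_norm_sq, Complex.normSq_apply,
    Complex.normSq_apply]
  simp only [Complex.sub_re, Complex.conj_re, Complex.sub_im, Complex.conj_im]
  ring

theorem gk_nonneg {w₁ w₂ : ℂ} (h₁ : w₁ ∈ HP) (h₂ : w₂ ∈ HP) : 0 ≤ gk w₁ w₂ := by
  have p₁ : 0 < w₁.im := h₁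
  have p₂ : 0 < w₂.im := h₂
  unfold gk
  refine mul_nonneg (by positivity) ?_
  rcases eq_or_ne w₁ w₂ with h | h
  · rw [h, sub_self, norm_zero, div_zero, Real.log_zero]
  · have hn : 0 < ‖w₁ - w₂‖ := norm_pos_iff.2 (sub_ne_zero.2 h)
    refine Real.log_nonneg ?_
    rw [one_le_div hn]
    refine le_of_sq_le_sq ?_ (norm_nonneg _)
    rw [norm_sq_sub_conj]
    have := mul_pos p₁ p₂
    nlinarith

theorem gk_le {w₁ w₂ : ℂ} (h₁ : w₁ ∈ HP) (h₂ : w₂ ∈ HP) (hne : w₁ ≠ w₂) :
    gk w₁ w₂ ≤ w₁.im * w₂.im / ‖w₁ - w₂‖ ^ 2 := by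
  have p₁ : 0 < w₁.im := h₁
  have p₂ : 0 < w₂.im := h₂
  have hn : 0 < ‖w₁ - w₂‖ := norm_pos_iff.2 (sub_ne_zero.2 hne)
  have hc : 0 < ‖w₁ - (starRingEnd ℂ) w₂‖ := by
    have := norm_sq_sub_conj w₁ w₂
    have h3 := mul_pos p₁ p₂
    by_contra h
    have h4 : ‖w₁ - (starRingEnd ℂ) w₂‖ = 0 := le_antisymm (not_lt.1 h) (norm_nonneg _)
    rw [h4] at this
    nlinarith [sq_nonneg ‖w₁ - w₂‖]
  set a := ‖w₁ - (starRingEnd ℂ) w₂‖ / ‖w₁ - w₂‖ with ha
  have ha0 : 0 < a := div_pos hc hn
  have h1 : Real.log (a ^ 2) ≤ a ^ 2 - 1 := Real.log_le_sub_one_of_pos (by positivity)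
  rw [Real.log_pow] at h1
  have h2 : a ^ 2 - 1 = 4 * (w₁.im * w₂.im / ‖w₁ - w₂‖ ^ 2) := by
    rw [ha, div_pow, norm_sq_sub_conj]
    field_simp
    ring
  have h3 : 0 ≤ w₁.im * w₂.im / ‖w₁ - w₂‖ ^ 2 := by positivity
  have h4 : (2 * Real.pi)⁻¹ ≤ 1 / 2 := by
    rw [inv_eq_one_div]
    refine one_div_le_one_div_of_le (by norm_num) ?_
    have := Real.pi_gt_three
    linarith
  unfold gk
  push_cast at h1
  have h5 : Real.log a ≤ 2 * (w₁.im * w₂.im / ‖w₁ - w₂‖ ^ 2) := by linarith
  calc (2 * Real.pi)⁻¹ * Real.log a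
      ≤ (2 * Real.pi)⁻¹ * (2 * (w₁.im * w₂.im / ‖w₁ - w₂‖ ^ 2)) :=
        mul_le_mul_of_nonneg_left h5 (by positivity)
    _ ≤ 1 / 2 * (2 * (w₁.im * w₂.im / ‖w₁ - w₂‖ ^ 2)) :=
        mul_le_mul_of_nonneg_right h4 (by positivity)
    _ = _ := by ring

theorem green_eq (x y : ℝ × ℝ) :
    green x y = -(2 * Real.pi)⁻¹ * Real.log ‖toC x - toC y‖ := by
  unfold green
  rw [Complex.norm_eq_sqrt_sq_add_sq]
  simp only [Complex.sub_re, toC_re, Complex.sub_im, toC_im]

variable {D : Set (ℝ × ℝ)} {F G : ℂ → ℂ}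

/-- The convex compact sets which exhaust the half-plane. -/
def QQ (s R : ℝ) : Set ℂ := {w | s ≤ w.im} ∩ Metric.closedBall 0 R

theorem QQ_compact (s R : ℝ) : IsCompact (QQ s R) :=
  (isCompact_closedBall (0 : ℂ) R).inter_left (isClosed_le continuous_const Complex.continuous_im)

theorem QQ_convex (s R : ℝ) : Convex ℝ (QQ s R) := by
  refine Convex.inter ?_ (convex_closedBall _ _)
  exact convex_halfSpace_im_ge s

theorem QQ_sub {s R : ℝ} (hs : 0 < s) : QQ s R ⊆ HP := fun _ hw => lt_of_lt_of_le hs hw.1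

/-- The singularity of the Green function, on compact sets. -/
theorem Unif.gk_sing (h : Unif D F G) {K : Set (ℝ × ℝ)} (hK : IsCompact K) (hKD : K ⊆ D) :
    ∃ A : ℝ, 0 ≤ A ∧ ∀ z ∈ K, ∀ y ∈ K, gk (G (toC z)) (G (toC y)) ≤ A + |green z y| := by
  obtain ⟨s, R, hs, hR, hx⟩ := h.cpt hK hKD
  have hQ : ∀ z ∈ K, G (toC z) ∈ QQ s R := fun z hz =>
    ⟨(hx z hz).1, by rw [mem_closedBall_zero_iff]; exact (hx z hz).2⟩
  have hdc : ContinuousOn (deriv F) (QQ s R) := by
    intro w hw
    exact (h.Fan (QQ_sub hs hw)).deriv.continuousAt.continuousWithinAt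
  obtain ⟨L, hL⟩ := (QQ_compact s R).exists_bound_of_continuousOn hdc
  set L' := max L 1 with hL'
  have hL'0 : 0 < L' := by positivity
  have hLip : ∀ z ∈ K, ∀ y ∈ K, ‖toC z - toC y‖ ≤ L' * ‖G (toC z) - G (toC y)‖ := by
    intro z hz y hy
    have h1 := Convex.norm_image_sub_le_of_norm_deriv_le (f := F) (C := L') (s := QQ s R)
      (fun w hw => (h.Fan (QQ_sub hs hw)).differentiableAt)
      (fun w hw => (hL w hw).trans (le_max_left _ _)) (QQ_convex s R) (hQ y hy) (hQ z hz)
    rwa [h.FG z (hKD hz), h.FG y (hKD hy)] at h1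
  refine ⟨(2 * Real.pi)⁻¹ * (Real.log (2 * R + 1) + Real.log L'), ?_, fun z hz y hy => ?_⟩
  · have h1 : 0 ≤ Real.log (2 * R + 1) := Real.log_nonneg (by linarith)
    have h2 : 0 ≤ Real.log L' := Real.log_nonneg (le_max_right _ _)
    positivity
  · have hpi : 0 < (2 * Real.pi)⁻¹ := by positivity
    rcases eq_or_ne z y with he | he
    · rw [he]
      unfold gk
      rw [sub_self, norm_zero, div_zero, Real.log_zero, mul_zero]
      have h1 : 0 ≤ Real.log (2 * R + 1) := Real.log_nonneg (by linarith)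
      have h2 : 0 ≤ Real.log L' := Real.log_nonneg (le_max_right _ _)
      positivity
    · have hn : 0 < ‖toC z - toC y‖ := by
        refine norm_pos_iff.2 (sub_ne_zero.2 fun h' => he ?_)
        rw [← toR_toC z, h', toR_toC]
      have h1 := hLip z hz y hy
      have hg : 0 < ‖G (toC z) - G (toC y)‖ := by
        by_contra h'
        have : ‖G (toC z) - G (toC y)‖ = 0 := le_antisymm (not_lt.1 h') (norm_nonneg _)
        rw [this, mul_zero] at h1
        linarith
      have hgz : G (toC z) ∈ HP := h.Gm z (hKD hz)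
      have hgy : G (toC y) ∈ HP := h.Gm y (hKD hy)
      have hc : 0 < ‖G (toC z) - (starRingEnd ℂ) (G (toC y))‖ := by
        refine norm_pos_iff.2 (sub_ne_zero.2 fun h' => ?_)
        have h2 := congrArg Complex.im h'
        rw [Complex.conj_im] at h2
        have p₁ : 0 < (G (toC z)).im := hgz
        have p₂ : 0 < (G (toC y)).im := hgy
        linarith
      have hc2 : ‖G (toC z) - (starRingEnd ℂ) (G (toC y))‖ ≤ 2 * R + 1 := by
        refine (norm_sub_le _ _).trans ?_
        rw [Complex.norm_conj]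
        linarith [(hx z hz).2, (hx y hy).2]
      have e1 : Real.log ‖toC z - toC y‖ ≤ Real.log L' + Real.log ‖G (toC z) - G (toC y)‖ := by
        rw [← Real.log_mul hL'0.ne' hg.ne']
        exact Real.log_le_log hn h1
      have e2 := Real.log_le_log hc hc2
      unfold gk
      rw [Real.log_div hc.ne' hg.ne', green_eq]
      have e3 : (2 * Real.pi)⁻¹ * (Real.log ‖G (toC z) - (starRingEnd ℂ) (G (toC y))‖ -
          Real.log ‖G (toC z) - G (toC y)‖) ≤ (2 * Real.pi)⁻¹ * (Real.log (2 * R + 1) +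
          (Real.log L' - Real.log ‖toC z - toC y‖)) :=
        mul_le_mul_of_nonneg_left (by linarith) hpi.le
      have e4 := le_abs_self (-(2 * Real.pi)⁻¹ * Real.log ‖toC z - toC y‖)
      linarith [e3, e4]

/-- A bound for the logarithm. -/
theorem green_bd {f : ℝ × ℝ → ℝ} (hf : Continuous f) (cf : HasCompactSupport f) (ρ : ℝ) :
    ∃ M C : ℝ, 1 ≤ M ∧ 0 ≤ C ∧ ∀ z y : ℝ × ℝ, ‖y‖ ≤ ρ →
      |green z y| * |f z| ≤ C * S10_phi M (z - y) := by
  obtain ⟨Cf, hCf⟩ := cf.exists_bound_of_continuous hf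
  obtain ⟨Rf, hRf⟩ := (Metric.isBounded_iff_subset_closedBall 0).mp cf.isCompact.isBounded
  have hCf0 : 0 ≤ Cf := (norm_nonneg _).trans (hCf 0)
  refine ⟨max 1 (Rf + ρ), (2 * Real.pi)⁻¹ * Cf, le_max_left _ _, by positivity, fun z y hy => ?_⟩
  set M := max 1 (Rf + ρ) with hM
  have hphi0 : 0 ≤ S10_phi M (z - y) := by
    unfold S10_phi
    split_ifs
    · exact abs_nonneg _
    · exact le_refl _
  by_cases hz : f z = 0
  · rw [hz, abs_zero, mul_zero]
    positivity
  · have hz' : ‖z‖ ≤ Rf := by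
      have := hRf (subset_tsupport f hz)
      rwa [Metric.mem_closedBall, dist_zero_right] at this
    have hd : ‖z - y‖ ≤ M := (norm_sub_le _ _).trans ((add_le_add hz' hy).trans (le_max_right _ _))
    have hd1 : |(z - y).1| ≤ M := (norm_fst_le (z - y)).trans hd
    have hd2 : |(z - y).2| ≤ M := (norm_snd_le (z - y)).trans hd
    have e1 : S10_phi M (z - y) =
        |Real.log (Real.sqrt ((z.1 - y.1) ^ 2 + (z.2 - y.2) ^ 2))| := by
      unfold S10_phi
      rw [if_pos ⟨hd1, hd2⟩]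
      rfl
    rw [e1]
    unfold green
    rw [abs_mul, abs_neg, abs_of_pos (show 0 < (2 * Real.pi)⁻¹ by positivity)]
    have h1 : |f z| ≤ Cf := hCf z
    calc (2 * Real.pi)⁻¹ * |Real.log (Real.sqrt ((z.1 - y.1) ^ 2 + (z.2 - y.2) ^ 2))| * |f z|
        ≤ (2 * Real.pi)⁻¹ * |Real.log (Real.sqrt ((z.1 - y.1) ^ 2 + (z.2 - y.2) ^ 2))| * Cf :=
          mul_le_mul_of_nonneg_left h1 (by positivity)
      _ = _ := by ring

theorem green_meas : Measurable fun p : (ℝ × ℝ) × (ℝ × ℝ) => green p.1 p.2 := by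
  unfold green
  fun_prop

theorem green_int1 {f : ℝ × ℝ → ℝ} (hf : Continuous f) (cf : HasCompactSupport f) (y : ℝ × ℝ) :
    Integrable fun z => green z y * f z := by
  obtain ⟨M, C, hM, hC, h⟩ := green_bd hf cf ‖y‖
  have h1 : Integrable fun z : ℝ × ℝ => C * S10_phi M (z - y) :=
    ((S10_phi_integrable hM).comp_sub_right y).const_mul C
  refine h1.mono' ?_ (ae_of_all _ fun z => ?_)
  · exact ((green_meas.comp (measurable_id.prodMk measurable_const)).mul
      hf.measurable).aestronglyMeasurable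
  · rw [Real.norm_eq_abs, abs_mul]
    exact h z y le_rfl

/-- The potential of `g`. -/
noncomputable def pot (G : ℂ → ℂ) (g : ℝ × ℝ → ℝ) (z : ℝ × ℝ) : ℝ :=
  ∫ y, gk (G (toC z)) (G (toC y)) * g y

theorem zero_off {g : ℝ × ℝ → ℝ} (hg : TestOn D g) {z : ℝ × ℝ} (hz : z ∉ D) : g z = 0 := by
  by_contra h
  exact hz (hg.2.2 (subset_tsupport _ h))

/-- The harmonic part of the Green function. -/
noncomputable def rk (G : ℂ → ℂ) (y z : ℝ × ℝ) : ℝ :=
  (2 * Real.pi)⁻¹ * (Real.log ‖G (toC z) - (starRingEnd ℂ) (G (toC y))‖ -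
    Real.log ‖dslope G (toC y) (toC z)‖)

theorem Unif.inj (h : Unif D F G) {z y : ℝ × ℝ} (hz : z ∈ D) (hy : y ∈ D)
    (he : G (toC z) = G (toC y)) : z = y := by
  have h1 := h.FG z hz
  rw [he, h.FG y hy] at h1
  rw [← toR_toC z, ← h1, toR_toC]

theorem Unif.rk_harm (h : Unif D F G) (hD : IsOpen D) {y : ℝ × ℝ} (hy : y ∈ D) :
    Harm D (rk G y) := by
  rw [harm_iff hD]
  intro z hz
  have hO : IsOpen (toR ⁻¹' D) := hD.preimage toR_cont
  have hGd : DifferentiableOn ℂ G (toR ⁻¹' D) := fun w hw => by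
    have := h.Gd (toR w) hw
    rw [toC_toR] at this
    exact this.differentiableWithinAt
  have hzO : toC z ∈ toR ⁻¹' D := by simpa using hz
  have hyO : toC y ∈ toR ⁻¹' D := by simpa using hy
  have hds : DifferentiableOn ℂ (dslope G (toC y)) (toR ⁻¹' D) :=
    (Complex.differentiableOn_dslope (hO.mem_nhds hyO)).2 hGd
  have a1 : AnalyticAt ℂ G (toC z) := hGd.analyticAt (hO.mem_nhds hzO)
  have a2 : AnalyticAt ℂ (dslope G (toC y)) (toC z) := hds.analyticAt (hO.mem_nhds hzO)
  have n1 : G (toC z) - (starRingEnd ℂ) (G (toC y)) ≠ 0 := by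
    refine sub_ne_zero.2 fun h' => ?_
    have h2 := congrArg Complex.im h'
    rw [Complex.conj_im] at h2
    have p₁ : 0 < (G (toC z)).im := h.Gm z hz
    have p₂ : 0 < (G (toC y)).im := h.Gm y hy
    linarith
  have n2 : dslope G (toC y) (toC z) ≠ 0 := by
    rcases eq_or_ne z y with he | he
    · rw [he, dslope_same]
      intro h0
      -- the derivative of `F ∘ G` is one
      have d1 : HasDerivAt G (deriv G (toC y)) (toC y) := (h.Gd y hy).hasDerivAt
      have d2 : HasDerivAt F (deriv F (G (toC y))) (G (toC y)) :=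
        (h.Fan (h.Gm y hy)).differentiableAt.hasDerivAt
      have d3 := d2.comp (toC y) d1
      have d4 : (F ∘ G) =ᶠ[𝓝 (toC y)] id := by
        filter_upwards [hO.mem_nhds hyO] with w hw
        have := h.FG (toR w) hw
        rw [toC_toR] at this
        exact this
      have d5 := d3.unique ((hasDerivAt_id (toC y)).congr_of_eventuallyEq d4)
      rw [h0, mul_zero] at d5
      exact zero_ne_one d5
    · have hne : toC z ≠ toC y := fun h' => he (by rw [← toR_toC z, h', toR_toC])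
      rw [dslope_of_ne _ hne, slope_def_field]
      refine div_ne_zero (sub_ne_zero.2 fun h' => he (h.inj hz hy h')) (sub_ne_zero.2 hne)
  have h1 : HarmonicAt (fun w => Real.log ‖G w - (starRingEnd ℂ) (G (toC y))‖) (toC z) :=
    (a1.sub analyticAt_const).harmonicAt_log_norm n1
  have h2 : HarmonicAt (fun w => Real.log ‖dslope G (toC y) w‖) (toC z) :=
    a2.harmonicAt_log_norm n2
  have h3 := (h1.sub h2).const_smul (c := (2 * Real.pi)⁻¹)
  exact h3

theorem Unif.gk_eq (h : Unif D F G) {z y : ℝ × ℝ} (hz : z ∈ D) (hy : y ∈ D) (he : z ≠ y) :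
    gk (G (toC z)) (G (toC y)) = green z y + rk G y z := by
  have hne : toC z ≠ toC y := fun h' => he (by rw [← toR_toC z, h', toR_toC])
  have hn : 0 < ‖toC z - toC y‖ := norm_pos_iff.2 (sub_ne_zero.2 hne)
  have hg : 0 < ‖G (toC z) - G (toC y)‖ :=
    norm_pos_iff.2 (sub_ne_zero.2 fun h' => he (h.inj hz hy h'))
  have hc : 0 < ‖G (toC z) - (starRingEnd ℂ) (G (toC y))‖ := by
    refine norm_pos_iff.2 (sub_ne_zero.2 fun h' => ?_)
    have h2 := congrArg Complex.im h'
    rw [Complex.conj_im] at h2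
    have p₁ : 0 < (G (toC z)).im := h.Gm z hz
    have p₂ : 0 < (G (toC y)).im := h.Gm y hy
    linarith
  unfold gk rk
  rw [green_eq, dslope_of_ne _ hne, slope_def_field, norm_div, Real.log_div hc.ne' hg.ne',
    Real.log_div hg.ne' hn.ne']
  ring

/-- The fundamental solution. -/
theorem Unif.gk_lap (h : Unif D F G) (hD : IsOpen D) (hb : Bornology.IsBounded D)
    {ψ : ℝ × ℝ → ℝ} (hψ : TestOn D ψ) {y : ℝ × ℝ} (hy : y ∈ D) :
    ∫ z, gk (G (toC z)) (G (toC y)) * lap ψ z = - ψ y := by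
  have hT : TestOn univ ψ := hψ.mono (subset_univ _)
  have h1 := Vale.Agent.P145.FA.green_int hT y
  have hR := h.rk_harm hD hy
  have h2 := hR.weak hD hb hψ
  have i2 := TestOn.locInt hD hb hR.smooth hψ.lap
  have i1 : Integrable fun z => green z y * lap ψ z := green_int1 hψ.lap.cont hψ.lap.cs y
  have h3 : ∫ z, gk (G (toC z)) (G (toC y)) * lap ψ z =
      ∫ z, (green z y * lap ψ z + rk G y z * lap ψ z) := by
    refine integral_congr_ae ?_
    have hne : ∀ᵐ z : ℝ × ℝ, z ≠ y := by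
      rw [ae_iff]; simp
    filter_upwards [hne] with z hz
    by_cases hzD : z ∈ D
    · rw [h.gk_eq hzD hy hz]
      ring
    · rw [zero_off hψ.lap hzD]
      ring
  rw [h3, integral_add i1 i2, h2, add_zero]
  have h4 : ∫ x, green x y * -lap ψ x = - ∫ x, green x y * lap ψ x := by
    rw [← integral_neg]
    congr 1
    funext x
    ring
  rw [h4] at h1
  linarith

/-- The potential decays at the boundary. -/
theorem Unif.pot_dec (h : Unif D F G) (hD : IsOpen D) (hb : Bornology.IsBounded D)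
    {g : ℝ × ℝ → ℝ} (hg : TestOn D g) : ∀ ε : ℝ, 0 < ε → ∃ r : ℝ, 0 < r ∧ ∀ z ∈ D, dd D z < r →
      |pot G g z| ≤ ε := by
  intro ε hε
  obtain ⟨s1, R1, hs1, hR1, hx⟩ := h.cpt (K := tsupport g) hg.cs hg.2.2
  set I := (∫ y, |g y|) + 1 with hI
  have hI0 : 0 < I := by
    have : 0 ≤ ∫ y, |g y| := integral_nonneg fun y => abs_nonneg _
    linarith
  set e := ε / I with he
  have he0 : 0 < e := div_pos hε hI0
  set s := min (s1 / 2) (e * (s1 / 2) ^ 2 / R1) with hs
  have hs0 : 0 < s := lt_min (by linarith) (by positivity)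
  set R := max (2 * R1) (4 * R1 / e) with hR
  have hR0 : 0 < R := lt_of_lt_of_le (by linarith) (le_max_left _ _)
  -- the complement of a compact set
  have hFc : ContinuousOn (fun w => toR (F w)) (QQ s R) :=
    toR_cont.comp_continuousOn (h.Fd.continuousOn.mono (QQ_sub hs0))
  have hK : IsCompact ((fun w => toR (F w)) '' QQ s R) := (QQ_compact s R).image_of_continuousOn hFc
  have hKD : (fun w => toR (F w)) '' QQ s R ⊆ D := by
    rintro _ ⟨w, hw, rfl⟩
    exact h.Fm w (QQ_sub hs0 hw)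
  obtain ⟨r, hr, hrK⟩ := exists_low_compact hD hb hK hKD
  refine ⟨r, hr, fun z hz hzr => ?_⟩
  have hzH : G (toC z) ∈ HP := h.Gm z hz
  have hzQ : G (toC z) ∉ QQ s R := fun hQ => by
    have h1 := hrK _ ⟨_, hQ, rfl⟩
    simp only at h1
    rw [h.FG z hz, toR_toC] at h1
    linarith
  have hkey : ∀ y ∈ tsupport g, gk (G (toC z)) (G (toC y)) ≤ e := by
    intro y hy
    have hyH : G (toC y) ∈ HP := h.Gm y (hg.2.2 hy)
    obtain ⟨hy1, hy2⟩ := hx y hy
    have hzi : 0 < (G (toC z)).im := hzH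
    have hyi : 0 < (G (toC y)).im := hyH
    have hyiR : (G (toC y)).im ≤ R1 := (le_abs_self _).trans ((Complex.abs_im_le_norm _).trans hy2)
    by_cases hc : (G (toC z)).im < s
    · have hd : s1 / 2 ≤ ‖G (toC z) - G (toC y)‖ := by
        have h1 := Complex.abs_im_le_norm (G (toC z) - G (toC y))
        rw [Complex.sub_im] at h1
        have h2 := neg_abs_le ((G (toC z)).im - (G (toC y)).im)
        have h3 : s ≤ s1 / 2 := min_le_left _ _
        linarith
      have hne : G (toC z) ≠ G (toC y) := fun h' => by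
        rw [h', sub_self, norm_zero] at hd
        linarith
      refine (gk_le hzH hyH hne).trans ?_
      have h4 : (s1 / 2) ^ 2 ≤ ‖G (toC z) - G (toC y)‖ ^ 2 :=
        pow_le_pow_left₀ (by linarith) hd 2
      rw [div_le_iff₀ (pow_pos (norm_pos_iff.2 (sub_ne_zero.2 hne)) 2)]
      have h5 : s ≤ e * (s1 / 2) ^ 2 / R1 := min_le_right _ _
      rw [le_div_iff₀ hR1] at h5
      calc (G (toC z)).im * (G (toC y)).im ≤ s * R1 :=
            mul_le_mul hc.le hyiR hyi.le hs0.le
        _ ≤ e * (s1 / 2) ^ 2 := h5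
        _ ≤ e * ‖G (toC z) - G (toC y)‖ ^ 2 := mul_le_mul_of_nonneg_left h4 he0.le
    · have hnR : R < ‖G (toC z)‖ := by
        by_contra h'
        exact hzQ ⟨not_lt.1 hc, by rw [mem_closedBall_zero_iff]; exact not_lt.1 h'⟩
      have hz0 : 0 < ‖G (toC z)‖ := hR0.trans hnR
      have h2R : 2 * R1 ≤ R := le_max_left _ _
      have hd : ‖G (toC z)‖ / 2 ≤ ‖G (toC z) - G (toC y)‖ := by
        have h1 := norm_sub_norm_le (G (toC z)) (G (toC y))
        linarith
      have hne : G (toC z) ≠ G (toC y) := fun h' => by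
        rw [h', sub_self, norm_zero] at hd
        have : ‖G (toC y)‖ ≤ 0 := by linarith
        rw [← h'] at this
        linarith
      refine (gk_le hzH hyH hne).trans ?_
      have h4 : (‖G (toC z)‖ / 2) ^ 2 ≤ ‖G (toC z) - G (toC y)‖ ^ 2 :=
        pow_le_pow_left₀ (by positivity) hd 2
      rw [div_le_iff₀ (pow_pos (norm_pos_iff.2 (sub_ne_zero.2 hne)) 2)]
      have h5 : 4 * R1 / e ≤ R := le_max_right _ _
      rw [div_le_iff₀ he0] at h5
      have h6 : (G (toC z)).im ≤ ‖G (toC z)‖ := (le_abs_self _).trans (Complex.abs_im_le_norm _)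
      calc (G (toC z)).im * (G (toC y)).im ≤ ‖G (toC z)‖ * R1 :=
            mul_le_mul h6 hyiR hyi.le (norm_nonneg _)
        _ ≤ e * (‖G (toC z)‖ / 2) ^ 2 := by nlinarith [mul_le_mul_of_nonneg_right hnR.le he0.le]
        _ ≤ e * ‖G (toC z) - G (toC y)‖ ^ 2 := mul_le_mul_of_nonneg_left h4 he0.le
  unfold pot
  refine (abs_integral_le_integral_abs).trans ?_
  calc ∫ y, |gk (G (toC z)) (G (toC y)) * g y| ≤ ∫ y, e * |g y| := by
        refine integral_mono_of_nonneg (ae_of_all _ fun y => abs_nonneg _)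
          (hg.int.abs.const_mul e) (ae_of_all _ fun y => ?_)
        simp only
        rw [abs_mul]
        by_cases hy : g y = 0
        · rw [hy, abs_zero, mul_zero, mul_zero]
        · have hy' : y ∈ tsupport g := subset_tsupport g hy
          refine mul_le_mul_of_nonneg_right ?_ (abs_nonneg _)
          rw [abs_of_nonneg (gk_nonneg hzH (h.Gm y (hg.2.2 hy')))]
          exact hkey y hy'
    _ = e * ∫ y, |g y| := integral_const_mul _ _
    _ ≤ e * I := mul_le_mul_of_nonneg_left (by linarith) he0.le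
    _ = ε := by rw [he]; field_simp

/-- The potential is bounded. -/
theorem Unif.pot_bdd (h : Unif D F G) (hD : IsOpen D) (hb : Bornology.IsBounded D)
    {g : ℝ × ℝ → ℝ} (hg : TestOn D g) : ∃ K : ℝ, ∀ z ∈ D, |pot G g z| ≤ K := by
  obtain ⟨r, hr, h1⟩ := h.pot_dec hD hb hg 1 one_pos
  obtain ⟨hKc, hKD⟩ := dd_compact hb hD hr
  have hK' : IsCompact ({x | r ≤ dd D x} ∪ tsupport g) := hKc.union hg.cs
  obtain ⟨A, hA, hsing⟩ := h.gk_sing hK' (union_subset hKD hg.2.2)
  obtain ⟨ρ, hρ⟩ := hb.exists_norm_le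
  obtain ⟨M, C, hM, hC, hbd⟩ := green_bd hg.cont hg.cs ρ
  refine ⟨max 1 (A * (∫ y, |g y|) + C * ∫ y, S10_phi M y), fun z hz => ?_⟩
  by_cases hzr : dd D z < r
  · exact (h1 z hz hzr).trans (le_max_left _ _)
  · refine le_trans ?_ (le_max_right _ _)
    have hzK : z ∈ {x | r ≤ dd D x} ∪ tsupport g := Or.inl (not_lt.1 hzr)
    unfold pot
    refine (abs_integral_le_integral_abs).trans ?_
    have i1 : Integrable fun y => A * |g y| := hg.int.abs.const_mul A
    have i2 : Integrable fun y : ℝ × ℝ => C * S10_phi M (y - z) :=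
      ((S10_phi_integrable hM).comp_sub_right z).const_mul C
    calc ∫ y, |gk (G (toC z)) (G (toC y)) * g y|
        ≤ ∫ y, (A * |g y| + C * S10_phi M (y - z)) := by
          refine integral_mono_of_nonneg (ae_of_all _ fun y => abs_nonneg _)
            (i1.add i2) (ae_of_all _ fun y => ?_)
          simp only
          rw [abs_mul]
          by_cases hy : g y = 0
          · have h3 := hbd y z (hρ z hz)
            rw [hy, abs_zero, mul_zero] at h3
            rw [hy, abs_zero, mul_zero, mul_zero]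
            linarith
          · have hy' : y ∈ tsupport g := subset_tsupport g hy
            rw [abs_of_nonneg (gk_nonneg (h.Gm z hz) (h.Gm y (hg.2.2 hy')))]
            have h3 := hbd y z (hρ z hz)
            have h4 := hsing z hzK y (Or.inr hy')
            have h5 : green z y = green y z := by
              rw [green_eq, green_eq, norm_sub_rev]
            rw [h5] at h4
            calc gk (G (toC z)) (G (toC y)) * |g y| ≤ (A + |green y z|) * |g y| :=
                  mul_le_mul_of_nonneg_right h4 (abs_nonneg _)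
              _ = A * |g y| + |green y z| * |g y| := by ring
              _ ≤ _ := by linarith
      _ = A * (∫ y, |g y|) + C * ∫ y, S10_phi M y := by
          rw [integral_add i1 i2, integral_const_mul, integral_const_mul,
            integral_sub_right_eq_self (fun y => S10_phi M y) z]

/-- The map `G`, with the dummy value `i` off `D`. -/
noncomputable def Gt (D : Set (ℝ × ℝ)) (G : ℂ → ℂ) (z : ℝ × ℝ) : ℂ := by
  classical exact D.piecewise (fun z => G (toC z)) (fun _ => Complex.I) z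

theorem Gt_mem {z : ℝ × ℝ} (hz : z ∈ D) : Gt D G z = G (toC z) := by
  classical
  unfold Gt
  convert piecewise_eq_of_mem D (fun z => G (toC z)) (fun _ => Complex.I) hz

theorem Unif.Gt_meas (h : Unif D F G) (hD : IsOpen D) : Measurable (Gt D G) := by
  classical
  have hc : ContinuousOn (fun z => G (toC z)) D := fun z hz => (h.Gc hz).continuousWithinAt
  have h1 := hc.measurable_piecewise (continuousOn_const (c := Complex.I) (s := Dᶜ))
    hD.measurableSet
  unfold Gt
  convert h1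

theorem gk_meas : Measurable fun p : ℂ × ℂ => gk p.1 p.2 := by
  unfold gk
  have h1 : Measurable fun p : ℂ × ℂ => ‖p.1 - (starRingEnd ℂ) p.2‖ := by
    have : Continuous fun p : ℂ × ℂ => ‖p.1 - (starRingEnd ℂ) p.2‖ :=
      (continuous_fst.sub (Complex.continuous_conj.comp continuous_snd)).norm
    exact this.measurable
  have h2 : Measurable fun p : ℂ × ℂ => ‖p.1 - p.2‖ := (continuous_fst.sub continuous_snd).norm.measurable
  exact ((h1.div h2).log).const_mul _

theorem Unif.kk_meas (h : Unif D F G) (hD : IsOpen D) :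
    Measurable fun p : (ℝ × ℝ) × (ℝ × ℝ) => gk (Gt D G p.1) (Gt D G p.2) := by
  have h0 := h.Gt_meas hD
  generalize Gt D G = T at h0
  have h1 : Measurable fun p : (ℝ × ℝ) × (ℝ × ℝ) => (T p.1, T p.2) :=
    (h0.comp measurable_fst).prodMk (h0.comp measurable_snd)
  exact gk_meas.comp h1

theorem pot_eq_t {g : ℝ × ℝ → ℝ} (hg : TestOn D g) {z : ℝ × ℝ} (hz : z ∈ D) :
    pot G g z = ∫ y, gk (Gt D G z) (Gt D G y) * g y := by
  unfold pot
  congr 1
  funext y
  rw [Gt_mem hz]
  by_cases hy : y ∈ D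
  · rw [Gt_mem hy]
  · rw [zero_off hg hy, mul_zero, mul_zero]

theorem Unif.pot_meas (h : Unif D F G) (hD : IsOpen D) {g : ℝ × ℝ → ℝ} (hg : TestOn D g) :
    AEStronglyMeasurable (pot G g) (volume.restrict D) := by
  have h1 : StronglyMeasurable fun z => ∫ y, gk (Gt D G z) (Gt D G y) * g y := by
    refine StronglyMeasurable.integral_prod_right' (f := fun p : (ℝ × ℝ) × (ℝ × ℝ) =>
      gk (Gt D G p.1) (Gt D G p.2) * g p.2) ?_
    exact ((h.kk_meas hD).mul (hg.cont.measurable.comp measurable_snd)).stronglyMeasurable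
  refine h1.aestronglyMeasurable.congr ?_
  refine (ae_restrict_iff' hD.measurableSet).2 (ae_of_all _ fun z hz => ?_)
  exact (pot_eq_t hg hz).symm

/-- The potential solves `Δ N = - g` in the weak sense. -/
theorem Unif.pot_weak (h : Unif D F G) (hD : IsOpen D) (hb : Bornology.IsBounded D)
    {g ψ : ℝ × ℝ → ℝ} (hg : TestOn D g) (hψ : TestOn D ψ) :
    ∫ z, pot G g z * lap ψ z = - ∫ z, ψ z * g z := by
  set H : (ℝ × ℝ) × (ℝ × ℝ) → ℝ := fun p =>
    gk (Gt D G p.1) (Gt D G p.2) * g p.2 * lap ψ p.1 with hH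
  have hlap := hψ.lap
  have hK' : IsCompact (tsupport (lap ψ) ∪ tsupport g) := hlap.cs.isCompact.union hg.cs
  obtain ⟨A, hA, hsing⟩ := h.gk_sing hK' (union_subset hlap.2.2 hg.2.2)
  have hgi := Vale.Agent.P152.GFF.S.green_integrable (f := lap ψ) (g := g) hlap.cont hg.cont
    hlap.cs hg.cs
  have hpi : Integrable (fun p : (ℝ × ℝ) × (ℝ × ℝ) => A * (|lap ψ p.1| * |g p.2|)) :=
    ((hlap.int.abs).mul_prod (hg.int.abs)).const_mul A
  have hHi : Integrable H (volume.prod volume) := by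
    refine (hpi.add hgi.abs).mono' ?_ (ae_of_all _ fun p => ?_)
    · exact (((h.kk_meas hD).mul (hg.cont.measurable.comp measurable_snd)).mul
        (hlap.cont.measurable.comp measurable_fst)).aestronglyMeasurable
    · simp only [Pi.add_apply]
      rw [Real.norm_eq_abs, hH]
      simp only
      by_cases hz : lap ψ p.1 = 0
      · rw [hz, mul_zero, abs_zero]
        positivity
      by_cases hy : g p.2 = 0
      · rw [hy, mul_zero, zero_mul, abs_zero]
        positivity
      have hz' : p.1 ∈ tsupport (lap ψ) := subset_tsupport _ hz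
      have hy' : p.2 ∈ tsupport g := subset_tsupport _ hy
      rw [Gt_mem (hlap.2.2 hz'), Gt_mem (hg.2.2 hy'), abs_mul, abs_mul,
        abs_of_nonneg (gk_nonneg (h.Gm _ (hlap.2.2 hz')) (h.Gm _ (hg.2.2 hy')))]
      have h4 := hsing _ (Or.inl hz') _ (Or.inr hy')
      rw [abs_mul, abs_mul]
      calc gk (G (toC p.1)) (G (toC p.2)) * |g p.2| * |lap ψ p.1|
          ≤ (A + |green p.1 p.2|) * |g p.2| * |lap ψ p.1| := by gcongr
        _ = A * (|lap ψ p.1| * |g p.2|) + |green p.1 p.2| * |lap ψ p.1| * |g p.2| := by ring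
  have e1 : ∫ z, pot G g z * lap ψ z = ∫ z, ∫ y, H (z, y) := by
    congr 1
    funext z
    simp only [hH]
    rw [integral_mul_const]
    by_cases hz : z ∈ D
    · rw [pot_eq_t hg hz]
    · rw [zero_off hlap hz, mul_zero, mul_zero]
  have e2 : ∫ z, ∫ y, H (z, y) = ∫ y, ∫ z, H (z, y) :=
    integral_integral_swap (f := fun z y => H (z, y)) hHi
  rw [e1, e2, ← integral_neg]
  congr 1
  funext y
  simp only [hH]
  by_cases hy : y ∈ D
  · have e3 := h.gk_lap hD hb hψ hy
    have e4 : ∫ z, gk (Gt D G z) (Gt D G y) * g y * lap ψ z =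
        g y * ∫ z, gk (G (toC z)) (G (toC y)) * lap ψ z := by
      rw [← integral_const_mul]
      congr 1
      funext z
      by_cases hz : z ∈ D
      · rw [Gt_mem hz, Gt_mem hy]; ring
      · rw [zero_off hlap hz]; ring
    rw [e4, e3]
    ring
  · rw [zero_off hg hy]
    simp

/-- The variance of the limit field. -/
noncomputable def Gr (G : ℂ → ℂ) (g : ℝ × ℝ → ℝ) : ℝ :=
  ∫ z, ∫ y, gk (G (toC z)) (G (toC y)) * g y * g z

/-- The harmonic function `1 - (2/π) arg (G - W)`. -/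
noncomputable def uarg (G : ℂ → ℂ) (W : ℝ) (z : ℝ × ℝ) : ℝ :=
  1 - 2 / Real.pi * (G (toC z) - W).arg

/-- The boundary values. -/
noncomputable def sg (W y : ℝ) : ℝ := if W < y then 1 else -1

theorem uarg_abs {w : ℂ} (hw : w ∈ HP) : |1 - 2 / Real.pi * w.arg| ≤ 1 := by
  have h0 : 0 ≤ w.arg := Complex.arg_nonneg_iff.2 (le_of_lt (show 0 < w.im from hw))
  have h1 : w.arg ≤ Real.pi := Complex.arg_le_pi w
  have hpi := Real.pi_pos
  have h2 : 2 / Real.pi * w.arg ≤ 2 := by
    calc 2 / Real.pi * w.arg ≤ 2 / Real.pi * Real.pi := mul_le_mul_of_nonneg_left h1 (by positivity)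
      _ = 2 := by field_simp
  have h3 : 0 ≤ 2 / Real.pi * w.arg := by positivity
  rw [abs_le]
  constructor <;> linarith

theorem HP_sub {w : ℂ} (hw : w ∈ HP) (W : ℝ) : w - W ∈ HP := by
  change 0 < (w - W).im
  have : 0 < w.im := hw
  simpa using this

theorem Unif.uarg_dirP (h : Unif D F G) (hD : IsOpen D) (W : ℝ) :
    DirP D F (sg W) (uarg G W) := by
  have hO : IsOpen (toR ⁻¹' D) := hD.preimage toR_cont
  have hGd : DifferentiableOn ℂ G (toR ⁻¹' D) := fun w hw => by
    have := h.Gd (toR w) hw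
    rw [toC_toR] at this
    exact this.differentiableWithinAt
  refine ⟨?_, ⟨1, fun z hz => uarg_abs (HP_sub (h.Gm z hz) W)⟩, ?_⟩
  · rw [harm_iff hD]
    intro z hz
    have hzO : toC z ∈ toR ⁻¹' D := by simpa using hz
    have a1 : AnalyticAt ℂ G (toC z) := hGd.analyticAt (hO.mem_nhds hzO)
    have hsl : G (toC z) - W ∈ Complex.slitPlane := Or.inr (ne_of_gt (HP_sub (h.Gm z hz) W))
    have a2 : AnalyticAt ℂ (fun w => Complex.log (G w - W)) (toC z) :=
      (a1.sub analyticAt_const).clog hsl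
    have h1 : HarmonicAt (fun w => (Complex.log (G w - W)).im) (toC z) := a2.harmonicAt_im
    have h2 : HarmonicAt (fun _ : ℂ => (1 : ℝ)) (toC z) := harmonicAt_const _
    have h3 := h2.sub (h1.const_smul (c := 2 / Real.pi))
    refine (harmonicAt_congr_nhds ?_).1 h3
    filter_upwards with w
    simp only [Pi.sub_apply, Pi.smul_apply, smul_eq_mul, Complex.log_im]
    rfl
  · have hae : ∀ᵐ y : ℝ, y ≠ W := by
      rw [ae_iff]; simp
    filter_upwards [hae] with y hy
    have e1 : (fun η : ℝ => 1 - 2 / Real.pi * ((⟨y, η⟩ : ℂ) - W).arg) =ᶠ[𝓝[>] 0]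
        fun η : ℝ => uarg G W (toR (F ⟨y, η⟩)) := by
      filter_upwards [self_mem_nhdsWithin] with η hη
      unfold uarg
      rw [toC_toR, h.GF _ (show (⟨y, η⟩ : ℂ) ∈ HP from hη)]
    refine Tendsto.congr' e1 ?_
    have hcont : Tendsto (fun η : ℝ => (⟨y, η⟩ : ℂ) - W) (𝓝[>] 0) (𝓝 ((y - W : ℝ) : ℂ)) := by
      have h2 : Continuous fun η : ℝ => (⟨y, η⟩ : ℂ) - W := by
        have : (fun η : ℝ => (⟨y, η⟩ : ℂ) - W) = fun η : ℝ => (y : ℂ) + η * Complex.I - W := by
          funext η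
          congr 1
          apply Complex.ext <;> simp
        rw [this]
        fun_prop
      have h3 := h2.tendsto 0
      have e : (⟨y, 0⟩ : ℂ) - W = ((y - W : ℝ) : ℂ) := by
        apply Complex.ext <;> simp
      rw [e] at h3
      exact h3.mono_left nhdsWithin_le_nhds
    rcases lt_or_gt_of_ne hy with hlt | hgt
    · have h4 : Tendsto (fun η : ℝ => ((⟨y, η⟩ : ℂ) - W).arg) (𝓝[>] 0) (𝓝 Real.pi) := by
        have h5 : Tendsto Complex.arg (𝓝[{z | 0 ≤ z.im}] ((y - W : ℝ) : ℂ)) (𝓝 Real.pi) := by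
          refine Complex.tendsto_arg_nhdsWithin_im_nonneg_of_re_neg_of_im_zero ?_ ?_
          · simpa using hlt
          · simp
        refine h5.comp (tendsto_nhdsWithin_iff.2 ⟨hcont, ?_⟩)
        filter_upwards [self_mem_nhdsWithin] with η hη
        have : 0 < η := hη
        simp only [Complex.sub_im, Complex.ofReal_im, sub_zero]
        exact this.le
      have h6 := (h4.const_mul (2 / Real.pi)).const_sub 1
      have e : (1 : ℝ) - 2 / Real.pi * Real.pi = sg W y := by
        unfold sg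
        rw [if_neg (not_lt.2 hlt.le)]
        have := Real.pi_pos.ne'
        field_simp
        norm_num
      rw [e] at h6
      exact h6
    · have h4 : Tendsto (fun η : ℝ => ((⟨y, η⟩ : ℂ) - W).arg) (𝓝[>] 0) (𝓝 0) := by
        have h5 : ContinuousAt Complex.arg ((y - W : ℝ) : ℂ) :=
          Complex.continuousAt_arg (Or.inl (by simpa using hgt))
        have h6 := h5.tendsto.comp hcont
        rw [Complex.arg_ofReal_of_nonneg (by linarith)] at h6
        exact h6
      have h6 := (h4.const_mul (2 / Real.pi)).const_sub 1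
      have e : (1 : ℝ) - 2 / Real.pi * 0 = sg W y := by
        unfold sg
        rw [if_pos hgt]
        ring
      rw [e] at h6
      exact h6

end Vale.Agent.P153.R2.KAPV
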