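import Vale.Agent.P153.R2.KAPV.Second
import Vale.Agent.P153.R2.KAPV.GrCmp
import Vale.Agent.P153.R2.KAPV.InvLim

/-!
P153, block KAPV: the hypotheses of the second-moment core along a filter, and the limit domain.
-/

set_option autoImplicit false
set_option linter.unusedVariables false

namespace Vale.Agent.P153.R2.KAPV

open Filter Topology Set Metric MeasureTheory
open Vale.Agent.P145.PT Vale.Agent.P153 Vale.Agent.P153.F.Top Vale.Agent.P153.R2.FLDI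
open Vale.Agent.P153.R2.OBSV (cay icay cay_im cay_inj icay_cay cay_icay icay_mem icay_den
  cay_image cay_diff im_pos_iff_arg one_sub_ne Dsc Bas dm dm_open dm_bdd inv_mem f_inv inv_f
  inv_diff isOpen_image lim_diff lim_inj lim_dsc lim_pt ker_up ker_compact tc tp tc_cont Wall
  wall_move noWall_pi noWall_zero rho0 rho0_pos)

variable {ι : Type*}

/-- The support of `f` is in the image of `F`, with margin `r`. -/
def Ins (F : ℂ → ℂ) (f : ℝ × ℝ → ℝ) (r : ℝ) : Prop :=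
  ∀ z ∈ tsupport f, ball (toC z) r ⊆ F '' HP

/-- `x` is at distance of order `s` from the boundary of the image of `F`. -/
def Whit (F : ℂ → ℂ) (x : ℝ × ℝ) (s : ℝ) : Prop :=
  ball (toC x) (3 / 2 * s) ⊆ F '' HP ∧ ¬ ball (toC x) (4 * s) ⊆ F '' HP

/-- The hypotheses on the lattice laws, without boundary values, along the filter `l`. -/
structure Lat2 (κ : ℝ) (F : ι → ℂ → ℂ) (δ : ι → ℝ) (B : ι → Finset (ℤ × ℤ))
    (μ : ι → Measure Om) (l : Filter ι) : Prop where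
  κpos : 0 < κ
  mom : ∀ᶠ i in l, Mom (μ i)
  mb : ∀ f, TestOn univ f → ∀ (k : ℕ) (r : ℝ), 0 < r → ∃ C : ℝ, ∀ᶠ i in l, Ins (F i) f r →
    ∫ ω, hB (B i) (δ i) f ω ^ (2 * k) ∂(μ i) ≤ C
  l2 : ∃ C : ℝ, 0 ≤ C ∧ ∀ f, TestOn univ f → ∀ r ε : ℝ, 0 < r → 0 < ε → ∀ᶠ i in l,
    Ins (F i) f r → ∫ ω, hB (B i) (δ i) f ω ^ 2 ∂(μ i) ≤ C * (∫ z, f z ^ 2) + ε
  vb : ∃ K : ℝ, 0 ≤ K ∧ ∀ (x : ℝ × ℝ) (s : ℝ), 0 < s → ∀ᶠ i in l, Whit (F i) x s →
    ∫ ω, hB (B i) (δ i) (bump s x) ω ^ 2 ∂(μ i) ≤ K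
  sd0 : ∀ ψ, TestOn univ ψ → ∀ r ε : ℝ, 0 < r → 0 < ε → ∀ᶠ i in l, Ins (F i) ψ r →
    |∫ ω, hB (B i) (δ i) (lap ψ) ω ∂(μ i)| ≤ ε
  sd : ∀ ψ f, TestOn univ ψ → TestOn univ f → ∀ (k : ℕ) (r ε : ℝ), 0 < r → 0 < ε →
    ∀ᶠ i in l, Ins (F i) ψ r → Ins (F i) f r → |sdE κ (B i) (δ i) (μ i) ψ f k| ≤ ε

/-- Landing with powers: at the points which are close to the boundary, relative to the distance to
the walls of the type `θ` and to the support of `f`. -/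
def Land2 (F : ι → ℂ → ℂ) (δ : ι → ℝ) (B : ι → Finset (ℤ × ℤ)) (μ : ι → Measure Om)
    (l : Filter ι) (θ σ : ℝ) : Prop :=
  ∀ f, TestOn univ f → ∀ (k : ℕ) (r η : ℝ), 0 < r → 0 < η → ∃ c : ℝ, 0 < c ∧
    ∀ R : ℝ, 0 < R → ∀ (x : ℝ × ℝ) (s : ℝ), 0 < s → 4 * s ≤ c * R →
      (∀ z ∈ tsupport f, R ≤ dist z x) → ∀ᶠ i in l, Ins (F i) f r → Whit (F i) x s →
        ¬ Wall (F i) θ (toC x) R →
          |∫ ω, (hB (B i) (δ i) (bump s x) ω - σ) * hB (B i) (δ i) f ω ^ k ∂(μ i)| ≤ η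

variable {κ : ℝ} {F : ι → ℂ → ℂ} {δ : ι → ℝ} {B : ι → Finset (ℤ × ℤ)} {μ : ι → Measure Om}
  {l l' : Filter ι}

theorem Lat2.mono (h : Lat2 κ F δ B μ l) (hl : l' ≤ l) : Lat2 κ F δ B μ l' where
  κpos := h.κpos
  mom := h.mom.filter_mono hl
  mb f hf k r hr := by
    obtain ⟨C, hC⟩ := h.mb f hf k r hr
    exact ⟨C, hC.filter_mono hl⟩
  l2 := by
    obtain ⟨C, hC0, hC⟩ := h.l2
    exact ⟨C, hC0, fun f hf r ε hr hε => (hC f hf r ε hr hε).filter_mono hl⟩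
  vb := by
    obtain ⟨K, hK0, hK⟩ := h.vb
    exact ⟨K, hK0, fun x s hs => (hK x s hs).filter_mono hl⟩
  sd0 ψ hψ r ε hr hε := (h.sd0 ψ hψ r ε hr hε).filter_mono hl
  sd ψ f hψ hf k r ε hr hε := (h.sd ψ f hψ hf k r ε hr hε).filter_mono hl

theorem Land2.mono {θ σ : ℝ} (h : Land2 F δ B μ l θ σ) (hl : l' ≤ l) :
    Land2 F δ B μ l' θ σ := fun f hf k r η hr hη => by
  obtain ⟨c, hc, h1⟩ := h f hf k r η hr hη
  exact ⟨c, hc, fun R hR x s hs hsc hd => (h1 R hR x s hs hsc hd).filter_mono hl⟩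

/-- Replacement of the exceptional indices. -/
theorem Lat2.subst (h : Lat2 κ F δ B μ l) {σ : ι → ι} (hσ : ∀ᶠ i in l, σ i = i) :
    Lat2 κ (fun i => F (σ i)) (fun i => δ (σ i)) (fun i => B (σ i)) (fun i => μ (σ i)) l where
  κpos := h.κpos
  mom := by filter_upwards [hσ, h.mom] with i h1 h2; rw [h1]; exact h2
  mb f hf k r hr := by
    obtain ⟨C, hC⟩ := h.mb f hf k r hr
    refine ⟨C, ?_⟩
    filter_upwards [hσ, hC] with i h1 h2; rw [h1]; exact h2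
  l2 := by
    obtain ⟨C, hC0, hC⟩ := h.l2
    refine ⟨C, hC0, fun f hf r ε hr hε => ?_⟩
    filter_upwards [hσ, hC f hf r ε hr hε] with i h1 h2; rw [h1]; exact h2
  vb := by
    obtain ⟨K, hK0, hK⟩ := h.vb
    refine ⟨K, hK0, fun x s hs => ?_⟩
    filter_upwards [hσ, hK x s hs] with i h1 h2; rw [h1]; exact h2
  sd0 ψ hψ r ε hr hε := by
    filter_upwards [hσ, h.sd0 ψ hψ r ε hr hε] with i h1 h2; rw [h1]; exact h2
  sd ψ f hψ hf k r ε hr hε := by
    filter_upwards [hσ, h.sd ψ f hψ hf k r ε hr hε] with i h1 h2; rw [h1]; exact h2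

theorem Land2.subst {θ s' : ℝ} (h : Land2 F δ B μ l θ s') {σ : ι → ι}
    (hσ : ∀ᶠ i in l, σ i = i) :
    Land2 (fun i => F (σ i)) (fun i => δ (σ i)) (fun i => B (σ i)) (fun i => μ (σ i)) l θ s' :=
  fun f hf k r η hr hη => by
    obtain ⟨c, hc, h1⟩ := h f hf k r η hr hη
    refine ⟨c, hc, fun R hR x s hs hsc hd => ?_⟩
    filter_upwards [hσ, h1 R hR x s hs hsc hd] with i h2 h3; rw [h2]; exact h3

/-! ### The conformal maps -/

variable {w : ι → ℂ} {z₀ w₁ : ℂ} {R₀ c₀ : ℝ} {g : ℂ → ℂ} {𝒰 : Ultrafilter ι}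

theorem bas_unif {F₁ : ℂ → ℂ} {a : ℂ} {U : ℝ × ℝ → ℝ} (h : Bas F₁ a z₀ R₀ c₀ U) :
    Unif (dm (F₁ '' HP)) F₁ (Function.invFunOn F₁ HP) where
  Fd := h.diff
  Fm w hw := mem_image_of_mem F₁ hw
  Gd z hz := (inv_diff HP_open h.diff h.inj).differentiableAt
    ((isOpen_image HP_open h.diff h.inj).mem_nhds hz)
  Gm z hz := inv_mem hz
  FG z hz := f_inv hz
  GF w hw := inv_f h.inj hw

theorem bas_open {F₁ : ℂ → ℂ} {a : ℂ} {U : ℝ × ℝ → ℝ} (h : Bas F₁ a z₀ R₀ c₀ U) :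
    IsOpen (dm (F₁ '' HP)) := dm_open (isOpen_image HP_open h.diff h.inj)

theorem bas_inv {F₁ : ℂ → ℂ} {a : ℂ} {U : ℝ × ℝ → ℝ} (h : Bas F₁ a z₀ R₀ c₀ U) {z : ℂ}
    (hz : z ∈ ball z₀ c₀) : Function.invFunOn F₁ HP z =
      cay a (Function.invFunOn (fun w' => F₁ (cay a w')) (ball 0 1) z) := by
  have h1 := inv_mem (h.dsc.sub hz)
  have h2 := f_inv (h.dsc.sub hz)
  have h3 : cay a (Function.invFunOn (fun w' => F₁ (cay a w')) (ball 0 1) z) ∈ HP :=
    cay_im h.pt h1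
  have h4 := inv_f h.inj h3
  rw [← h4, h2]
  rfl

/-- The limit domain. -/
theorem lim_unif (hD : ∀ i, Dsc (fun w' => F i (cay (w i) w')) z₀ R₀ c₀) (hc : 0 < c₀)
    (hg : TendstoLocallyUniformlyOn (fun i w' => F i (cay (w i) w')) g (𝒰 : Filter ι) (ball 0 1))
    (hw₁ : 0 < w₁.im) :
    Unif (dm (g '' ball 0 1)) (fun z => g (icay w₁ z))
      (fun z => cay w₁ (Function.invFunOn g (ball 0 1) z)) := by
  have hgd := lim_diff hD hg
  have hgi := lim_inj hD hc hg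
  have hgo : IsOpen (g '' ball 0 1) := isOpen_image isOpen_ball hgd hgi
  refine ⟨?_, fun w' hw' => ?_, fun z hz => ?_, fun z hz => ?_, fun z hz => ?_, fun w' hw' => ?_⟩
  · have h1 : DifferentiableOn ℂ (icay w₁) HP := by
      intro z hz
      have h2 : DifferentiableAt ℂ (fun z : ℂ => (z - w₁) / (z - (starRingEnd ℂ) w₁)) z :=
        (differentiableAt_id.sub_const w₁).div (differentiableAt_id.sub_const _)
          (icay_den hw₁ hz)
      exact h2.differentiableWithinAt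
    exact hgd.comp h1 fun z hz => icay_mem hw₁ hz
  · exact mem_image_of_mem g (icay_mem hw₁ hw')
  · have h1 : DifferentiableAt ℂ (Function.invFunOn g (ball 0 1)) (toC z) :=
      (inv_diff isOpen_ball hgd hgi).differentiableAt (hgo.mem_nhds hz)
    have h2 : DifferentiableAt ℂ (cay w₁) (Function.invFunOn g (ball 0 1) (toC z)) :=
      (cay_diff w₁).differentiableAt (isOpen_ball.mem_nhds (inv_mem hz))
    exact h2.comp (toC z) h1
  · exact cay_im hw₁ (inv_mem hz)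
  · have hz' : toC z ∈ g '' ball 0 1 := hz
    rw [icay_cay hw₁ (inv_mem hz')]
    exact f_inv hz'
  · rw [inv_f hgi (icay_mem hw₁ hw'), cay_icay hw₁ hw']

/-- The supports are inside the domains. -/
theorem ins_ev (h : ∀ i, Bas (F i) (w i) z₀ R₀ c₀ (fun _ => 0)) (hc : 0 < c₀)
    (hg : TendstoLocallyUniformlyOn (fun i w' => F i (cay (w i) w')) g (𝒰 : Filter ι) (ball 0 1))
    {f : ℝ × ℝ → ℝ} (hf : TestOn (dm (g '' ball 0 1)) f) :
    ∃ r : ℝ, 0 < r ∧ ∀ᶠ i in (𝒰 : Filter ι), Ins (F i) f r := by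
  have hD : ∀ i, Dsc (fun w' => F i (cay (w i) w')) z₀ R₀ c₀ := fun i => (h i).dsc
  have hgo : IsOpen (g '' ball 0 1) :=
    isOpen_image isOpen_ball (lim_diff hD hg) (lim_inj hD hc hg)
  have hK : IsCompact (tc '' tsupport f) := hf.cs.isCompact.image tc_cont
  have hKs : tc '' tsupport f ⊆ g '' ball 0 1 := by
    rintro _ ⟨y, hy, rfl⟩
    exact hf.2.2 hy
  obtain ⟨r, hr, hrs⟩ := hK.exists_cthickening_subset_open hgo hKs
  have hKr : IsCompact (cthickening r (tc '' tsupport f)) := hK.cthickening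
  have hev := ker_compact hD hc hg hKr hrs
  refine ⟨r, hr, ?_⟩
  filter_upwards [hev] with i hi z hz
  rw [(h i).image] at hi
  refine Subset.trans ?_ hi
  intro y hy
  rw [mem_ball] at hy
  exact mem_cthickening_of_dist_le y (tc z) r _ (mem_image_of_mem _ hz) hy.le

theorem norm_toC_sub_lt {y x : ℝ × ℝ} {s : ℝ} (hs : 0 < s) (h : dist y x ≤ 2 * s) :
    ‖toC y - toC x‖ < 4 * s := by
  rw [dist_eq_norm, Prod.norm_def, max_le_iff, Real.norm_eq_abs, Real.norm_eq_abs] at h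
  have h1 : |y.1 - x.1| ≤ 2 * s := h.1
  have h2 : |y.2 - x.2| ≤ 2 * s := h.2
  have h3 : ‖toC y - toC x‖ ^ 2 = (y.1 - x.1) ^ 2 + (y.2 - x.2) ^ 2 := by
    rw [← Complex.normSq_eq_norm_sq, Complex.normSq_apply]
    simp only [Complex.sub_re, Complex.sub_im, toC_re, toC_im]
    ring
  have h4 : (y.1 - x.1) ^ 2 ≤ (2 * s) ^ 2 := sq_le_sq' (abs_le.1 h1).1 (abs_le.1 h1).2
  have h5 : (y.2 - x.2) ^ 2 ≤ (2 * s) ^ 2 := sq_le_sq' (abs_le.1 h2).1 (abs_le.1 h2).2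
  refine lt_of_pow_lt_pow_left₀ 2 (by positivity) ?_
  rw [h3]
  nlinarith

theorem dist_le_norm_toC (y : ℂ) (x : ℝ × ℝ) : dist (toR y) x ≤ ‖y - toC x‖ := by
  rw [dist_eq_norm, Prod.norm_def, max_le_iff, Real.norm_eq_abs, Real.norm_eq_abs]
  exact ⟨Complex.abs_re_le_norm (y - toC x), Complex.abs_im_le_norm (y - toC x)⟩

/-- The points of the limit domain are at Whitney distance. -/
theorem whit_ev (h : ∀ i, Bas (F i) (w i) z₀ R₀ c₀ (fun _ => 0)) (hc : 0 < c₀)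
    (hg : TendstoLocallyUniformlyOn (fun i w' => F i (cay (w i) w')) g (𝒰 : Filter ι) (ball 0 1))
    {x : ℝ × ℝ} (hx : x ∈ dm (g '' ball 0 1)) :
    0 < dd (dm (g '' ball 0 1)) x / 2 ∧
    ∀ᶠ i in (𝒰 : Filter ι), Whit (F i) x (dd (dm (g '' ball 0 1)) x / 2) := by
  have hD : ∀ i, Dsc (fun w' => F i (cay (w i) w')) z₀ R₀ c₀ := fun i => (h i).dsc
  have hgd := lim_diff hD hg
  have hgi := lim_inj hD hc hg
  have hgb := (lim_dsc hD hg).2
  have hgo : IsOpen (g '' ball 0 1) := isOpen_image isOpen_ball hgd hgi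
  have hopenD := dm_open hgo
  have hbD : Bornology.IsBounded (dm (g '' ball 0 1)) :=
    dm_bdd (R := R₀) (by rintro _ ⟨y, hy, rfl⟩; exact hgb y hy)
  set D := dm (g '' ball 0 1) with hDd
  set s := dd D x / 2 with hs
  have hs0 : 0 < s := by
    have := (dd_pos hopenD hbD).2 hx
    rw [hs]; linarith
  refine ⟨hs0, ?_⟩
  have hcl : closedBall (toC x) (3 / 2 * s) ⊆ g '' ball 0 1 := by
    intro y hy
    rw [mem_closedBall, dist_eq_norm] at hy
    have h1 : dist (toR y) x ≤ 3 / 2 * s := (dist_le_norm_toC y x).trans hy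
    have h2 : closedBall x (3 / 2 * s) ⊆ D := ball_sub (by rw [hs]; linarith [hs0])
    exact h2 (show toR y ∈ closedBall x (3 / 2 * s) from h1)
  have ev1 := ker_compact hD hc hg (isCompact_closedBall _ _) hcl
  have ev2 : ∀ᶠ i in (𝒰 : Filter ι), ¬ ball (toC x) (4 * s) ⊆ F i '' HP := by
    rw [Ultrafilter.eventually_not]
    intro hcon
    obtain ⟨q, hq, hqx⟩ := hx
    have hqx' : g q = toC x := hqx
    have hup := ker_up hD hc hg hq (s := 4 * s) (hcon.mono fun i hi => by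
      rw [(h i).image, hqx']; exact hi)
    rw [hqx'] at hup
    obtain ⟨y, hy, hyd⟩ := hopenD.isClosed_compl.exists_infDist_eq_dist (compl_ne hbD) x
    have h3 : dist y x ≤ 2 * s := by
      rw [dist_comm, ← hyd]
      have : Metric.infDist x Dᶜ = dd D x := rfl
      rw [this, hs]; linarith
    have h4 := norm_toC_sub_lt hs0 h3
    apply hy
    exact hup (by rw [mem_ball, dist_eq_norm]; exact h4)
  filter_upwards [ev1, ev2] with i h1 h2
  refine ⟨?_, h2⟩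
  rw [(h i).image] at h1
  exact ball_subset_closedBall.trans h1

/-- The part `ArcB` along the ultrafilter. -/
theorem arcB_of {e : ι → ℕ} {j : ℕ → ι} (hj : Function.LeftInverse j e)
    (h : ∀ i, Bas (F i) (w i) z₀ R₀ c₀ (fun _ => 0)) (hc : 0 < c₀)
    (hg : TendstoLocallyUniformlyOn (fun i w' => F i (cay (w i) w')) g (𝒰 : Filter ι) (ball 0 1))
    (hL : Lat2 κ F δ B μ (𝒰 : Filter ι)) (hm : ∀ i, Mom (μ i)) :
    ArcB κ (fun n => δ (j n)) (fun n => B (j n)) (fun n => μ (j n)) (dm (g '' ball 0 1))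
      (𝒰.map e) := by
  have hD : ∀ i, Dsc (fun w' => F i (cay (w i) w')) z₀ R₀ c₀ := fun i => (h i).dsc
  have hgd := lim_diff hD hg
  have hgi := lim_inj hD hc hg
  have hgb := (lim_dsc hD hg).2
  have hgo : IsOpen (g '' ball 0 1) := isOpen_image isOpen_ball hgd hgi
  have hopenD := dm_open hgo
  have hbD : Bornology.IsBounded (dm (g '' ball 0 1)) :=
    dm_bdd (R := R₀) (by rintro _ ⟨y, hy, rfl⟩; exact hgb y hy)
  have tr : ∀ {P : ι → Prop}, (∀ᶠ i in (𝒰 : Filter ι), P i) →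
      ∀ᶠ n in ((𝒰.map e : Ultrafilter ℕ) : Filter ℕ), P (j n) := by
    intro P hP
    rw [Ultrafilter.coe_map, Filter.eventually_map]
    filter_upwards [hP] with i hi
    rw [hj i]; exact hi
  have tz : ∀ {X : ι → ℝ}, (∀ ε : ℝ, 0 < ε → ∀ᶠ i in (𝒰 : Filter ι), |X i| ≤ ε) →
      Tendsto (fun n => X (j n)) ((𝒰.map e : Ultrafilter ℕ) : Filter ℕ) (𝓝 0) := by
    intro X hX
    rw [Metric.tendsto_nhds]
    intro ε hε
    filter_upwards [tr (hX (ε / 2) (by positivity))] with n hn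
    rw [Real.dist_eq, sub_zero]
    linarith
  refine ⟨hL.κpos, hopenD, hbD, fun n => hm _, fun f hf k => ?_, ?_, ?_, fun ψ hψ => ?_,
    fun ψ f hψ hf k => ?_⟩
  · obtain ⟨r, hr, hins⟩ := ins_ev h hc hg hf
    obtain ⟨C, hC⟩ := hL.mb f (hf.mono (subset_univ _)) k r hr
    refine ⟨C, tr (P := fun i => ∫ ω, hB (B i) (δ i) f ω ^ (2 * k) ∂(μ i) ≤ C) ?_⟩
    filter_upwards [hins, hC] with i h1 h2
    exact h2 h1
  · obtain ⟨C, hC0, hC⟩ := hL.l2
    refine ⟨C, hC0, fun f hf ε hε => ?_⟩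
    obtain ⟨r, hr, hins⟩ := ins_ev h hc hg hf
    refine tr (P := fun i => ∫ ω, hB (B i) (δ i) f ω ^ 2 ∂(μ i) ≤ C * (∫ z, f z ^ 2) + ε) ?_
    filter_upwards [hins, hC f (hf.mono (subset_univ _)) r ε hr hε] with i h1 h2
    exact h2 h1
  · obtain ⟨K, hK0, hK⟩ := hL.vb
    refine ⟨K, hK0, fun x hx => ?_⟩
    obtain ⟨hs, hw⟩ := whit_ev h hc hg hx
    refine tr (P := fun i => ∫ ω, hB (B i) (δ i) (bump (dd (dm (g '' ball 0 1)) x / 2) x) ω ^ 2
      ∂(μ i) ≤ K) ?_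
    filter_upwards [hw, hK x _ hs] with i h1 h2
    exact h2 h1
  · obtain ⟨r, hr, hins⟩ := ins_ev h hc hg hψ
    refine tz (X := fun i => ∫ ω, hB (B i) (δ i) (lap ψ) ω ∂(μ i)) fun ε hε => ?_
    filter_upwards [hins, hL.sd0 ψ (hψ.mono (subset_univ _)) r ε hr hε] with i h1 h2
    exact h2 h1
  · obtain ⟨r, hr, hins⟩ := ins_ev h hc hg hψ
    obtain ⟨r', hr', hins'⟩ := ins_ev h hc hg hf
    refine tz (X := fun i => sdE κ (B i) (δ i) (μ i) ψ f k) fun ε hε => ?_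
    filter_upwards [hins, hins', hL.sd ψ f (hψ.mono (subset_univ _)) (hf.mono (subset_univ _)) k
      (min r r') ε (lt_min hr hr') hε] with i h1 h1' h2
    refine h2 (fun z hz => ?_) (fun z hz => ?_)
    · exact (ball_subset_ball (min_le_left _ _)).trans (h1 z hz)
    · exact (ball_subset_ball (min_le_right _ _)).trans (h1' z hz)

end Vale.Agent.P153.R2.KAPV
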