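import Vale.Agent.P153.R2.KAPV.SltLat
import Vale.Agent.P153.R2.OBSV.Obs
import Vale.Agent.P153.R2.M1.Loew

/-!
P153, block KAPV: the first two moments of the field given the interface up to a stopping index.
-/

set_option autoImplicit false
set_option linter.unusedVariables false

namespace Vale.Agent.P153.R2.KAPV

open Filter Topology Set Metric MeasureTheory
open Vale.Agent.P145.PT Vale.Agent.P153.F.Top
open Vale.Agent.P153 Vale.Agent.P153.R2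
open Vale.Agent.P153.Topo (Conn)
open Vale.Agent.P153.R2.INTF (PP Arcs CA Fk Rk Lk CA_finite)
open Vale.Agent.P153.R2.Final (region circ IsUniformizer Approx IsPolygon Encloses)
open Vale.Agent.P164 (flow flow_eq IsLoewnerSol loewnerDomain)
open Vale.Agent.P153.R2.FLDI (inn)
open Vale.Agent.P153.R2.DRV
open Vale.Agent.P153.R2.OBSV (S_crv S_geo S_side Os Fm slit_maps sep unif_bdd disc_sub tp Slt
  CA_nonempty PP_eq tc)

/-- The preimage in the half-plane. -/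
noncomputable def pre (ψ : ℂ → ℂ) (a : ℝ × ℝ) : ℂ := Function.invFunOn ψ HP (toC a)

/-- The integrated mean. -/
noncomputable def mo (f : ℝ × ℝ → ℝ) (ζ : ℝ × ℝ → ℂ) : ℝ :=
  ∫ a, (1 - 2 / Real.pi * (ζ a).arg) * f a

/-- The integrated Green function. -/
noncomputable def qo (f : ℝ × ℝ → ℝ) (ζ : ℝ × ℝ → ℂ) : ℝ :=
  ∫ a, ∫ b, gk (ζ a) (ζ b) * f b * f a

/-! ### The centred map is the flow -/

section Flow

variable {γ : ℝ → ℂ} {T t : ℝ} {z : ℂ}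

/-- The centred map of a simple curve is the Loewner flow. -/
theorem crv_flow (h : L2.Crv γ T) (ht : t ∈ Ico 0 T) (hz : z ∈ L1.HH \ γ '' Icc 0 t) :
    flow (L2.drv γ T) (L2.cc γ t) z = L2.gg γ t z - (L2.ww γ t : ℂ) := by
  have h1 := h.sol ht hz
  have h2 := flow_eq (h.cap_nonneg ht) h1
  rw [h2, h.tau_cc ht, h.drv_cc ht]

/-- Bounds for the centred map high above the curve. -/
theorem crv_bd (h : L2.Crv γ T) (ht : t ∈ Ico 0 T) (hz : 0 < z.im)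
    (h8 : 8 * L2.cc γ t ≤ z.im ^ 2) : z ∈ L1.HH \ γ '' Icc 0 t ∧
      z.im / 2 ≤ (L2.gg γ t z - (L2.ww γ t : ℂ)).im ∧
      ‖L2.gg γ t z - (L2.ww γ t : ℂ)‖ ≤ ‖z‖ + 4 * L2.cc γ t / z.im + |L2.ww γ t| := by
  obtain ⟨S, hS, hS0, hsub⟩ := h.exists_gt ht
  have hc : ContinuousOn (L2.drv γ T) (Icc 0 (L2.cc γ t)) :=
    (h.drv_cont hS0 hsub).mono fun s hs => ⟨hs.1, hs.2.trans_lt hS⟩
  obtain ⟨g, hg, hb⟩ := Vale.Agent.P153.M1.exists_sol (h.cap_nonneg ht) hc hz h8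
  have hz' : z ∈ L1.HH \ γ '' Icc 0 t := by
    rw [← h.dom ht]
    exact ⟨g, hg⟩
  have h1 := crv_flow h ht hz'
  have h2 := flow_eq (h.cap_nonneg ht) hg
  rw [h1, h.drv_cc ht] at h2
  obtain ⟨b1, b2⟩ := hb (L2.cc γ t) ⟨h.cap_nonneg ht, le_rfl⟩
  refine ⟨hz', ?_, ?_⟩
  · rw [h2, Complex.sub_im, Complex.ofReal_im, sub_zero]
    exact b1
  · rw [h2]
    have e : g (L2.cc γ t) - (L2.ww γ t : ℂ) = z + (g (L2.cc γ t) - z) - (L2.ww γ t : ℂ) := by
      ring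
    rw [e]
    refine (norm_sub_le _ _).trans ?_
    rw [Complex.norm_real, Real.norm_eq_abs]
    have := norm_add_le z (g (L2.cc γ t) - z)
    linarith

end Flow

variable {Φ : (ℝ × ℝ) ≃ₜ (ℝ × ℝ)} {ψ : ℂ → ℂ} {δ : ℕ → ℝ} {N k : ℕ → ℕ}
  {p : ∀ n, ZMod (N n) → ℤ × ℤ} {S : ℕ → Finset Final.Tri} {ψn : ℕ → ℂ → ℂ}

/-- The filter. -/
def lf (k : ℕ → ℕ) (p : ∀ n, ZMod (N n) → ℤ × ℤ) (S : ℕ → Finset Final.Tri) :
    Filter (ℕ × Hg) :=
  comap Prod.fst atTop ⊓ 𝓟 {i | i.2 ∈ Cs (p i.1) (k i.1) (S i.1)}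

theorem lf_ev {q : ℕ → Prop} (hq : ∀ᶠ n in atTop, q n) : ∀ᶠ i in lf k p S, q i.1 :=
  (tendsto_comap.mono_left inf_le_left).eventually hq

theorem lf_Cs : ∀ᶠ i in lf k p S, i.2 ∈ Cs (p i.1) (k i.1) (S i.1) :=
  mem_inf_of_right (mem_principal_self _)

theorem lf_ev2 {q : ℕ → Hg → Prop} (hq : ∀ᶠ n in atTop, ∀ h ∈ Cs (p n) (k n) (S n), q n h) :
    ∀ᶠ i in lf k p S, q i.1 i.2 := by
  filter_upwards [lf_ev hq, lf_Cs] with i h1 h2
  exact h1 i.2 h2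

theorem lf_countable : {i : ℕ × Hg | i.2 ∈ Cs (p i.1) (k i.1) (S i.1)}.Countable := by
  have e : {i : ℕ × Hg | i.2 ∈ Cs (p i.1) (k i.1) (S i.1)} =
      ⋃ n : ℕ, (fun h => (n, h)) '' Cs (p n) (k n) (S n) := by
    ext ⟨n, h⟩
    simp only [mem_iUnion, mem_image, Prod.mk.injEq]
    constructor
    · intro hh
      exact ⟨n, h, hh, rfl, rfl⟩
    · rintro ⟨m, g, hg, rfl, rfl⟩
      exact hg
  rw [e]
  refine countable_iUnion fun n => ?_
  have : (Cs (p n) (k n) (S n)).Finite := CA_finite (Finset.finite_toSet _)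
  exact (this.image _).countable

/-- Uniform convergence along the filter. -/
theorem lf_unif {X : ℕ → Hg → ℝ} (hX : Tendsto (fun i : ℕ × Hg => X i.1 i.2) (lf k p S) (𝓝 0)) :
    Tendsto (fun n => Ex (Cs (p n) (k n) (S n)) fun h => |X n h|) atTop (𝓝 0) := by
  rw [Metric.tendsto_nhds] at hX ⊢
  intro ε hε
  have h1 := hX (ε / 2) (by positivity)
  rw [lf, eventually_inf_principal, eventually_comap] at h1
  filter_upwards [h1] with n hn
  rw [dist_zero_right, Real.norm_eq_abs, abs_of_nonneg (Ex_nonneg fun h _ => abs_nonneg _)]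
  have h3 : (Ex (Cs (p n) (k n) (S n)) fun h => |X n h|) ≤ ε / 2 := by
    refine Ex_le_const (by positivity) fun h hh => ?_
    have h2 := hn (n, h) rfl hh
    rw [dist_zero_right, Real.norm_eq_abs] at h2
    exact h2.le
  linarith

/-- **The slit domains at the stopping indices** (after the proof of `DRV.S_obs`). -/
theorem slt_fam (hcrv : S_crv) (hgeo : S_geo) (hside : S_side) (huinj : UNIQ.I_uinj)
    (hset : Setg Φ ψ δ N k p S ψn) {z : ℂ} (hz : 0 < z.im) :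
    ∃ R₀ c₀ : ℝ, 0 < R₀ ∧ 0 < c₀ ∧
      (∀ᶠ n in atTop, ∀ a ∈ ball (ψ z) c₀, Function.invFunOn (ψn n) HP a ∈ HP ∧
        ψn n (Function.invFunOn (ψn n) HP a) = a) ∧
      Tendsto (fun n => Function.invFunOn (ψn n) HP (ψ z)) atTop (𝓝 z) ∧
      ∀ (T R : ℝ), 16 * (T + 1) ≤ z.im ^ 2 → ∀ κ : ℕ → Hg → ℕ,
        (∀ n, ∀ h ∈ Cs (p n) (k n) (S n), κ n h < nu (p n) (S n) h) →
        (∀ᶠ n in atTop, ∀ h ∈ Cs (p n) (k n) (S n),
          cp (ψn n) (δ n) (p n) (S n) h (κ n h) ≤ T + 1 ∧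
          |wd (ψn n) (δ n) (p n) (S n) h (κ n h)| ≤ R + 1) →
        ∀ᶠ i in lf k p S, Slt (δ i.1) (Fk (inn (p i.1) (S i.1)) i.2 (S i.1)
            (DRV.st (p i.1) (S i.1)) (κ i.1 i.2))
          (Pn (p i.1) (k i.1) (S i.1) ∪ Lk i.2 (S i.1) (DRV.st (p i.1) (S i.1)) (κ i.1 i.2))
          (Mn (p i.1) (k i.1) (S i.1) ∪ Rk i.2 (S i.1) (DRV.st (p i.1) (S i.1)) (κ i.1 i.2))
          (Fm (ψn i.1) (δ i.1) (p i.1) (S i.1) i.2 (κ i.1 i.2))
          (gc (ψn i.1) (δ i.1) (p i.1) (S i.1) i.2 (κ i.1 i.2)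
            (Function.invFunOn (ψn i.1) HP (ψ z))) (ψ z) R₀ c₀ ∧
          (z.im / 4 ≤ (gc (ψn i.1) (δ i.1) (p i.1) (S i.1) i.2 (κ i.1 i.2)
            (Function.invFunOn (ψn i.1) HP (ψ z))).im ∧
          ‖gc (ψn i.1) (δ i.1) (p i.1) (S i.1) i.2 (κ i.1 i.2)
            (Function.invFunOn (ψn i.1) HP (ψ z))‖ ≤
              ‖z‖ + 1 + 8 * (T + 1) / z.im + (R + 1)) ∧
          ∀ a ∈ ball (ψ z) c₀, Function.invFunOn (Fm (ψn i.1) (δ i.1) (p i.1) (S i.1) i.2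
            (κ i.1 i.2)) HP a = gc (ψn i.1) (δ i.1) (p i.1) (S i.1) i.2 (κ i.1 i.2)
              (Function.invFunOn (ψn i.1) HP a) := by
  obtain ⟨hu, ha, huD, hconv⟩ := hset
  have hpoly : ∀ n, 0 < δ n ∧ 0 < k n ∧ k n < N n ∧ IsPolygon (p n) ∧ Encloses (p n) (S n) := ha.1
  -- constants
  obtain ⟨d, hd, hsep⟩ := sep huinj hu hz (half_pos hz)
  obtain ⟨R₁, hR₁, hbd⟩ := unif_bdd hu
  obtain ⟨e, he, hball⟩ := disc_sub hu ha hz
  set z₀ := ψ z with hz₀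
  set R₀ := R₁ + 1 with hR₀
  set c₀ := min (d / 2) e with hc₀
  have hc₀p : 0 < c₀ := lt_min (by positivity) he
  -- the points
  set zn : ℕ → ℂ := fun n => Function.invFunOn (ψn n) HP z₀ with hzn
  have hmemA : ∀ᶠ n in atTop, ∀ a ∈ ball z₀ c₀, Function.invFunOn (ψn n) HP a ∈ HP ∧
      ψn n (Function.invFunOn (ψn n) HP a) = a := by
    filter_upwards [hball] with n hn a ha'
    have h1 : a ∈ ψn n '' HP := by
      have h2 := hn (ball_subset_ball (min_le_right _ _) ha')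
      rw [← (huD n).image] at h2
      exact h2
    exact ⟨Function.invFunOn_mem h1, Function.invFunOn_eq h1⟩
  have hmem : ∀ᶠ n in atTop, zn n ∈ HP ∧ ψn n (zn n) = z₀ := by
    filter_upwards [hmemA] with n hn
    exact hn z₀ (mem_ball_self hc₀p)
  have htend : Tendsto zn atTop (𝓝 z) := by
    rw [Metric.tendsto_nhds]
    intro ε hε
    obtain ⟨d', hd', hsep'⟩ := sep huinj hu hz hε
    filter_upwards [hmem, hconv d' hd'] with n hn1 hn2
    by_contra hcon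
    rw [not_lt, dist_eq_norm] at hcon
    have h1 := hsep' (zn n) (le_of_lt hn1.1) hcon
    have h2 := hn2 (zn n) (le_of_lt hn1.1)
    rw [hn1.2, dist_eq_norm, norm_sub_rev] at h2
    linarith
  refine ⟨R₀, c₀, by positivity, hc₀p, hmemA, htend, fun T R hTz κ hκn hκb => ?_⟩
  have htim : ∀ᶠ n in atTop, 8 * (T + 1) ≤ (zn n).im ^ 2 ∧ z.im / 2 ≤ (zn n).im ∧
      ‖zn n‖ ≤ ‖z‖ + 1 := by
    have t1 : Tendsto (fun n => (zn n).im) atTop (𝓝 z.im) :=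
      (Complex.continuous_im.tendsto z).comp htend
    have t2 := (t1.pow 2).eventually (lt_mem_nhds (show z.im ^ 2 / 2 < z.im ^ 2 by
      have := sq_pos_of_pos hz
      linarith))
    have t3 := t1.eventually (lt_mem_nhds (half_lt_self hz))
    have t4 := htend.norm.eventually (gt_mem_nhds (show ‖z‖ < ‖z‖ + 1 by linarith))
    filter_upwards [t2, t3, t4] with n h1 h2 h3
    exact ⟨by linarith, h2.le, h3.le⟩
  filter_upwards [lf_Cs, lf_ev hmem, lf_ev (hconv 1 one_pos), lf_ev (hconv (d / 2)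
    (by positivity)), lf_ev hball, lf_ev2 hκb, lf_ev htim, lf_ev hmemA]
    with i hi h1 h2 h3 h4 h5 h6 hA
  obtain ⟨hδ0, hk0, hkN, hpo, hen⟩ := hpoly i.1
  have hj := hκn i.1 i.2 hi
  obtain ⟨hC, hpl⟩ := hcrv _ _ _ _ _ _ hδ0 hk0 hkN hpo hen (huD i.1) i.2 hi
  obtain ⟨m1, m2, m3, m4⟩ := slit_maps hcrv hδ0 hk0 hkN hpo hen (huD i.1) hi hj
  obtain ⟨g1, g2, g3, g4⟩ := hgeo _ _ _ _ _ hδ0 hk0 hkN hpo hen i.2 hi _ hj
  have hjt : ((κ i.1 i.2 : ℕ) : ℝ) ∈ Ico (0 : ℝ) (nu (p i.1) (S i.1) i.2) :=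
    ⟨Nat.cast_nonneg _, by exact_mod_cast hj⟩
  -- the curve stays away from `z₀`
  have haway : ∀ y ∈ pl (δ i.1) (ru (p i.1) (S i.1) i.2) '' Icc (0 : ℝ) (κ i.1 i.2),
      d / 2 ≤ ‖y - z₀‖ := by
    rintro _ ⟨t, ht, rfl⟩
    have htn : t ∈ Ico (0 : ℝ) (nu (p i.1) (S i.1) i.2) :=
      ⟨ht.1, ht.2.trans_lt (by exact_mod_cast hj)⟩
    rw [← hpl t htn]
    have hcap : L2.cc (et (ψn i.1) (δ i.1) (p i.1) (S i.1) i.2) t ≤ T + 1 := by
      refine le_trans ?_ h5.1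
      exact hC.strictMono.monotoneOn htn ⟨Nat.cast_nonneg _, by exact_mod_cast hj⟩ ht.2
    have him := hC.sq_im_le htn
    set y := et (ψn i.1) (δ i.1) (p i.1) (S i.1) i.2 t with hy
    have hy0 : 0 ≤ y.im := by
      rcases ht.1.eq_or_lt with h0 | h0
      · rw [hy, ← h0, hC.start]
      · exact (hC.im_pos t ⟨h0, htn.2⟩).le
    have hyim : y.im ≤ z.im / 2 := by
      refine abs_le_of_sq_le_sq' ?_ (by positivity) |>.2
      nlinarith
    have hyz : z.im / 2 ≤ ‖y - z‖ := by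
      have h6 := Complex.abs_im_le_norm (y - z)
      rw [Complex.sub_im, abs_sub_comm] at h6
      have h7 := le_abs_self (z.im - y.im)
      linarith
    have h8 := hsep y hy0 hyz
    have h9 := h3 y hy0
    rw [dist_eq_norm] at h9
    have h10 : ‖ψ y - ψ z‖ ≤ ‖ψn i.1 y - ψ y‖ + ‖ψn i.1 y - z₀‖ := by
      rw [← norm_neg (ψn i.1 y - ψ y)]
      have e : ψ y - ψ z = -(ψn i.1 y - ψ y) + (ψn i.1 y - z₀) := by rw [hz₀]; ring
      rw [e]
      exact norm_add_le _ _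
    linarith
  have hoff : ∀ a ∈ ball z₀ c₀, ψn i.1 (Function.invFunOn (ψn i.1) HP a) ∉
      pl (δ i.1) (ru (p i.1) (S i.1) i.2) '' Icc (0 : ℝ) (κ i.1 i.2) := by
    intro a ha' hc
    rw [(hA a ha').2] at hc
    have h7 := haway _ hc
    rw [mem_ball, dist_eq_norm] at ha'
    have h8 : c₀ ≤ d / 2 := min_le_left _ _
    linarith
  obtain ⟨w1, w2⟩ := m4 (zn i.1) h1.1 (hoff z₀ (mem_ball_self hc₀p))
  have hbn : ∀ y ∈ Final.toC '' interior (region (δ i.1) (S i.1)), ‖y‖ ≤ R₀ := by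
    intro y hy
    rw [← (huD i.1).image] at hy
    obtain ⟨x, hx, rfl⟩ := hy
    have hx' : 0 < x.im := hx
    have h6 := h2 x hx'.le
    rw [dist_eq_norm] at h6
    have h7 := hbd x hx'
    have h8 := norm_le_norm_add_norm_sub' (ψn i.1 x) (ψ x)
    rw [hR₀]
    linarith
  refine ⟨⟨hδ0, g1, m1, m2, fun x hx => ?_, w1, by rw [w2, h1.2], ?_, fun v hv => ?_, ?_, ?_,
    ?_, ?_⟩, ?_, fun a ha' => ?_⟩
  · have : Fm (ψn i.1) (δ i.1) (p i.1) (S i.1) i.2 (κ i.1 i.2) x ∈ Os (δ i.1) (p i.1) (S i.1)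
        i.2 (κ i.1 i.2) := by rw [← m3]; exact mem_image_of_mem _ hx
    exact hbn _ this.1
  · rw [m3]
    intro y hy
    refine ⟨h4 (ball_subset_ball (min_le_right _ _) hy), fun hc => ?_⟩
    have h6 := haway y hc
    rw [mem_ball, dist_eq_norm] at hy
    have h7 : c₀ ≤ d / 2 := min_le_left _ _
    linarith
  · have h6 : ‖PP (δ i.1) v‖ ≤ R₀ := by
      have h7 := g4 v hv
      have h8 : closure (Final.toC '' interior (region (δ i.1) (S i.1))) ⊆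
          closedBall (0 : ℂ) R₀ :=
        closure_minimal (fun y hy => by rw [mem_closedBall_zero_iff]; exact hbn y hy)
          isClosed_closedBall
      have h9 := h8 h7
      rwa [mem_closedBall_zero_iff] at h9
    rw [PP_eq] at h6
    rw [Prod.norm_def, max_le_iff, Real.norm_eq_abs, Real.norm_eq_abs]
    exact ⟨(Complex.abs_re_le_norm (tc (dp (δ i.1) v))).trans h6,
      (Complex.abs_im_le_norm (tc (dp (δ i.1) v))).trans h6⟩
  · intro v hv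
    rw [m3]; exact g2 v hv
  · intro y hy
    rw [m3] at hy; exact g3 y hy
  · intro v hv Rl v' m hc hvm hm
    exact (hside _ _ _ _ _ _ hδ0 hk0 hkN hpo hen (huD i.1) i.2 hi _ hj v hv Rl v' m hc hvm).1 hm
  · intro v hv Rl v' m hc hvm hm
    exact (hside _ _ _ _ _ _ hδ0 hk0 hkN hpo hen (huD i.1) i.2 hi _ hj v hv Rl v' m hc hvm).2 hm
  · have hzp : 0 < (zn i.1).im := h1.1
    have h7 : 8 * L2.cc (et (ψn i.1) (δ i.1) (p i.1) (S i.1) i.2) (κ i.1 i.2) ≤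
        (zn i.1).im ^ 2 := by
      have h8 : L2.cc (et (ψn i.1) (δ i.1) (p i.1) (S i.1) i.2) (κ i.1 i.2) ≤ T + 1 := h5.1
      linarith [h6.1]
    obtain ⟨-, b1, b2⟩ := crv_bd hC hjt hzp h7
    constructor
    · have h8 : (zn i.1).im / 2 ≤ (gc (ψn i.1) (δ i.1) (p i.1) (S i.1) i.2 (κ i.1 i.2)
          (zn i.1)).im := b1
      linarith [h6.2.1]
    · have h8 : ‖gc (ψn i.1) (δ i.1) (p i.1) (S i.1) i.2 (κ i.1 i.2) (zn i.1)‖ ≤
        ‖zn i.1‖ + 4 * L2.cc (et (ψn i.1) (δ i.1) (p i.1) (S i.1) i.2) (κ i.1 i.2) /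
          (zn i.1).im + |wd (ψn i.1) (δ i.1) (p i.1) (S i.1) i.2 (κ i.1 i.2)| := b2
      have h9 : L2.cc (et (ψn i.1) (δ i.1) (p i.1) (S i.1) i.2) (κ i.1 i.2) ≤ T + 1 := h5.1
      have h10 : 0 ≤ L2.cc (et (ψn i.1) (δ i.1) (p i.1) (S i.1) i.2) (κ i.1 i.2) :=
        hC.cap_nonneg hjt
      have h11 : 4 * L2.cc (et (ψn i.1) (δ i.1) (p i.1) (S i.1) i.2) (κ i.1 i.2) /
          (zn i.1).im ≤ 8 * (T + 1) / z.im := by
        rw [div_le_div_iff₀ hzp hz]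
        nlinarith [h6.2.1]
      linarith [h6.2.2, h5.2]
  · have hpa := hA a ha'
    obtain ⟨v1, v2⟩ := m4 _ hpa.1 (hoff a ha')
    have h7 : Fm (ψn i.1) (δ i.1) (p i.1) (S i.1) i.2 (κ i.1 i.2)
        (gc (ψn i.1) (δ i.1) (p i.1) (S i.1) i.2 (κ i.1 i.2)
          (Function.invFunOn (ψn i.1) HP a)) = a := by rw [v2, hpa.2]
    have h8 := OBSV.inv_f m2 (show gc (ψn i.1) (δ i.1) (p i.1) (S i.1) i.2 (κ i.1 i.2)
          (Function.invFunOn (ψn i.1) HP a) ∈ HP from v1)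
    rw [h7] at h8
    exact h8

/-- The second-moment analogue of `DRV.S_obs`. -/
def S_obs2 (κ : ℝ) : Prop := ∀ (Φ : (ℝ × ℝ) ≃ₜ (ℝ × ℝ)) (ψ : ℂ → ℂ) (δ : ℕ → ℝ) (N k : ℕ → ℕ)
  (p : ∀ n, ZMod (N n) → ℤ × ℤ) (S : ℕ → Finset Final.Tri) (ψn : ℕ → ℂ → ℂ),
  Setg Φ ψ δ N k p S ψn → ∀ z : ℂ, 0 < z.im → ∃ c : ℝ, 0 < c ∧
    (∀ᶠ n in atTop, ∀ a ∈ ball (ψ z) (4 * c), Function.invFunOn (ψn n) HP a ∈ HP ∧
        ψn n (Function.invFunOn (ψn n) HP a) = a) ∧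
    Tendsto (fun n => Function.invFunOn (ψn n) HP (ψ z)) atTop (𝓝 z) ∧
    ∀ f : ℝ × ℝ → ℝ, TestOn (OBSV.dm (closedBall (ψ z) c)) f → ∀ T R : ℝ,
      16 * (T + 1) ≤ z.im ^ 2 → ∀ j : ℕ → Hg → ℕ,
        (∀ n, ∀ h ∈ Cs (p n) (k n) (S n), j n h < nu (p n) (S n) h) →
        (∀ᶠ n in atTop, ∀ h ∈ Cs (p n) (k n) (S n),
          cp (ψn n) (δ n) (p n) (S n) h (j n h) ≤ T + 1 ∧
          |wd (ψn n) (δ n) (p n) (S n) h (j n h)| ≤ R + 1) →
        Tendsto (fun n => Ex (Cs (p n) (k n) (S n)) fun h =>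
          |cE (p n) (k n) (S n) h (j n h) (hf (δ n) f) +
            mo f fun a => gc (ψn n) (δ n) (p n) (S n) h (j n h) (pre (ψn n) a)|) atTop (𝓝 0) ∧
        Tendsto (fun n => Ex (Cs (p n) (k n) (S n)) fun h =>
          |cE (p n) (k n) (S n) h (j n h) (fun g => hf (δ n) f g ^ 2) -
            ((mo f fun a => gc (ψn n) (δ n) (p n) (S n) h (j n h) (pre (ψn n) a)) ^ 2 +
            κ * qo f fun a => gc (ψn n) (δ n) (p n) (S n) h (j n h) (pre (ψn n) a))|)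
          atTop (𝓝 0)

theorem s_obs2 {κ : ℝ} (hκ : 0 < κ) (hcrv : S_crv) (hgeo : S_geo) (hside : S_side)
    (huinj : UNIQ.I_uinj) (hmb : L_mb) (hl2 : L_l2) (hvb : L_vb) (hsd : L_sd κ) (hP : L_landP)
    (hM : L_landM) : S_obs2 κ := by
  intro Φ ψ δ N k p S ψn hset z hz
  obtain ⟨R₀, c₀, hR₀, hc₀, hpre, htend, hfam⟩ := slt_fam hcrv hgeo hside huinj hset hz
  refine ⟨c₀ / 4, by positivity, ?_, htend, fun f hf' T R hTz j hj hjb => ?_⟩
  · filter_upwards [hpre] with n hn a ha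
    exact hn a (by rwa [mul_div_cancel₀ _ (four_ne_zero)] at ha)
  have hfl := hfam T R hTz j hj hjb
  have hδl : Tendsto (fun i : ℕ × Hg => δ i.1) (lf k p S) (𝓝 0) := by
    have : Tendsto (fun i : ℕ × Hg => i.1) (lf k p S) atTop :=
      tendsto_comap.mono_left inf_le_left
    exact hset.appr.2.1.comp this
  have key := obs2_fil lf_countable lf_Cs (hfl.mono fun i hi => hi.1) hδl hR₀ hc₀
    (b := z.im / 4) (A := ‖z‖ + 1 + 8 * (T + 1) / z.im + (R + 1)) (by positivity)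
    (hfl.mono fun i hi => hi.2.1) hκ hmb hl2 hvb hsd hP hM hf'
  have hz0 : ∀ a, a ∉ OBSV.dm (ball (ψ z) c₀) → f a = 0 := by
    intro a ha
    by_contra hne
    exact ha (closedBall_subset_ball (by linarith) (hf'.2.2 (subset_tsupport f hne)))
  have hmo : ∀ᶠ i in lf k p S, ∫ a, uarg (Function.invFunOn (Fm (ψn i.1) (δ i.1) (p i.1) (S i.1)
      i.2 (j i.1 i.2)) HP) 0 a * f a = mo f fun a => gc (ψn i.1) (δ i.1) (p i.1) (S i.1) i.2
        (j i.1 i.2) (pre (ψn i.1) a) := by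
    filter_upwards [hfl] with i hi
    unfold mo
    congr 1
    funext a
    by_cases ha : a ∈ OBSV.dm (ball (ψ z) c₀)
    · unfold uarg pre
      rw [hi.2.2 (toC a) ha]
      simp
    · rw [hz0 a ha]; simp
  have hqo : ∀ᶠ i in lf k p S, Gr (Function.invFunOn (Fm (ψn i.1) (δ i.1) (p i.1) (S i.1)
      i.2 (j i.1 i.2)) HP) f = qo f fun a => gc (ψn i.1) (δ i.1) (p i.1) (S i.1) i.2
        (j i.1 i.2) (pre (ψn i.1) a) := by
    filter_upwards [hfl] with i hi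
    unfold qo Gr
    congr 1
    funext a
    congr 1
    funext b
    by_cases ha : a ∈ OBSV.dm (ball (ψ z) c₀)
    · by_cases hb : b ∈ OBSV.dm (ball (ψ z) c₀)
      · unfold pre
        rw [hi.2.2 (toC a) ha, hi.2.2 (toC b) hb]
      · rw [hz0 b hb]; simp
    · rw [hz0 a ha]; simp
  constructor
  · refine lf_unif (X := fun n h => cE (p n) (k n) (S n) h (j n h) (hf (δ n) f) +
            mo f fun a => gc (ψn n) (δ n) (p n) (S n) h (j n h) (pre (ψn n) a)) ?_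
    refine key.1.congr' ?_
    filter_upwards [hmo] with i hi
    rw [hi]
    rfl
  · refine lf_unif (X := fun n h => cE (p n) (k n) (S n) h (j n h) (fun g => hf (δ n) f g ^ 2) -
            ((mo f fun a => gc (ψn n) (δ n) (p n) (S n) h (j n h) (pre (ψn n) a)) ^ 2 +
            κ * qo f fun a => gc (ψn n) (δ n) (p n) (S n) h (j n h) (pre (ψn n) a))) ?_
    refine key.2.congr' ?_
    filter_upwards [hmo, hqo] with i hi hq
    rw [hi, hq]
    rfl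

end Vale.Agent.P153.R2.KAPV
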