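import Vale.Agent.P153.R2.KAPV.Obs2
import Vale.Agent.P153.R2.KAPV.Dens

/-!
P153, block KAPV: the first two moments given the interface, in terms of `mF` and `qF`.
-/

set_option autoImplicit false
set_option linter.unusedVariables false

namespace Vale.Agent.P153.R2.KAPV

open Filter Topology Set Metric MeasureTheory
open Vale.Agent.P145.PT Vale.Agent.P153.F.Top
open Vale.Agent.P153 Vale.Agent.P153.R2
open Vale.Agent.P153.R2.INTF (PP Arcs CA Fk Rk Lk CA_finite)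
open Vale.Agent.P153.R2.Final (region circ IsUniformizer Approx IsPolygon Encloses)
open Vale.Agent.P153.R2.FLDI (inn)
open Vale.Agent.P153.R2.DRV
open Vale.Agent.P153.R2.OBSV (S_crv S_geo S_side Os Fm)

/-- The second-moment analogue of `DRV.S_obs`, for nonnegative test functions. -/
def S_obs3 (κ : ℝ) : Prop := ∀ (Φ : (ℝ × ℝ) ≃ₜ (ℝ × ℝ)) (ψ : ℂ → ℂ) (δ : ℕ → ℝ) (N k : ℕ → ℕ)
  (p : ∀ n, ZMod (N n) → ℤ × ℤ) (S : ℕ → Finset Final.Tri) (ψn : ℕ → ℂ → ℂ),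
  Setg Φ ψ δ N k p S ψn → ∀ z : ℂ, 0 < z.im → ∃ c : ℝ, 0 < c ∧
    (∀ᶠ n in atTop, ∀ a ∈ ball (ψ z) (4 * c), Function.invFunOn (ψn n) HP a ∈ HP ∧
        ψn n (Function.invFunOn (ψn n) HP a) = a) ∧
    ∀ f : ℝ × ℝ → ℝ, TestOn (OBSV.dm (closedBall (ψ z) c)) f → (∀ a, 0 ≤ f a) → ∀ T R : ℝ,
      16 * (T + 1) ≤ z.im ^ 2 → ∀ j : ℕ → Hg → ℕ,
        (∀ n, ∀ h ∈ Cs (p n) (k n) (S n), j n h < nu (p n) (S n) h) →
        (∀ᶠ n in atTop, ∀ h ∈ Cs (p n) (k n) (S n),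
          cp (ψn n) (δ n) (p n) (S n) h (j n h) ≤ T + 1 ∧
          |wd (ψn n) (δ n) (p n) (S n) h (j n h)| ≤ R + 1) →
        Tendsto (fun n => Ex (Cs (p n) (k n) (S n)) fun h =>
          |cE (p n) (k n) (S n) h (j n h) (hf (δ n) f) +
            mF (nuf f) fun a => gc (ψn n) (δ n) (p n) (S n) h (j n h) (pre (ψn n) a)|)
          atTop (𝓝 0) ∧
        Tendsto (fun n => Ex (Cs (p n) (k n) (S n)) fun h =>
          |cE (p n) (k n) (S n) h (j n h) (fun g => hf (δ n) f g ^ 2) -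
            ((mF (nuf f) fun a => gc (ψn n) (δ n) (p n) (S n) h (j n h) (pre (ψn n) a)) ^ 2 +
            κ * qF (nuf f) fun a => gc (ψn n) (δ n) (p n) (S n) h (j n h) (pre (ψn n) a))|)
          atTop (𝓝 0)

/-- The functionals depend only on the values on the support. -/
theorem mF_congr {D : Set (ℝ × ℝ)} {f : ℝ × ℝ → ℝ} (hf' : TestOn D f) {ζ ζ' : ℝ × ℝ → ℂ}
    (h : ∀ a, f a ≠ 0 → ζ a = ζ' a) : mF (nuf f) ζ = mF (nuf f) ζ' := by
  unfold mF
  refine integral_congr_ae ?_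
  filter_upwards [nuf_ae hf'] with a ha
  rw [h a ha]

theorem qF_congr {D : Set (ℝ × ℝ)} {f : ℝ × ℝ → ℝ} (hf' : TestOn D f) {ζ ζ' : ℝ × ℝ → ℂ}
    (h : ∀ a, f a ≠ 0 → ζ a = ζ' a) : qF (nuf f) ζ = qF (nuf f) ζ' := by
  unfold qF
  refine integral_congr_ae ?_
  filter_upwards [nuf_diag hf'] with x hx
  rw [h _ hx.2.1, h _ hx.2.2]

theorem s_obs3 {κ : ℝ} (hκ : 0 < κ) (hcrv : S_crv) (hgeo : S_geo) (hside : S_side)
    (huinj : UNIQ.I_uinj) (hmb : L_mb) (hl2 : L_l2) (hvb : L_vb) (hsd : L_sd κ) (hP : L_landP)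
    (hM : L_landM) : S_obs3 κ := by
  intro Φ ψ δ N k p S ψn hset z hz
  obtain ⟨R₀, c₀, hR₀, hc₀, hpre, htend, hfam⟩ := slt_fam hcrv hgeo hside huinj hset hz
  refine ⟨c₀ / 4, by positivity, ?_, fun f hf' h0 T R hTz j hj hjb => ?_⟩
  · filter_upwards [hpre] with n hn a ha
    exact hn a (by rwa [mul_div_cancel₀ _ (four_ne_zero)] at ha)
  have hfl := hfam T R hTz j hj hjb
  have hδl : Tendsto (fun i : ℕ × Hg => δ i.1) (lf k p S) (𝓝 0) := by
    have : Tendsto (fun i : ℕ × Hg => i.1) (lf k p S) atTop :=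
      tendsto_comap.mono_left inf_le_left
    exact hset.appr.2.1.comp this
  have key := obs2_fil lf_countable lf_Cs (hfl.mono fun i hi => hi.1) hδl hR₀ hc₀
    (b := z.im / 4) (A := ‖z‖ + 1 + 8 * (T + 1) / z.im + (R + 1)) (by positivity)
    (hfl.mono fun i hi => hi.2.1) hκ hmb hl2 hvb hsd hP hM hf'
  have hsub : closedBall (ψ z) (c₀ / 4) ⊆ ball (ψ z) c₀ := closedBall_subset_ball (by linarith)
  have hz0 : ∀ a, f a ≠ 0 → toC a ∈ ball (ψ z) c₀ := fun a ha =>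
    hsub (hf'.2.2 (subset_tsupport f ha))
  have hmo : ∀ᶠ i in lf k p S, ∫ a, uarg (Function.invFunOn (Fm (ψn i.1) (δ i.1) (p i.1) (S i.1)
      i.2 (j i.1 i.2)) HP) 0 a * f a = mF (nuf f) fun a => gc (ψn i.1) (δ i.1) (p i.1) (S i.1)
        i.2 (j i.1 i.2) (pre (ψn i.1) a) := by
    filter_upwards [hfl] with i hi
    rw [mF_nuf hf' h0]
    congr 1
    funext a
    by_cases ha : f a = 0
    · rw [ha]; simp
    · unfold uarg pre
      rw [hi.2.2 (toC a) (hz0 a ha)]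
      simp
  have hqo : ∀ᶠ i in lf k p S, Gr (Function.invFunOn (Fm (ψn i.1) (δ i.1) (p i.1) (S i.1)
      i.2 (j i.1 i.2)) HP) f = qF (nuf f) fun a => gc (ψn i.1) (δ i.1) (p i.1) (S i.1) i.2
        (j i.1 i.2) (pre (ψn i.1) a) := by
    filter_upwards [hfl] with i hi
    have hfD : TestOn (OBSV.dm (Fm (ψn i.1) (δ i.1) (p i.1) (S i.1) i.2 (j i.1 i.2) '' HP)) f :=
      hf'.mono fun a ha => hi.1.sub (hsub ha)
    rw [← (bas_unif (slt_bas hi.1)).qF_nuf (bas_open (slt_bas hi.1)) hfD h0]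
    refine qF_congr hf' fun a ha => ?_
    exact hi.2.2 (toC a) (hz0 a ha)
  constructor
  · refine lf_unif (X := fun n h => cE (p n) (k n) (S n) h (j n h) (hf (δ n) f) +
            mF (nuf f) fun a => gc (ψn n) (δ n) (p n) (S n) h (j n h) (pre (ψn n) a)) ?_
    refine key.1.congr' ?_
    filter_upwards [hmo] with i hi
    rw [hi]
    rfl
  · refine lf_unif (X := fun n h => cE (p n) (k n) (S n) h (j n h) (fun g => hf (δ n) f g ^ 2) -
            ((mF (nuf f) fun a => gc (ψn n) (δ n) (p n) (S n) h (j n h) (pre (ψn n) a)) ^ 2 +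
            κ * qF (nuf f) fun a => gc (ψn n) (δ n) (p n) (S n) h (j n h) (pre (ψn n) a))) ?_
    refine key.2.congr' ?_
    filter_upwards [hmo, hqo] with i hi hq
    rw [hi, hq]
    rfl

end Vale.Agent.P153.R2.KAPV
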