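import Vale.Agent.P153.R2.KAPV.SWhit2
import Vale.Agent.P153.R2.OBSV.LandV
import Vale.Agent.P153.R2.LOC.Mir
import Vale.Agent.P153.R2.FLDI.Conn7
import Vale.Agent.P153.R2.FLDI.Bv

/-!
P153, block KAPV: landing with powers, part 1: the reflection of the clusters of `{h ≠ 1}` in arc
domains.
-/

set_option autoImplicit false

namespace Vale.Agent.P153.R2.KAPV

open Set Relation MeasureTheory
open Vale.Agent.P153
open Vale.Agent.P153.Topo (Conn adj_symm)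
open Vale.Agent.P153.R2.INTF (CA mem_CA CA_finite eta eta_mem eta_not eta_or Arcs)
open Vale.Agent.P153.R2.FLDI (Wc Wc_sub Wc_self Wc_next refl_in refl_out refl_ne Wc_refl refl_refl')
open Vale.Agent.P153.R2.Gp (Xu mass)
open Vale.Agent.P145.PT (TestOn bump bump_test bump_nonneg bump_zero Z0 Z0_pos)
open Vale.Agent.P153.F.Top (dp)

variable {F P M A Z : Set Pt} {h : Hg}

/-- The clusters of `{h ≠ 1}` of `A` reach `M` or `Z`. -/
def Rch (F M A Z : Set Pt) : Set Hg :=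
  {h | ∃ a ∈ A, ∃ y, Conn (F ∩ {z | h z ≠ 1}) a y ∧ (y ∈ Z ∨ ∃ m ∈ M, Adj y m)}

/-- The reflected heights. -/
noncomputable def Tf (F A : Set Pt) (h : Hg) : Hg := refl 1 (Wc F A 1 h) h

theorem mem_Rch_iff : h ∈ Rch F M A Z ↔ ∃ y ∈ Wc F A 1 h, y ∈ Z ∨ ∃ m ∈ M, Adj y m := by
  have e : {v | v ∈ F ∧ h v ≠ 1} = F ∩ {z | h z ≠ 1} := rfl
  constructor
  · rintro ⟨a, ha, y, hy, h1⟩
    exact ⟨y, ⟨a, ha, hy⟩, h1⟩
  · rintro ⟨y, ⟨a, ha, hy⟩, h1⟩
    exact ⟨a, ha, y, hy, h1⟩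

theorem Tf_Tf : Tf F A (Tf F A h) = h := by
  unfold Tf
  rw [Wc_refl]
  exact refl_refl'

theorem Wc_Tf : Wc F A 1 (Tf F A h) = Wc F A 1 h := Wc_refl

theorem Rch_Tf : Tf F A h ∈ Rch F M A Z ↔ h ∈ Rch F M A Z := by
  rw [mem_Rch_iff, mem_Rch_iff, Wc_Tf]

theorem Tf_mem (hh : h ∈ CA F M) (hf : h ∉ Rch F M A Z) : Tf F A h ∈ CA F M := by
  obtain ⟨h1, h2, h3⟩ := mem_CA.1 hh
  have hTin : ∀ {v}, v ∈ Wc F A 1 h → Tf F A h v = 2 * 1 - h v := fun hv => refl_in hv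
  have hTout : ∀ {v}, v ∉ Wc F A 1 h → Tf F A h v = h v := fun hv => refl_out hv
  have hb : ∀ v w, v ∈ Wc F A 1 h → w ∉ Wc F A 1 h → Adj v w → h w = 1 := by
    intro v w hv hw hvw
    by_cases hwF : w ∈ F
    · by_contra hc
      exact hw (Wc_next hv hvw hwF hc)
    · rw [h2 w hwF]
      refine eta_not fun hwM => hf ?_
      exact mem_Rch_iff.2 ⟨v, hv, Or.inr ⟨w, hwM, hvw⟩⟩
  refine mem_CA.2 ⟨fun v => ?_, fun v hv => ?_, fun v hv w hvw => ?_⟩
  · by_cases hv : v ∈ Wc F A 1 h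
    · rw [hTin hv]
      exact Even.sub_odd (even_two_mul 1) (h1 v)
    · rw [hTout hv]
      exact h1 v
  · have hvW : v ∉ Wc F A 1 h := fun hc => hv (Wc_sub hc).1
    rw [hTout hvW]
    exact h2 v hv
  · have h0 := h3 v hv w hvw
    by_cases hv : v ∈ Wc F A 1 h
    · by_cases hw : w ∈ Wc F A 1 h
      · rw [hTin hv, hTin hw]
        rw [abs_le] at h0 ⊢
        constructor <;> linarith [h0.1, h0.2]
      · have hc := hb v w hv hw hvw
        rw [hTin hv, hTout hw]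
        rw [hc] at h0 ⊢
        rw [abs_le] at h0 ⊢
        constructor <;> linarith [h0.1, h0.2]
    · by_cases hw : w ∈ Wc F A 1 h
      · have hc := hb w v hw hv (adj_symm hvw)
        rw [hTout hv, hTin hw]
        rw [hc] at h0 ⊢
        rw [abs_le] at h0 ⊢
        constructor <;> linarith [h0.1, h0.2]
      · rw [hTout hv, hTout hw]
        exact h0

theorem xu_Tf_far {u : Pt →₀ ℝ} (hu : ∀ v, u v ≠ 0 → v ∈ Z) (hf : h ∉ Rch F M A Z) :
    Xu u (Tf F A h) = Xu u h := by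
  unfold Xu Finsupp.sum
  refine Finset.sum_congr rfl fun v hv => ?_
  have hvZ := hu v (Finsupp.mem_support_iff.1 hv)
  have hvW : v ∉ Wc F A 1 h := fun hc => hf (mem_Rch_iff.2 ⟨v, hc, Or.inl hvZ⟩)
  show u v * (Tf F A h v : ℝ) = u v * (h v : ℝ)
  rw [show Tf F A h v = h v from refl_out hvW]

theorem xu_Tf_near {u : Pt →₀ ℝ} (hu : ∀ v, u v ≠ 0 → v ∈ F ∩ A) (h : Hg) :
    Xu u (Tf F A h) - mass u = -(Xu u h - mass u) := by
  have key : Xu u (Tf F A h) = 2 * mass u - Xu u h := by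
    unfold Xu mass Finsupp.sum
    rw [Finset.mul_sum, ← Finset.sum_sub_distrib]
    refine Finset.sum_congr rfl fun v hv => ?_
    have hvA := hu v (Finsupp.mem_support_iff.1 hv)
    have hT : Tf F A h v = 2 * 1 - h v := by
      by_cases hc : h v = 1
      · have : v ∉ Wc F A 1 h := fun hcc => (Wc_sub hcc).2 hc
        rw [show Tf F A h v = h v from refl_out this, hc]
        ring
      · exact refl_in (Wc_self hvA.1 hvA.2 hc)
    show u v * (Tf F A h v : ℝ) = 2 * u v - u v * (h v : ℝ)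
    rw [hT]
    push_cast
    ring
  rw [key]
  ring

/-- The antisymmetry off the event `Rch`. -/
theorem land_zero (hfin : (CA F M).Finite) {b f : Pt →₀ ℝ} (hb : ∀ v, b v ≠ 0 → v ∈ F ∩ A)
    (hf : ∀ v, f v ≠ 0 → v ∈ Z) (k : ℕ) :
    Ex (CA F M) (fun h => ind (Rch F M A Z)ᶜ h * ((Xu b h - mass b) * Xu f h ^ k)) = 0 := by
  rw [← Ex_inter_mul hfin]
  have hbij : BijOn (Tf F A) (CA F M ∩ (Rch F M A Z)ᶜ) (CA F M ∩ (Rch F M A Z)ᶜ) := by
    refine InvOn.bijOn (f' := Tf F A) ⟨fun h _ => Tf_Tf, fun h _ => Tf_Tf⟩ ?_ ?_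
    · exact fun h hh => ⟨Tf_mem hh.1 hh.2, fun hc => hh.2 (Rch_Tf.1 hc)⟩
    · exact fun h hh => ⟨Tf_mem hh.1 hh.2, fun hc => hh.2 (Rch_Tf.1 hc)⟩
  have h1 := FLDI.Ex_bijOn hbij fun h => (Xu b h - mass b) * Xu f h ^ k
  have h2 : Ex (CA F M ∩ (Rch F M A Z)ᶜ) (fun h =>
      (Xu b (Tf F A h) - mass b) * Xu f (Tf F A h) ^ k) =
      Ex (CA F M ∩ (Rch F M A Z)ᶜ) (fun h => -((Xu b h - mass b) * Xu f h ^ k)) := by
    refine Ex_congr fun h hh => ?_
    rw [xu_Tf_near hb, xu_Tf_far hf hh.2]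
    ring
  rw [h2, Ex_neg] at h1
  have h3 : Ex (CA F M ∩ (Rch F M A Z)ᶜ) (fun h => (Xu b h - mass b) * Xu f h ^ k) = 0 := by
    linarith
  rw [h3, mul_zero]

/-- The bound by the probability of `Rch`. -/
theorem land_bound (hfin : (CA F M).Finite) {b f : Pt →₀ ℝ} (hb : ∀ v, b v ≠ 0 → v ∈ F ∩ A)
    (hf : ∀ v, f v ≠ 0 → v ∈ Z) (k : ℕ) :
    (Ex (CA F M) fun h => (Xu b h - mass b) * Xu f h ^ k) ^ 2 ≤
      Pr (CA F M) (Rch F M A Z) *
      Ex (CA F M) (fun h => ((Xu b h - mass b) * Xu f h ^ k) ^ 2) := by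
  have h0 := land_zero hfin hb hf k
  set G : Hg → ℝ := fun h => (Xu b h - mass b) * Xu f h ^ k with hG
  set E := Rch F M A Z with hE
  have h1 : Ex (CA F M) G = Ex (CA F M) fun h => ind E h * G h := by
    have h2 : Ex (CA F M) G = Ex (CA F M) (fun h => ind E h * G h + ind Eᶜ h * G h) :=
      Ex_congr fun h _ => by
        by_cases hE' : h ∈ E <;> simp [ind, hE']
    rw [h2, Ex_add]
    have h3 : Ex (CA F M) (fun h => ind Eᶜ h * G h) = 0 := h0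
    rw [h3, add_zero]
  have h4 := Ex_mul_sq_le hfin (ind E) G
  have h5 : Ex (CA F M) (fun h => ind E h ^ 2) = Pr (CA F M) E := by
    rw [Pr_eq_Ex hfin]
    exact Ex_congr fun h _ => by
      by_cases hE' : h ∈ E <;> simp [ind, hE']
  rw [h5] at h4
  change (Ex (CA F M) G) ^ 2 ≤ Pr (CA F M) E * Ex (CA F M) (fun h => G h ^ 2)
  rw [h1]
  exact h4

end Vale.Agent.P153.R2.KAPV
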