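import Vale.Agent.P153.R2.KAPV.Slit
import Vale.Agent.P153.R2.KAPV.SMom

/-!
P153, block KAPV: moments of the averages of the heights over boxes at the scale of the distance to
the walls, uniformly in the domain.
-/

set_option autoImplicit false

namespace Vale.Agent.P153.R2.KAPV

open Set Relation MeasureTheory
open Vale.Agent.P153
open Vale.Agent.P153.A (IsQ rc Om)
open Vale.Agent.P153.GFF (Plane SpecOut RowCLT)
open Vale.Agent.P153.Topo (Conn)
open Vale.Agent.P153.F (muT)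
open Vale.Agent.P153.F.X (S_rsw S_mom S_emom S_loc S_conf)
open Vale.Agent.P153.R2.NH (OO UU VV)
open Vale.Agent.P153.R2.RINS (XC DepOn)
open Vale.Agent.P153.R2.Gp (Xu On HasAnn)
open Vale.Agent.P153.R2.F2 (Cx rem lv fib RV)

theorem xu_dep {u : Pt →₀ ℝ} {W : Set Pt} (hu : ∀ v, u v ≠ 0 → v ∈ W) (g : ℝ → ℝ) :
    DepOn W fun h => g (Xu u h) := by
  intro h h' hh
  have : Xu u h = Xu u h' := by
    unfold Xu Finsupp.sum
    exact Finset.sum_congr rfl fun x hx => by
      simp only [hh x (hu x (Finsupp.mem_support_iff.1 hx))]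
  simp only [this]

/-- Moments in a box, constant exact data. -/
theorem box_mom {P : Measure (Pt → ℤ)} (hP : GFF.Plane P) (hMom : S_mom P) (hE : S_emom P)
    (hR : S_rsw P) (hL : S_loc) (hF : S_conf) (N : ℤ) (hN : 1 ≤ N) (K : ℝ) (hK : 0 < K) (k : ℕ) :
    ∃ C : ℝ, 0 ≤ C ∧ ∃ s₀ : ℤ, 1 ≤ s₀ ∧ ∀ s, s₀ ≤ s → ∀ (w : Pt) (W : Set Pt),
      W ⊆ R2.bx w (N * s) → ∀ c : ℤ, Odd c → ∀ u : Pt →₀ ℝ,
      (∀ v, 0 ≤ u v ∧ u v ≤ K / (s : ℝ) ^ 2) → (∀ v, u v ≠ 0 → v ∈ W) →
      Ex (XC W fun _ => c) (fun h => Xu u h ^ (2 * k)) ≤ C * (|(c : ℝ)| + 1) ^ (2 * k) := by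
  classical
  have hN' : (1 : ℝ) ≤ N := by exact_mod_cast hN
  obtain ⟨C, hC, s₀, hs₀, hs⟩ := Gp.mom_open hP hMom hE hR hL hF (max K (2 * N + 20)) k
    (lt_max_of_lt_left hK)
  refine ⟨C, hC, s₀, hs₀, fun s hss w W hW c hc u hu huW => ?_⟩
  have hs1 : 1 ≤ s := hs₀.trans hss
  have hs1' : (1 : ℝ) ≤ s := by exact_mod_cast hs1
  have hWf : W.Finite := (PLAN.bx_finite _ _).subset hW
  set p : Pt := (w.1 + (N + 9) * s, w.2) with hp
  set S : Finset Pt := (PLAN.bx_finite p (8 * s)).toFinset ∪ (ebd_finite hWf).toFinset with hS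
  have memS : ∀ x, x ∈ S ↔ x ∈ R2.bx p (8 * s) ∨ x ∈ ebd W := fun x => by
    rw [hS, Finset.mem_union, Set.Finite.mem_toFinset, Set.Finite.mem_toFinset]
  have hann : HasAnn S p (4 * s) := fun x hx _ => (memS x).2 (Or.inl (by
    have : F.X.bx p (2 * (4 * s)) = R2.bx p (8 * s) := by
      rw [show 2 * (4 * s) = 8 * s by ring]; rfl
    rw [← this]; exact hx))
  have hdisj : ∀ x, x ∈ R2.bx w (N * s) → x ∉ R2.bx p (8 * s) := by
    rintro x ⟨h1, -⟩ ⟨h2, -⟩
    rw [abs_le] at h1 h2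
    rw [hp] at h2
    simp only at h2
    nlinarith
  have hpS : p ∈ S := (memS p).2 (Or.inl ⟨by simp; omega, by simp; omega⟩)
  have hSW : ∀ x ∈ S, x ∉ W := by
    intro x hx hxW
    rcases (memS x).1 hx with h | h
    · exact hdisj x (hW hxW) h
    · exact h.1 hxW
  have hsupp : ∀ v, u v ≠ 0 → |((v.1 - p.1 : ℤ) : ℝ)| ≤ max K (2 * N + 20) * s ∧
      |((v.2 - p.2 : ℤ) : ℝ)| ≤ max K (2 * N + 20) * s := by
    intro v hv
    obtain ⟨h1, h2⟩ := hW (huW v hv)
    have h3 : (2 * (N : ℝ) + 20) * s ≤ max K (2 * N + 20) * s :=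
      mul_le_mul_of_nonneg_right (le_max_right _ _) (by linarith)
    have h4 : |v.1 - p.1| ≤ (2 * N + 20) * s := by
      rw [abs_le] at h1 ⊢
      rw [hp]
      simp only
      constructor <;> nlinarith
    have h5 : |v.2 - p.2| ≤ (2 * N + 20) * s := by
      rw [abs_le] at h2 ⊢
      rw [hp]
      simp only
      constructor <;> nlinarith
    constructor
    · refine le_trans ?_ h3
      exact_mod_cast h4
    · refine le_trans ?_ h3
      exact_mod_cast h5
  have key := hs s hss p u (fun v => ⟨(hu v).1, (hu v).2.trans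
    (div_le_div_of_nonneg_right (le_max_left _ _) (by positivity))⟩) hsupp
    (fun v hv => hdisj v (hW (huW v hv))) S hann |c| (abs_nonneg c) (fun _ => {c})
    (fun x _ a ha => by rw [mem_singleton_iff.1 ha])
  have hint := Gp.closed_int hP hWf (g := fun _ => c) (fun _ => hc) (S := S) ⟨p, hpS⟩ hSW
    (fun x hx => (memS x).2 (Or.inr hx)) (xu_dep huW fun y => y ^ (2 * k))
  have hpos : 0 < (muT P).real (On S fun _ => {c}) :=
    Gp.on_pos hP hR hF (M := c.natAbs) (η := fun _ => c) ⟨⟨fun _ => hc, fun _ _ _ => by simp⟩,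
      fun _ => by push_cast; have := abs_nonneg c; omega⟩ ⟨p, hpS⟩
  rw [hint] at key
  have h6 := le_of_mul_le_mul_right key hpos
  refine h6.trans (le_of_eq ?_)
  push_cast
  ring

/-! ### Exploration of the high clusters from the outside of a box -/

/-- The remaining domain. -/
def rmn (V B : Set Pt) (a : ℤ) (h : Hg) : Set Pt := V ∩ rem B (fun n => a < n) h

theorem ebd_rmn {V B : Set Pt} {a : ℤ} {h : Hg} (h1 : ∀ x, x ∉ V → h x ≤ a) {x : Pt}
    (hx : x ∈ ebd (rmn V B a h)) : h x ≤ a := by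
  by_cases hxV : x ∈ V
  · obtain ⟨hx1, y, hy, hyx⟩ := hx
    have h2 : x ∈ ebd (rem B (fun n => a < n) h) := ⟨fun hc => hx1 ⟨hxV, hc⟩, y, hy.2, hyx⟩
    exact not_lt.1 (F2.ebd_rem h2).2.1
  · exact h1 x hxV

theorem rmn_sub {V B : Set Pt} {a : ℤ} {h : Hg} : rmn V B a h ⊆ V ∩ B := fun _ hx =>
  ⟨hx.1, F2.rem_sub _ _ _ hx.2⟩

theorem rmn_fibre {V B : Set Pt} {a : ℤ} {η h : Hg} (hh : h ∈ Cx V η) :
    Cx V η ∩ {g | fib B (fun n => a < n) g = fib B (fun n => a < n) h} = Cx (rmn V B a h) h := by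
  rw [← F2.Cx_agree hh (rmn_sub.trans inter_subset_left)]
  ext g
  simp only [mem_inter_iff, mem_ofPred_eq, F2.fib_iff]
  refine and_congr_right fun hg => ⟨fun h1 x hx => ?_, fun h1 x hx => h1 x fun hc => hx hc.2⟩
  by_cases hxV : x ∈ V
  · exact h1 x fun hc => hx ⟨hxV, hc⟩
  · rw [F2.Cx_out hg hxV, F2.Cx_out hh hxV]

/-- The box is not reached. -/
def Gd (B T : Set Pt) (a : ℤ) : Set Hg := {h | ∀ z ∈ T, z ∈ rem B (fun n => a < n) h}

/-- The part `max (X, 0) ^ (2 k)`. -/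
theorem pos_mono {u : Pt →₀ ℝ} (hu : ∀ v, 0 ≤ u v) (k : ℕ) :
    Monotone fun h : Hg => max (Xu u h) 0 ^ (2 * k) := fun _ _ hgh =>
  pow_le_pow_left₀ (le_max_right _ _) (max_le_max_right _ (Gp.xu_mono hu hgh)) _

/-- Data below `a`: comparison with the constant data `a`. -/
theorem le_const {W : Set Pt} (hW : W.Finite) {a : ℤ} (ha : Odd a) {h : Hg} (hh : h ∈ Cx W h)
    (hb : ∀ x ∈ ebd W, h x ≤ a) {F : Hg → ℝ} (hF : Monotone F) (hd : DepOn W F) :
    Ex (Cx W h) F ≤ Ex (XC W fun _ => a) F := by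
  classical
  set g : Hg := fun x => if x ∈ ebd W then a else h x with hg
  have hodd : ∀ x, Odd (g x) := fun x => by
    simp only [hg]
    split_ifs
    · exact ha
    · exact hh.1 x
  have h1 : Ex (Cx W h) F ≤ Ex (XC W g) F := by
    refine Cfg_le (F2.dat_exa hW h) (F2.dat_exa hW g) ⟨h, hh⟩
      ⟨fun x => if x ∈ W then a else g x, ?_⟩ (fun x => ?_) F hF
    · refine F2.mem_Cx.2 ⟨fun x => ?_, fun x hx => if_neg hx, fun x hx y hxy => ?_⟩
      · split_ifs
        · exact ha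
        · exact hodd x
      · rw [if_pos hx]
        by_cases hy : y ∈ W
        · rw [if_pos hy]; simp
        · rw [if_neg hy]
          have : g y = a := if_pos ⟨hy, x, hx, hxy⟩
          rw [this]; simp
    · by_cases hx : x ∈ W
      · rw [F2.exa_in hx, F2.exa_in hx]
        exact SLe.refl _
      · rw [F2.exa_out hx, F2.exa_out hx]
        intro b hb' c hc'
        rw [mem_singleton_iff] at hb' hc'
        have hle : b ≤ c := by
          rw [hb', hc']
          simp only [hg]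
          split_ifs with hxe
          · exact hb x hxe
          · exact le_rfl
        rw [min_eq_left hle, max_eq_right hle, hb', hc']
        exact ⟨rfl, rfl⟩
  have h2 : Ex (XC W g) F = Ex (XC W fun _ => a) F :=
    RINS.XC_irr hodd (fun _ => ha) (fun x hx => if_pos hx) hd
  rw [h2] at h1
  exact h1

/-- The conditional bound. -/
theorem cond {V B T : Set Pt} (hV : V.Finite) {a : ℤ} (ha : Odd a) (ha1 : 1 ≤ a)
    {u : Pt →₀ ℝ} (hu : ∀ v, 0 ≤ u v) (huV : ∀ v, u v ≠ 0 → v ∈ V) (huT : ∀ v, u v ≠ 0 → v ∈ T)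
    (k : ℕ) {D : ℝ} (hD : 0 ≤ D)
    (hb : ∀ W : Set Pt, W ⊆ V ∩ B → (∀ v, u v ≠ 0 → v ∈ W) →
      Ex (XC W fun _ => a) (fun h => Xu u h ^ (2 * k)) ≤ D) :
    Ex (Cx V fun _ => 1) (fun h => ind (Gd B T a) h * max (Xu u h) 0 ^ (2 * k)) ≤ D := by
  classical
  have hfin := F2.Cx_finite hV (fun _ => (1 : ℤ))
  have hG : ∀ g h : Hg, fib B (fun n => a < n) g = fib B (fun n => a < n) h →
      (g ∈ Gd B T a ↔ h ∈ Gd B T a) := by
    intro g h hgh
    have : rem B (fun n => a < n) g = rem B (fun n => a < n) h := congrArg Prod.fst hgh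
    unfold Gd
    rw [mem_ofPred_eq, mem_ofPred_eq, this]
  have key := Ex_le_of_fiber hfin (fib B (fun n => a < n))
    (fun h => ind (Gd B T a) h * max (Xu u h) 0 ^ (2 * k)) (fun _ => D) (fun _ _ _ _ _ => rfl)
    (fun h hh => ?_)
  · refine key.trans ?_
    exact Ex_le_const hD fun _ _ => le_rfl
  by_cases hGh : h ∈ Gd B T a
  · have e1 : Ex (Cx V (fun _ => 1) ∩ {b | fib B (fun n => a < n) b = fib B (fun n => a < n) h})
        (fun h => ind (Gd B T a) h * max (Xu u h) 0 ^ (2 * k)) =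
        Ex (Cx V (fun _ => 1) ∩ {b | fib B (fun n => a < n) b = fib B (fun n => a < n) h})
          (fun h => max (Xu u h) 0 ^ (2 * k)) := by
      refine Ex_congr fun g hg => ?_
      have : g ∈ Gd B T a := (hG g h hg.2).2 hGh
      unfold ind
      rw [if_pos this, one_mul]
    rw [e1, rmn_fibre hh]
    have hWV : rmn V B a h ⊆ V ∩ B := rmn_sub
    have hWf : (rmn V B a h).Finite := hV.subset (hWV.trans inter_subset_left)
    have huW : ∀ v, u v ≠ 0 → v ∈ rmn V B a h := fun v hv => ⟨huV v hv, hGh v (huT v hv)⟩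
    refine (le_const hWf ha (F2.self_mem_Cx hh (hWV.trans inter_subset_left))
      (fun x hx => ebd_rmn (fun y hy => ?_) hx) (pos_mono hu k)
      (xu_dep huW fun y => max y 0 ^ (2 * k))).trans ?_
    · rw [F2.Cx_out hh hy]; exact ha1
    · refine le_trans (Ex_mono fun g _ => ?_) (hb _ hWV huW)
      rcases le_total 0 (Xu u g) with h2 | h2
      · rw [max_eq_left h2]
      · rw [max_eq_right h2]
        rcases Nat.eq_zero_or_pos k with rfl | hk
        · simp
        · rw [zero_pow (by omega)]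
          exact (even_two_mul k).pow_nonneg _
  · have e1 : Ex (Cx V (fun _ => 1) ∩ {b | fib B (fun n => a < n) b = fib B (fun n => a < n) h})
        (fun h => ind (Gd B T a) h * max (Xu u h) 0 ^ (2 * k)) =
        Ex (Cx V (fun _ => 1) ∩ {b | fib B (fun n => a < n) b = fib B (fun n => a < n) h})
          (fun _ => 0) := by
      refine Ex_congr fun g hg => ?_
      have : g ∉ Gd B T a := fun hc => hGh ((hG g h hg.2).1 hc)
      unfold ind
      rw [if_neg this, zero_mul]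
    rw [e1, Ex_zero]
    exact hD

/-- If the small box is reached there is a crossing. -/
theorem crs_of {V : Set Pt} {p : Pt} {s R : ℤ} (hsR : s + 1 ≤ R) {a : ℤ} {h : Hg}
    (h1 : ∀ x, x ∉ V → h x ≤ a) (hG : h ∉ Gd (R2.bx p R) (R2.bx p s) a) :
    Crs p (s + 1) (R - 1) (UU V h a) := by
  unfold Gd at hG
  simp only [mem_ofPred_eq, not_forall] at hG
  obtain ⟨z, hz, hzr⟩ := hG
  have hzn : z ∈ nb (RV (R2.bx p R) (lv (fun n => a < n) h)) := not_not.1 hzr
  -- a vertex of the explored set close to the box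
  obtain ⟨y, hy, hys⟩ : ∃ y ∈ RV (R2.bx p R) (lv (fun n => a < n) h), y ∈ R2.bx p (s + 1) := by
    rcases hzn with hz1 | ⟨-, y, hy, hyz⟩
    · exact ⟨z, hz1, PLAN.bx_mono (by omega) hz⟩
    · refine ⟨y, hy, ?_⟩
      have h2 := Topo.adj_iff.1 hyz
      obtain ⟨h3, h4⟩ := hz
      rw [abs_le] at h3 h4
      constructor <;> rw [abs_le] <;> omega
  obtain ⟨o, ho, hoy⟩ := hy
  have hyB : y ∈ R2.bx p R := PLAN.bx_mono hsR hys
  obtain ⟨u', o', k1, k2, k3, k4⟩ := PLAN.first_exit (V := R2.bx p R) hyB ho hoy.symm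
  refine ⟨y, hys, u', fun hc => k4 ?_, k1.mono ?_⟩
  · have h2 := Topo.adj_iff.1 k2
    obtain ⟨h3, h4⟩ := hc
    rw [abs_le] at h3 h4
    constructor <;> rw [abs_le] <;> omega
  · rintro x ⟨hx | hx, hxB⟩
    · exact absurd hxB hx
    · have hx' : a < h x := hx
      by_cases hxV : x ∈ V
      · exact NH.mem_UU_of_lt hxV hx'
      · have := h1 x hxV
        omega

/-- The probability that the small box is reached, constant data `1`. -/
theorem pr_gd {V : Set Pt} (hV : V.Finite) {p : Pt} {s R : ℤ} (hsR : s + 1 ≤ R) {n : ℕ} {q : ℝ}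
    (hq : Pr (Cfg V (frd V 0)) {h | Crs p (s + 1) (R - 1) (UU V h (4 * n + 1))} ≤ q) :
    Pr (Cx V fun _ => 1) (Gd (R2.bx p R) (R2.bx p s) (4 * n + 3))ᶜ ≤ q := by
  refine le_trans ?_ hq
  have h2 : Even (2 : ℤ) := by decide
  have e := NH.Pr_shift (V := V) (a := 4 * (n : ℤ) + 1) h2 hV (Crs p (s + 1) (R - 1))
  rw [← e]
  have e3 : 4 * (n : ℤ) + 1 + 2 = 4 * n + 3 := by ring
  rw [e3]
  have h3 : Pr (Cx V fun _ => 1) (Gd (R2.bx p R) (R2.bx p s) (4 * n + 3))ᶜ ≤
      Pr (Cx V fun _ => 1) {h | Crs p (s + 1) (R - 1) (UU V h (4 * n + 3))} := by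
    refine Pr_mono fun h hh hc => crs_of hsR (fun x hx => ?_) hc
    rw [F2.Cx_out hh hx]
    omega
  refine h3.trans ?_
  rw [Pr_eq_Ex (F2.Cx_finite hV _), Pr_eq_Ex (Cfg_finite (NH.dat_frd hV 2))]
  refine Cfg_le (F2.dat_exa hV _) (NH.dat_frd hV 2) (SDAR.cfg_exa_ne fun _ => Or.inl rfl)
    ⟨_, NH.const_mem_frd h2⟩ (SDAR.exa_sle_two fun _ => Or.inl rfl) _ fun g g' hgg => ?_
  have h5 : UU V g (4 * n + 3) ⊆ UU V g' (4 * n + 3) := NH.UU_mono hgg le_rfl
  unfold ind
  by_cases h6 : Crs p (s + 1) (R - 1) (UU V g (4 * n + 3))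
  · rw [if_pos (show g ∈ {h | Crs p (s + 1) (R - 1) (UU V h (4 * n + 3))} from h6),
      if_pos (show g' ∈ {h | Crs p (s + 1) (R - 1) (UU V h (4 * n + 3))} from h6.mono h5)]
  · rw [if_neg (show g ∉ {h | Crs p (s + 1) (R - 1) (UU V h (4 * n + 3))} from h6)]
    split_ifs <;> norm_num

/-- For high levels the box is never reached. -/
theorem exists_gd {V : Set Pt} (hV : V.Finite) {p : Pt} {s R : ℤ} (hsR : s + 1 ≤ R) :
    ∃ n : ℕ, ∀ h ∈ Cx V (fun _ => 1), h ∈ Gd (R2.bx p R) (R2.bx p s) (4 * n + 3) := by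
  have hfin := F2.Cx_finite hV (fun _ => (1 : ℤ))
  obtain ⟨N, hN⟩ := (hfin.biUnion fun h _ => hV.image h).bddAbove
  refine ⟨N.toNat, fun h hh z hz => ?_⟩
  have hle : ∀ x, h x ≤ 4 * (N.toNat : ℤ) + 3 := by
    intro x
    by_cases hx : x ∈ V
    · have h1 := hN (mem_biUnion hh (mem_image_of_mem h hx))
      have := Int.self_le_toNat N
      omega
    · rw [F2.Cx_out hh hx]; omega
  have hRV : ∀ y ∈ RV (R2.bx p R) (lv (fun n => 4 * (N.toNat : ℤ) + 3 < n) h), y ∉ R2.bx p R := by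
    intro y hy
    rcases F2.RV_sub _ _ hy with h1 | h1
    · exact h1
    · have h2 : 4 * (N.toNat : ℤ) + 3 < h y := h1
      have := hle y
      omega
  rintro (h1 | ⟨-, y, hy, hyz⟩)
  · exact hRV z h1 (PLAN.bx_mono (by omega) hz)
  · refine hRV y hy ?_
    have h2 := Topo.adj_iff.1 hyz
    obtain ⟨h3, h4⟩ := hz
    rw [abs_le] at h3 h4
    constructor <;> rw [abs_le] <;> omega

end Vale.Agent.P153.R2.KAPV
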