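import Vale.Agent.P153.R2.KAPV.SWhit

/-!
P153, block KAPV: `L_vb`, the moments at the scale of the distance to the walls.
-/

set_option autoImplicit false

namespace Vale.Agent.P153.R2.KAPV

open Set Relation MeasureTheory
open Vale.Agent.P153
open Vale.Agent.P153.A (IsQ rc Om)
open Vale.Agent.P153.GFF (Plane SpecOut RowCLT)
open Vale.Agent.P153.Topo (Conn)
open Vale.Agent.P153.F (muT)
open Vale.Agent.P153.F.X (S_rsw S_mom S_emom S_loc S_conf)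
open Vale.Agent.P153.R2.NH (OO UU VV)
open Vale.Agent.P153.R2.RINS (XC DepOn)
open Vale.Agent.P153.R2.Gp (Xu On HasAnn)
open Vale.Agent.P153.R2.F2 (Cx rem lv fib RV ng)

variable {Q : Measure Om}

theorem ind_sq {α : Type*} (A : Set α) (a : α) : ind A a ^ 2 = ind A a := by
  unfold ind
  split_ifs <;> norm_num

theorem ind_nonneg' {α : Type*} (A : Set α) (a : α) : 0 ≤ ind A a := by
  unfold ind
  split_ifs <;> norm_num

/-- Telescoping. -/
theorem tele {S : Set Hg} {Y : Hg → ℝ} (hY : ∀ h, 0 ≤ Y h) (G : ℕ → Set Hg)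
    {b : ℕ → ℝ} (hb : ∀ n, 0 ≤ b n) (hbs : Summable b) {F₀ : ℝ}
    (h0 : Ex S (fun h => ind (G 0) h * Y h) ≤ F₀)
    (h1 : ∀ n, Ex S (fun h => ind (G (n + 1)) h * Y h * ind (G n)ᶜ h) ≤ b n)
    (h2 : ∃ n, ∀ h ∈ S, h ∈ G n) : Ex S Y ≤ F₀ + ∑' n, b n := by
  have key : ∀ n, Ex S (fun h => ind (G n) h * Y h) ≤ F₀ + ∑ i ∈ Finset.range n, b i := by
    intro n
    induction n with
    | zero => simpa using h0
    | succ n ih =>
      rw [Finset.sum_range_succ, ← add_assoc]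
      refine le_trans ?_ (add_le_add ih (h1 n))
      rw [← Ex_add]
      refine Ex_mono fun h _ => ?_
      have h3 : ind (G n)ᶜ h = 1 - ind (G n) h := by
        unfold ind
        by_cases h4 : h ∈ G n <;> simp [h4]
      rw [h3]
      have h5 : ind (G (n + 1)) h ≤ 1 := by unfold ind; split_ifs <;> norm_num
      have h6 := ind_nonneg' (G n) h
      nlinarith [mul_nonneg h6 (hY h), mul_nonneg (sub_nonneg.2 h5) (mul_nonneg h6 (hY h))]
  obtain ⟨n, hn⟩ := h2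
  have h3 : Ex S Y = Ex S (fun h => ind (G n) h * Y h) := Ex_congr fun h hh => by
    unfold ind
    rw [if_pos (hn h hh), one_mul]
  rw [h3]
  refine (key n).trans ?_
  have := hbs.sum_le_tsum (Finset.range n) fun i _ => hb i
  linarith

/-- The positive part, constant data `1`. -/
theorem pos_bd {κ : ℝ} (hQ : IsQ Q) (hP : Plane (Q.map rc)) (hS : SpecOut (Q.map rc) κ)
    (hC : RowCLT (Q.map rc) κ) (hκ : 0 < κ) (hR : S_rsw (Q.map rc)) (hMom : S_mom (Q.map rc))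
    (hE : S_emom (Q.map rc)) (k : ℕ) (K : ℝ) (hK : 0 < K) :
    ∃ C : ℝ, 0 ≤ C ∧ ∃ s₀ : ℤ, 1 ≤ s₀ ∧ ∀ s, s₀ ≤ s → ∀ (p : Pt) (V : Set Pt), V.Finite → CC V →
      (∃ w ∈ R2.bx p (s + 1), w ∉ V) → ∀ u : Pt →₀ ℝ,
      (∀ v, 0 ≤ u v ∧ u v ≤ K / (s : ℝ) ^ 2) → (∀ v, u v ≠ 0 → v ∈ V) →
      (∀ v, u v ≠ 0 → v ∈ R2.bx p s) →
      Ex (Cx V fun _ => 1) (fun h => max (Xu u h) 0 ^ (2 * k)) ≤ C := by
  obtain ⟨M, hM, s₁, hs₁, hcr⟩ := cross_pow hQ hP hS hC hκ hR (ε := 1 / 4) (by norm_num)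
  have hM1 : (1 : ℤ) ≤ M := by exact_mod_cast hM
  set N : ℤ := 8 * M + 1 with hN
  obtain ⟨C1, hC1, s₂, hs₂, hb1⟩ := box_mom hP hMom hE hR F.X.s_loc F.X.s_conf N (by omega) K hK k
  obtain ⟨C2, hC2, s₃, hs₃, hb2⟩ := box_mom hP hMom hE hR F.X.s_loc F.X.s_conf N (by omega) K hK
    (2 * k)
  set b : ℕ → ℝ := fun n => Real.sqrt C2 * 8 ^ (2 * k) *
    (((n + 1 : ℕ) : ℝ) ^ (2 * k) * (1 / 2) ^ (n + 1)) with hb
  have hb0 : ∀ n, 0 ≤ b n := fun n => by simp only [hb]; positivity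
  have hbs : Summable b := by
    refine Summable.mul_left _ ?_
    have h1 := summable_pow_mul_geometric_of_norm_lt_one (R := ℝ) (2 * k)
      (show ‖(1 / 2 : ℝ)‖ < 1 by norm_num)
    exact (summable_nat_add_iff 1).2 h1
  refine ⟨C1 * 4 ^ (2 * k) + ∑' n, b n, by
    have : 0 ≤ ∑' n, b n := tsum_nonneg hb0
    positivity, max s₁ (max s₂ s₃), le_max_of_le_left hs₁,
    fun s hs p V hV hCC hw u hu huV hup => ?_⟩
  have hs1 : s₁ ≤ s := (le_max_left _ _).trans hs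
  have hs2 : s₂ ≤ s := (le_max_left _ _).trans ((le_max_right _ _).trans hs)
  have hs3 : s₃ ≤ s := (le_max_right _ _).trans ((le_max_right _ _).trans hs)
  have hs4 : 1 ≤ s := hs₁.trans hs1
  set R : ℤ := 4 * M * (s + 1) + 1 with hRd
  have hsR : s + 1 ≤ R := by rw [hRd]; nlinarith
  have hRN : R ≤ N * s := by rw [hRd, hN]; nlinarith
  have hfin := F2.Cx_finite hV (fun _ => (1 : ℤ))
  have hu0 : ∀ v, 0 ≤ u v := fun v => (hu v).1
  have hbW : ∀ W : Set Pt, W ⊆ V ∩ R2.bx p R → W ⊆ R2.bx p (N * s) := fun W hW x hx =>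
    PLAN.bx_mono hRN (hW hx).2
  have hodd : ∀ n : ℕ, Odd (4 * (n : ℤ) + 3) := fun n => ⟨2 * n + 1, by ring⟩
  -- the conditional bounds
  have c1 : ∀ n : ℕ, Ex (Cx V fun _ => 1) (fun h => ind (Gd (R2.bx p R) (R2.bx p s) (4 * n + 3)) h *
      max (Xu u h) 0 ^ (2 * k)) ≤ C1 * (4 * n + 4) ^ (2 * k) := by
    intro n
    refine cond hV (hodd n) (by omega) hu0 huV hup k (by positivity) fun W hW huW => ?_
    have h1 := hb1 s hs2 p W (hbW W hW) (4 * n + 3) (hodd n) u hu huW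
    refine h1.trans (le_of_eq ?_)
    push_cast
    rw [abs_of_nonneg (by positivity)]
    ring
  have c2 : ∀ n : ℕ, Ex (Cx V fun _ => 1) (fun h => ind (Gd (R2.bx p R) (R2.bx p s) (4 * n + 3)) h *
      max (Xu u h) 0 ^ (2 * (2 * k))) ≤ C2 * (4 * n + 4) ^ (2 * (2 * k)) := by
    intro n
    refine cond hV (hodd n) (by omega) hu0 huV hup (2 * k) (by positivity) fun W hW huW => ?_
    have h1 := hb2 s hs3 p W (hbW W hW) (4 * n + 3) (hodd n) u hu huW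
    refine h1.trans (le_of_eq ?_)
    push_cast
    rw [abs_of_nonneg (by positivity)]
    ring
  refine tele (fun h => pow_nonneg (le_max_right _ _) _)
    (fun n => Gd (R2.bx p R) (R2.bx p s) (4 * (n : ℤ) + 3)) hb0 hbs ?_ (fun n => ?_)
    (exists_gd hV hsR)
  · have := c1 0
    simpa using this
  · set Z : Hg → ℝ := fun h => ind (Gd (R2.bx p R) (R2.bx p s) (4 * ((n + 1 : ℕ) : ℤ) + 3)) h *
      max (Xu u h) 0 ^ (2 * k) with hZ
    set Wc : Hg → ℝ := fun h => ind (Gd (R2.bx p R) (R2.bx p s) (4 * (n : ℤ) + 3))ᶜ h with hWc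
    have h1 := Ex_mul_sq_le hfin Z Wc
    have h2 : Ex (Cx V fun _ => 1) (fun h => Z h ^ 2) ≤ C2 * (4 * n + 8) ^ (2 * (2 * k)) := by
      have h3 := c2 (n + 1)
      have e1 : (4 * ((n + 1 : ℕ) : ℝ) + 4) = 4 * n + 8 := by push_cast; ring
      rw [e1] at h3
      refine le_trans (le_of_eq (Ex_congr fun h _ => ?_)) h3
      simp only [hZ]
      rw [mul_pow, ind_sq, ← pow_mul]
      congr 2
      ring
    have h3 : Ex (Cx V fun _ => 1) (fun h => Wc h ^ 2) ≤ (1 / 4) ^ (n + 1) := by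
      have e2 : Ex (Cx V fun _ => 1) (fun h => Wc h ^ 2) =
          Pr (Cx V fun _ => 1) (Gd (R2.bx p R) (R2.bx p s) (4 * (n : ℤ) + 3))ᶜ := by
        rw [Pr_eq_Ex hfin]
        exact Ex_congr fun h _ => ind_sq _ _
      rw [e2]
      refine pr_gd hV hsR ?_
      have e3 : R - 1 = 4 * M * (s + 1) := by rw [hRd]; ring
      rw [e3]
      exact hcr (s + 1) (by omega) p V hV hCC hw n
    have h4 : 0 ≤ Ex (Cx V fun _ => 1) (fun h => Wc h ^ 2) := Ex_nonneg fun h _ => sq_nonneg _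
    set Bn : ℝ := Real.sqrt C2 * (4 * n + 8) ^ (2 * k) * (1 / 2) ^ (n + 1) with hBn
    have hBn0 : 0 ≤ Bn := by positivity
    have h5 : (Ex (Cx V fun _ => 1) (fun h => Z h * Wc h)) ^ 2 ≤ Bn ^ 2 := by
      refine h1.trans ((mul_le_mul h2 h3 h4 (by positivity)).trans (le_of_eq ?_))
      rw [hBn, mul_pow, mul_pow, Real.sq_sqrt hC2, ← pow_mul, ← pow_mul]
      have e4 : ((1 : ℝ) / 4) ^ (n + 1) = (1 / 2) ^ ((n + 1) * 2) := by
        rw [pow_mul', show ((1 : ℝ) / 2) ^ 2 = 1 / 4 by norm_num]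
      rw [e4]
      congr 2
      ring
    have h6 := (abs_le_of_sq_le_sq' h5 hBn0).2
    refine h6.trans ?_
    simp only [hb, hBn]
    rw [mul_assoc, mul_assoc (Real.sqrt C2)]
    refine mul_le_mul_of_nonneg_left ?_ (Real.sqrt_nonneg _)
    rw [← mul_assoc, ← mul_pow]
    refine mul_le_mul_of_nonneg_right (pow_le_pow_left₀ (by positivity) ?_ _) (by positivity)
    push_cast
    linarith [Nat.cast_nonneg (α := ℝ) n]

/-- **Moments at the scale of the distance to the walls**, exact data `±1`. -/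
theorem whit_lat {κ : ℝ} (hQ : IsQ Q) (hP : Plane (Q.map rc)) (hS : SpecOut (Q.map rc) κ)
    (hC : RowCLT (Q.map rc) κ) (hκ : 0 < κ) (hR : S_rsw (Q.map rc)) (hMom : S_mom (Q.map rc))
    (hE : S_emom (Q.map rc)) (k : ℕ) (K : ℝ) (hK : 0 < K) :
    ∃ C : ℝ, 0 ≤ C ∧ ∃ s₀ : ℤ, 1 ≤ s₀ ∧ ∀ s, s₀ ≤ s → ∀ (p : Pt) (V : Set Pt), V.Finite → CC V →
      (∃ w ∈ R2.bx p (s + 1), w ∉ V) → ∀ η : Hg, (∀ x, η x = 1 ∨ η x = -1) → ∀ u : Pt →₀ ℝ,
      (∀ v, 0 ≤ u v ∧ u v ≤ K / (s : ℝ) ^ 2) → (∀ v, u v ≠ 0 → v ∈ V) →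
      (∀ v, u v ≠ 0 → v ∈ R2.bx p s) →
      Ex (Cx V η) (fun h => Xu u h ^ (2 * k)) ≤ C := by
  obtain ⟨C, hC0, s₀, hs₀, hb⟩ := pos_bd hQ hP hS hC hκ hR hMom hE k K hK
  refine ⟨C + C, by positivity, s₀, hs₀, fun s hs p V hV hCC hw η hη u hu huV hup => ?_⟩
  have h1 := hb s hs p V hV hCC hw u hu huV hup
  have hu0 : ∀ v, 0 ≤ u v := fun v => (hu v).1
  have le1 : ∀ η : Hg, (∀ x, η x = 1 ∨ η x = -1) →
      Ex (Cx V η) (fun h => max (Xu u h) 0 ^ (2 * k)) ≤ C := by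
    intro η hη
    refine le_trans ?_ h1
    refine Cfg_le (F2.dat_exa hV η) (F2.dat_exa hV _) (SDAR.cfg_exa_ne hη)
      (SDAR.cfg_exa_ne fun _ => Or.inl rfl) (fun x => ?_) _ (pos_mono hu0 k)
    by_cases hx : x ∈ V
    · rw [F2.exa_in hx, F2.exa_in hx]
      exact SLe.refl _
    · rw [F2.exa_out hx, F2.exa_out hx]
      intro b hb' c hc'
      rw [mem_singleton_iff] at hb' hc'
      have hle : b ≤ c := by
        rw [hb', hc']
        rcases hη x with h | h <;> rw [h]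
        norm_num
      rw [min_eq_left hle, max_eq_right hle, hb', hc']
      exact ⟨rfl, rfl⟩
  have hng : ∀ h : Hg, Xu u (ng h) = - Xu u h := by
    intro h
    unfold Xu Finsupp.sum ng
    rw [← Finset.sum_neg_distrib]
    refine Finset.sum_congr rfl fun x _ => ?_
    push_cast
    ring
  have h2 := le1 η hη
  have h3 := le1 (ng η) fun x => by
    unfold ng
    rcases hη x with h | h <;> rw [h] <;> norm_num
  rw [Ex_bij ng (F2.ng_bij V η)] at h3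
  simp only [hng] at h3
  refine le_trans ?_ (add_le_add h2 h3)
  rw [← Ex_add]
  refine Ex_mono fun h _ => ?_
  rcases le_total 0 (Xu u h) with h4 | h4
  · rw [max_eq_left h4]
    exact le_add_of_nonneg_right (pow_nonneg (le_max_right _ _) _)
  · rw [max_eq_left (neg_nonneg.2 h4), (even_two_mul k).neg_pow]
    exact le_add_of_nonneg_left (pow_nonneg (le_max_right _ _) _)

/-! ### The plane -/

open Vale.Agent.P145.PT (TestOn bump bump_test bump_nonneg bump_zero Z0 Z0_pos)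
open Vale.Agent.P153.F.Top (dp)
open Vale.Agent.P153.R2.OBSV (rd rd_dist)
open Vale.Agent.P153.R2.INTF (CA eta eta_or)

/-- Close points are in a small box. -/
theorem bx_of_dist {δ : ℝ} (hδ : 0 < δ) {x : ℝ × ℝ} {t : ℝ} {n : ℤ}
    (hn : 2 * (t + δ) ≤ δ * n) {v : Pt} (hv : dist (dp δ v) x ≤ t) : v ∈ R2.bx (rd δ x) n := by
  have h1 : dist (dp δ v) (dp δ (rd δ x)) ≤ t + δ :=
    (dist_triangle_right _ _ x).trans (add_le_add hv (rd_dist hδ x))
  set p := rd δ x with hp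
  rw [dist_eq_norm, Prod.norm_def, sup_le_iff, Real.norm_eq_abs, Real.norm_eq_abs] at h1
  unfold dp at h1
  simp only [Prod.fst_sub, Prod.snd_sub] at h1
  obtain ⟨h2, h3⟩ := h1
  have hs3 : (3 / 2 : ℝ) ≤ √3 := by
    rw [Real.le_sqrt (by norm_num) (by norm_num)]; norm_num
  have e3 : δ * (√3 / 2 * (v.2 : ℝ)) - δ * (√3 / 2 * (p.2 : ℝ)) =
      √3 / 2 * (δ * ((v.2 : ℝ) - p.2)) := by ring
  have e2 : δ * ((v.1 : ℝ) + v.2 / 2) - δ * ((p.1 : ℝ) + p.2 / 2) =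
      δ * ((v.1 : ℝ) - p.1) + δ * ((v.2 : ℝ) - p.2) / 2 := by ring
  rw [e3, abs_mul, abs_of_pos (by positivity : (0 : ℝ) < √3 / 2)] at h3
  rw [e2] at h2
  set A : ℝ := δ * ((v.1 : ℝ) - p.1) with hA
  set B : ℝ := δ * ((v.2 : ℝ) - p.2) with hB
  have h4 : |B| ≤ 4 / 3 * (t + δ) := by nlinarith [abs_nonneg B]
  have h5 : |A| ≤ 2 * (t + δ) := by
    have e : A = (A + B / 2) - B / 2 := by ring
    rw [e]
    refine (abs_sub _ _).trans ?_
    rw [abs_div, abs_two]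
    have := (abs_nonneg B)
    linarith
  have h6 : |A| ≤ δ * n := h5.trans hn
  have h7 : |B| ≤ δ * n := by
    have : 0 ≤ |B| := abs_nonneg B
    linarith
  rw [hA, abs_mul, abs_of_pos hδ] at h6
  rw [hB, abs_mul, abs_of_pos hδ] at h7
  have h8 := le_of_mul_le_mul_left h6 hδ
  have h9 := le_of_mul_le_mul_left h7 hδ
  constructor
  · exact_mod_cast h8
  · exact_mod_cast h9

/-- All moments of the averages over Whitney balls. -/
theorem l_vbk {κ : ℝ} (hQ : IsQ Q) (hP : Plane (Q.map rc)) (hS : SpecOut (Q.map rc) κ)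
    (hC : RowCLT (Q.map rc) κ) (hκ : 0 < κ) (hR : S_rsw (Q.map rc)) (hMom : S_mom (Q.map rc))
    (hE : S_emom (Q.map rc)) (k : ℕ) (R₀ : ℝ) : ∃ K : ℝ, 0 ≤ K ∧ ∀ (x : ℝ × ℝ) (s : ℝ), 0 < s →
    ∃ δ₀ : ℝ, 0 < δ₀ ∧ ∀ δ, δ < δ₀ → ∀ F P M : Set Pt, Adm R₀ δ F P M → WhitF δ F x s →
      Ex (CA F M) (fun h => hf δ (bump s x) h ^ (2 * k)) ≤ K := by
  have hZ : 0 < Z0⁻¹ := inv_pos.2 Z0_pos
  obtain ⟨C, hC0, s₀, hs₀, hb⟩ := whit_lat hQ hP hS hC hκ hR hMom hE k (169 * Z0⁻¹) (by positivity)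
  refine ⟨C, hC0, fun x s hs => ?_⟩
  have hs₀' : (1 : ℝ) ≤ s₀ := by exact_mod_cast hs₀
  refine ⟨min s (s / s₀), lt_min hs (by positivity), fun δ hδ W P M hA hw => ?_⟩
  have hd := hA.dpos
  have hd1 : δ < s := hδ.trans_le (min_le_left _ _)
  have hd2 : δ < s / s₀ := hδ.trans_le (min_le_right _ _)
  rw [lt_div_iff₀ (by linarith)] at hd2
  have hbt : TestOn univ (bump s x) := bump_test hs (subset_univ _)
  set L : ℤ := ⌈12 * (s / δ)⌉ with hL
  have hsd : 1 < s / δ := (one_lt_div hd).2 hd1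
  have hL1 : 12 * (s / δ) ≤ L := Int.le_ceil _
  have hL2 : (L : ℝ) < 12 * (s / δ) + 1 := Int.ceil_lt_add_one _
  have hL0 : (0 : ℝ) < L := by linarith
  have hLs : s₀ ≤ L := by
    have h1 : (s₀ : ℝ) ≤ s / δ := (le_div_iff₀ hd).2 (by linarith)
    have h2 : (s₀ : ℝ) ≤ L := by linarith
    exact_mod_cast h2
  have hdL : δ * (12 * (s / δ)) ≤ δ * L := mul_le_mul_of_nonneg_left hL1 hd.le
  have e1 : δ * (12 * (s / δ)) = 12 * s := by field_simp
  rw [e1] at hdL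
  have hbox : ∀ v : Pt, dist (dp δ v) x ≤ 5 * s → v ∈ R2.bx (rd δ x) L := fun v hv =>
    bx_of_dist hd (t := 5 * s) (by linarith) hv
  obtain ⟨hw1, w, hwF, hwx⟩ := hw
  obtain ⟨Kc, hKc⟩ := F.SD.exists_csts hbt.1 hbt.2.1
  set u : Pt →₀ ℝ := F.SD.Wd δ (bump s x) 0 with hu
  have hux : ∀ v, u v = √3 / 2 * δ ^ 2 * bump s x (dp δ v) := by
    intro v
    rw [hu, F.SD.Wd_apply hKc hd]
    congr 2
    rw [add_zero]
    unfold GFF.pos dp
    simp only [Prod.smul_mk, smul_eq_mul]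
    ext <;> simp only <;> ring
  have hu1 : ∀ v, 0 ≤ u v ∧ u v ≤ 169 * Z0⁻¹ / (L : ℝ) ^ 2 := by
    intro v
    rw [hux]
    refine ⟨mul_nonneg (by positivity) (bump_nonneg _ _ _), ?_⟩
    have h1 := FLDI.bump_bound hs x (dp δ v)
    have h3 : √3 / 2 ≤ 1 := by
      have : √3 ≤ 2 := by rw [Real.sqrt_le_left (by norm_num)]; norm_num
      linarith
    have h4 : √3 / 2 * δ ^ 2 * bump s x (dp δ v) ≤ 1 * δ ^ 2 * (Z0⁻¹ * (s ^ 2)⁻¹) :=
      mul_le_mul (mul_le_mul_of_nonneg_right h3 (by positivity)) h1 (bump_nonneg _ _ _)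
        (by positivity)
    refine h4.trans ?_
    rw [le_div_iff₀ (by positivity)]
    have h5 : (L : ℝ) ≤ 13 * (s / δ) := by linarith
    have h6 : (L : ℝ) ^ 2 ≤ (13 * (s / δ)) ^ 2 := pow_le_pow_left₀ hL0.le h5 2
    calc 1 * δ ^ 2 * (Z0⁻¹ * (s ^ 2)⁻¹) * (L : ℝ) ^ 2 ≤
        1 * δ ^ 2 * (Z0⁻¹ * (s ^ 2)⁻¹) * (13 * (s / δ)) ^ 2 :=
          mul_le_mul_of_nonneg_left h6 (by positivity)
      _ = 169 * Z0⁻¹ := by field_simp; norm_num
  have hu2 : ∀ v, u v ≠ 0 → dist (dp δ v) x ≤ s := by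
    intro v hv
    by_contra hc
    push Not at hc
    apply hv
    rw [hux, bump_zero hs hc, mul_zero]
  have key := hb L hLs (rd δ x) W hA.arcs.fin hA.arcs.cc
    ⟨w, PLAN.bx_mono (by omega) (hbox w hwx), hwF⟩ (eta M) (eta_or M) u hu1
    (fun v hv => hw1 v ((hu2 v hv).trans (by linarith)))
    (fun v hv => hbox v ((hu2 v hv).trans (by linarith)))
  refine le_trans (le_of_eq ?_) key
  refine Ex_congr fun h _ => ?_
  rw [hf_eq hd hbt]
  rfl

/-- **`L_vb`**. -/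
theorem l_vb {κ : ℝ} (hQ : IsQ Q) (hP : Plane (Q.map rc)) (hS : SpecOut (Q.map rc) κ)
    (hC : RowCLT (Q.map rc) κ) (hκ : 0 < κ) (hR : S_rsw (Q.map rc)) (hMom : S_mom (Q.map rc))
    (hE : S_emom (Q.map rc)) : L_vb := by
  intro R₀
  obtain ⟨K, hK, h⟩ := l_vbk hQ hP hS hC hκ hR hMom hE 1 R₀
  exact ⟨K, hK, fun x s hs => by simpa only [mul_one] using h x s hs⟩

end Vale.Agent.P153.R2.KAPV
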