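import Vale.Agent.P153.R2.KAPV.Ker

/-!
P153, block KAPV: the limits of the first two moments in a conformal image of the half-plane with
the boundary values `±1` on the two sides of `W`.
-/

set_option autoImplicit false

namespace Vale.Agent.P153.R2.KAPV

open Filter Topology Set MeasureTheory
open Vale.Agent.P145.PT Vale.Agent.P153 Vale.Agent.P153.F.Top Vale.Agent.P153.R2.FLDI

variable {κ : ℝ} {δ : ℕ → ℝ} {B : ℕ → Finset (ℤ × ℤ)} {μ : ℕ → Measure Om}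
  {D : Set (ℝ × ℝ)} {F G : ℂ → ℂ} {s : ℝ → ℝ} {U : Ultrafilter ℕ}

theorem Gr_eq (G : ℂ → ℂ) (f : ℝ × ℝ → ℝ) : ∫ z, pot G f z * f z = Gr G f := by
  unfold Gr pot
  congr 1
  funext z
  rw [← integral_mul_const]

theorem ArcP.V_Gr (A : ArcP κ δ B μ D F G s U) {u : ℝ × ℝ → ℝ} (hu : DirP D F s u)
    {f : ℝ × ℝ → ℝ} (hf : TestOn D f) : V D f = Gr G f := by
  obtain ⟨K, hK⟩ := A.un.pot_bdd A.base.op A.base.bdd hf
  rw [← Gr_eq]
  exact A.V_eq hu hf (A.un.pot_meas A.base.op hf) hK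
    (fun ψ hψ => A.un.pot_weak A.base.op A.base.bdd hf hψ)
    (A.un.pot_dec A.base.op A.base.bdd hf)

/-- The second moment. -/
theorem ArcP.second (A : ArcP κ δ B μ D F G s U) {u : ℝ × ℝ → ℝ} (hu : DirP D F s u)
    {f : ℝ × ℝ → ℝ} (hf : TestOn D f) :
    Tendsto (fun n => ∫ ω, hB (B n) (δ n) f ω ^ 2 ∂(μ n)) U
      (𝓝 ((∫ z, u z * f z) ^ 2 + κ * Gr G f)) := by
  have h1 := A.gauss hu hf 2
  have h2 := A.mean hu hf
  have h3 : gm (κ * V D f) 2 = κ * Gr G f := by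
    rw [A.V_Gr hu hf]
    simp [gm]
  rw [h3] at h1
  set m := ∫ z, u z * f z with hm
  have h4 := (h1.add (h2.const_mul (2 * m))).sub_const (m ^ 2)
  have e : κ * Gr G f + 2 * m * m - m ^ 2 = m ^ 2 + κ * Gr G f := by ring
  rw [e] at h4
  refine h4.congr fun n => ?_
  have hp := (A.base.mom n).prob
  have i1 := (A.base.mom n).integrable (alg_hB (B := B n) (δ := δ n) (f := f))
  have i2 := (A.base.mom n).integrable ((alg_hB (B := B n) (δ := δ n) (f := f)).pow 2)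
  have e1 : ∫ ω, (hB (B n) (δ n) f ω - m) ^ 2 ∂(μ n) =
      (∫ ω, hB (B n) (δ n) f ω ^ 2 ∂(μ n)) - 2 * m * (∫ ω, hB (B n) (δ n) f ω ∂(μ n)) + m ^ 2 := by
    have i3 : Integrable (fun ω => hB (B n) (δ n) f ω ^ 2 - 2 * m * hB (B n) (δ n) f ω) (μ n) :=
      i2.sub (i1.const_mul (2 * m))
    have e2 : ∀ ω, (hB (B n) (δ n) f ω - m) ^ 2 =
      (hB (B n) (δ n) f ω ^ 2 - 2 * m * hB (B n) (δ n) f ω) + m ^ 2 := fun ω => by ring
    simp_rw [e2]
    rw [integral_add i3 (integrable_const _), integral_sub i2 (i1.const_mul (2 * m)),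
      integral_const_mul]
    simp
  rw [e1]
  ring

/-- The first two moments with the boundary values `±1`. -/
theorem ArcP.two {W : ℝ} (A : ArcP κ δ B μ D F G (sg W) U) {f : ℝ × ℝ → ℝ} (hf : TestOn D f) :
    Tendsto (fun n => ∫ ω, hB (B n) (δ n) f ω ∂(μ n)) U (𝓝 (∫ z, uarg G W z * f z)) ∧
    Tendsto (fun n => ∫ ω, hB (B n) (δ n) f ω ^ 2 ∂(μ n)) U
      (𝓝 ((∫ z, uarg G W z * f z) ^ 2 + κ * Gr G f)) :=
  have hu := A.un.uarg_dirP A.base.op W
  ⟨A.mean hu hf, A.second hu hf⟩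

end Vale.Agent.P153.R2.KAPV
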