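import Vale.Agent.P153.R2.RDEC.P6
import Vale.Agent.P153.R2.SDAR.Tigh
import Vale.Agent.P153.R2.PLAN.Box
import Vale.Agent.P153.R2.INTF.Markov
import Vale.Agent.P153.R2.MULT.Defs
import Vale.Agent.P153.R2.FKGK.Box

/-!
P153, block KAPV: near a wall the heights do not reach high levels at large distance.

* `frd_mono`: increasing events of the modulus, free data, are increasing in the domain.
* `slit_V`: the open cluster of the outside of a large box does not meet a smaller box which meets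
  the walls, free data, uniformly in the domain.
* `cross_pow`: crossings of high levels.
* `s_circ : MULT.S_circ`.
-/

set_option autoImplicit false

namespace Vale.Agent.P153.R2.KAPV

open Set Relation MeasureTheory
open Vale.Agent.P153 Vale.Agent.P153.A
open Vale.Agent.P153.GFF (Plane SpecOut RowCLT)
open Vale.Agent.P153.Topo (Conn)
open Vale.Agent.P153.F.X (S_rsw)
open Vale.Agent.P153.R2.NH (OO UU VV)

/-! ### Monotonicity in the domain -/

open Classical in
/-- Free data on the small domain as data on the large one. -/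
noncomputable def frz (W V : Set Pt) : Pt → Set ℤ := fun x =>
  if x ∈ W then univ else if x ∈ nb V then {0 - 1, 0 + 1} else {0 + 1}

theorem frz_dat {W V : Set Pt} (hV : V.Finite) (hWV : W ⊆ V) : Dat V (frz W V) := by
  refine ⟨hV, fun x hx => ?_, (nb_finite hV).subset fun x hx => ?_⟩
  · unfold frz
    rw [if_neg fun h => hx (hWV h)]
    split_ifs <;> exact Set.toFinite _
  · by_contra h1
    refine hx ?_
    unfold frz
    rw [if_neg (fun h => h1 (Or.inl (hWV h))), if_neg h1]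
    exact Set.subsingleton_singleton

theorem frz_one (W V : Set Pt) : (fun _ => 1 : Hg) ∈ Cfg V (frz W V) := by
  refine ⟨fun _ => odd_one, fun x => ?_, fun x _ y _ => by simp⟩
  show (1 : ℤ) ∈ frz W V x
  unfold frz
  split_ifs <;> simp

theorem frz_cmp {W V : Set Pt} (hV : V.Finite) (hWV : W ⊆ V) : Cmp V (frz W V) (frd V 0) 0 1 := by
  have hoff : ∀ x, x ∉ nb V → frz W V x = frd V 0 x := by
    intro x hx
    have hxV : x ∉ V := fun h => hx (Or.inl h)
    have hxe : x ∉ ebd V := fun h => hx (Or.inr h)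
    unfold frz frd
    rw [if_neg (fun h => hxV (hWV h)), if_neg hx, if_neg hxV, if_neg hxe]
  refine ⟨Even.zero, Or.inl rfl, frz_dat hV hWV, NH.dat_frd hV 0,
    (nb_finite hV).subset fun x hx => ?_, ⟨_, frz_one W V⟩, ⟨_, NH.const_mem_frd Even.zero⟩,
    fun x => Or.inl ?_⟩
  · by_contra h1
    exact hx (hoff x h1)
  · by_cases h1 : x ∈ W
    · have e1 : frz W V x = univ := by unfold frz; rw [if_pos h1]
      have e2 : frd V 0 x = univ := by unfold frd; rw [if_pos (hWV h1)]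
      rw [e1, e2]
      exact SdLe.refl (Sd_univ 0 1)
    · by_cases h2 : x ∈ nb V
      · have e1 : frz W V x = {0 - 1, 0 + 1} := by unfold frz; rw [if_neg h1, if_pos h2]
        rw [e1]
        refine SdLe_free Even.zero (Or.inl rfl) ?_
        rcases h2 with h2 | h2
        · have e2 : frd V 0 x = univ := by unfold frd; rw [if_pos h2]
          rw [e2]
          exact Sd_univ 0 1
        · have e2 : frd V 0 x = {0 - 1, 0 + 1} := by
            unfold frd
            rw [if_neg h2.1, if_pos h2]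
          rw [e2]
          exact Sd_free 0 1
      · rw [hoff x h2]
        have e2 : frd V 0 x = {0 + 1} := by
          unfold frd
          rw [if_neg (fun h => h2 (Or.inl h)), if_neg (fun h => h2 (Or.inr h))]
        rw [e2]
        exact SdLe.refl (Sd_single (by norm_num))

/-- Increasing events of the modulus, free data: monotone in the domain. -/
theorem frd_mono {W V : Set Pt} (hV : V.Finite) (hWV : W ⊆ V) {A : Set Hg} (hA : IsUpperSet A) :
    Pr (Cfg W (frd W 0)) {g | md 0 g ∈ A} ≤ Pr (Cfg V (frd V 0)) {g | md 0 g ∈ A} := by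
  classical
  have key := md_Pr_mono0 (frz_cmp hV hWV) hA
  refine le_trans (le_of_eq ?_) key
  set tr : Hg → Hg := fun g x => if x ∈ W then |g x| else 1 with htr
  have h1 : ∀ g : Hg, (∀ x, x ∉ W → |g x| = 1) → (md 0 g ∈ A ↔ tr g ∈ A) := by
    intro g hg
    have : md 0 g = tr g := by
      funext x
      simp only [htr, md, sub_zero]
      split_ifs with hx
      · rfl
      · exact hg x hx
    rw [this]
  have k1 : Pr (Cfg W (frd W 0)) {g | md 0 g ∈ A} = Pr (Cfg W (frd W 0)) {g | tr g ∈ A} := by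
    refine Pr_congr fun g hg => h1 g fun x hx => ?_
    have h2 := hg.2.1 x
    unfold frd at h2
    rw [if_neg hx] at h2
    split_ifs at h2
    · simp only [zero_sub, zero_add, mem_insert_iff, mem_singleton_iff] at h2
      rcases h2 with h2 | h2 <;> rw [h2] <;> rfl
    · simp only [zero_add, mem_singleton_iff] at h2
      rw [h2]; rfl
  have k2 : Pr (Cfg V (frz W V)) {g | md 0 g ∈ A} = Pr (Cfg V (frz W V)) {g | tr g ∈ A} := by
    refine Pr_congr fun g hg => h1 g fun x hx => ?_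
    have h2 := hg.2.1 x
    unfold frz at h2
    rw [if_neg hx] at h2
    split_ifs at h2
    · simp only [zero_sub, zero_add, mem_insert_iff, mem_singleton_iff] at h2
      rcases h2 with h2 | h2 <;> rw [h2] <;> rfl
    · simp only [zero_add, mem_singleton_iff] at h2
      rw [h2]; rfl
  rw [k1, k2, Pr_eq_Ex (Cfg_finite (NH.dat_frd (hV.subset hWV) 0)),
    Pr_eq_Ex (Cfg_finite (frz_dat hV hWV))]
  symm
  refine Ex_box hWV (frz_dat hV hWV) Even.zero (fun x hx => ?_) (fun x hx hxW => ?_)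
    ⟨_, frz_one W V⟩ fun a b hab => ?_
  · unfold frz; rw [if_pos hx]
  · unfold frz; rw [if_neg hxW, if_pos hx]
  · have : tr a = tr b := by
      funext x
      simp only [htr]
      split_ifs with hx
      · rw [hab x (Or.inl hx)]
      · rfl
    unfold ind
    simp only [mem_ofPred_eq, this]

/-! ### Crossings -/

/-- The set `U` crosses from the box of radius `r` to the outside of the box of radius `R`. -/
def Crs (p : Pt) (r R : ℤ) (U : Set Pt) : Prop := ∃ x ∈ bx p r, ∃ y, y ∉ bx p R ∧ Conn U x y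

theorem Crs.mono {p : Pt} {r R : ℤ} {S T : Set Pt} (h : S ⊆ T) (hS : Crs p r R S) :
    Crs p r R T := by
  obtain ⟨x, hx, y, hy, hxy⟩ := hS
  exact ⟨x, hx, y, hy, hxy.mono h⟩

/-- A connected pair is connected in a finite connected subset. -/
theorem conn_finite {S : Set Pt} {x y : Pt} (h : Conn S x y) :
    ∃ T ⊆ S, T.Finite ∧ Cn T ∧ x ∈ T ∧ y ∈ T := by
  refine Conn.ind (S := S) (fun z => ∃ T ⊆ S, T.Finite ∧ Cn T ∧ x ∈ T ∧ z ∈ T) ?_ ?_ h
  · refine ⟨{x}, singleton_subset_iff.2 h.left_mem, finite_singleton _, ?_, rfl, rfl⟩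
    intro a ha b hb
    rw [mem_singleton_iff] at ha hb
    rw [ha, hb]
    exact Conn.refl rfl
  · rintro u v hu huv hv ⟨T, hTS, hT, hc, hx, huT⟩
    exact ⟨insert v T, insert_subset hv hTS, hT.insert v, INTF.Cn.insert hc huT huv,
      mem_insert_of_mem _ hx, mem_insert _ _⟩

theorem opL_zero {h : Hg} {x y : Pt} :
    OpL 0 h x y ↔ Adj x y ∧ ¬ (|h x| = 1 ∧ |h y| = 1) := by
  unfold OpL
  rw [sub_zero, sub_zero]

/-- A crossing by vertices which are not joined to the walls by `{h ≤ 1}` gives an open path. -/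
theorem cross_open {V : Set Pt} (hV : V.Finite) (hCC : CC V) {p : Pt} {r R : ℤ} {w : Pt}
    (hw : w ∈ bx p r) (hwV : w ∉ V) {h : Hg} (hh : h ∈ Cfg V (frd V 0))
    (hc : Crs p r R (UU V h 1)) : ∃ x ∈ bx p r, x ∈ CluL 0 (bx p R)ᶜ h := by
  obtain ⟨x, hx, y, hy, hxy⟩ := hc
  set U : Set Pt := UU V h 1 with hU
  have hUV : U ⊆ V := NH.UU_subset
  set K : Set Pt := {z | Conn U x z} with hK
  have hKU : K ⊆ U := fun z hz => Conn.right_mem hz
  have hxK : x ∈ K := Conn.refl hxy.left_mem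
  have hyK : y ∈ K := hxy
  have hKc : ∀ a ∈ K, ∀ b ∈ K, Conn K a b := by
    have h1 : ∀ a ∈ K, Conn K x a := by
      intro a ha
      refine Conn.ind (S := U) (fun z => Conn K x z) (Conn.refl hxK) ?_ ha
      intro u v hu huv hv ih
      exact ih.tail huv (hu.tail huv hv)
    exact fun a ha b hb => (h1 a ha).symm.trans (h1 b hb)
  have hVK : Vᶜ ⊆ Kᶜ := compl_subset_compl.2 (hKU.trans hUV)
  set W : Set Pt := {z | Conn Kᶜ w z} with hW
  have hWm : ∀ z, z ∉ V → z ∈ W := fun z hz => (hCC w z hwV hz).mono hVK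
  have hWc : ∀ a ∈ W, ∀ b ∈ W, Conn W a b := by
    have h1 : ∀ a ∈ W, Conn W w a := by
      intro a ha
      refine Conn.ind (S := Kᶜ) (fun z => Conn W w z) (Conn.refl (hWm w hwV)) ?_ ha
      intro u v hu huv hv ih
      exact ih.tail huv (hu.tail huv hv)
    exact fun a ha b hb => (h1 a ha).symm.trans (h1 b hb)
  have hdis : Disjoint K W := by
    rw [Set.disjoint_left]
    intro z hz hzW
    exact (Conn.right_mem hzW) hz
  have hcl : ∀ z ∈ W, ∀ z', Adj z z' → z' ∉ K → z' ∈ W := fun z hz z' hzz hz' =>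
    Conn.tail hz hzz hz'
  -- the inner boundary has height three
  have hval : ∀ k ∈ PLAN.inner K W, |h k| ≠ 1 := by
    rintro k ⟨hk, u, hu, hku⟩
    have huU : u ∉ U := fun hc => Set.disjoint_left.1 hdis (Conn.tail hk hku hc) hu
    have huO : u ∈ OO V h 1 := not_not.1 huU
    have h3 := NH.bdry_eq (V := V) (I := frd V 0) odd_one (fun z hz b hb => by
      unfold frd at hb
      rw [if_neg hz] at hb
      split_ifs at hb
      · simp only [zero_sub, zero_add, mem_insert_iff, mem_singleton_iff] at hb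
        show b ≤ 1
        omega
      · simp only [zero_add, mem_singleton_iff] at hb
        show b ≤ 1
        omega) hh (hKU hk) huO hku
    rw [h3]
    norm_num
  -- a boundary vertex in the small box
  obtain ⟨u1, k1, h1, h2, h3, h4⟩ := PLAN.first_exit (V := W) (hWm w hwV)
    (fun hc => Set.disjoint_left.1 hdis hxK hc) (PLAN.cn_bx p r w hw x hx)
  have hu1 : u1 ∈ W := h1.right_mem.2
  have hk1 : k1 ∈ K := by
    by_contra hc
    exact h4 (hcl u1 hu1 k1 h2 hc)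
  have hk1i : k1 ∈ PLAN.inner K W := ⟨hk1, u1, hu1, Topo.adj_symm h2⟩
  -- a boundary vertex outside the large box
  obtain ⟨o, ho, ho'⟩ := PLAN.exists_not_mem hV p R
  obtain ⟨u2, k2, g1, g2, g3, g4⟩ := PLAN.first_exit (V := W) (hWm o ho)
    (fun hc => Set.disjoint_left.1 hdis hyK hc) (PLAN.cn_compl_bx p R o ho' y hy)
  have hu2 : u2 ∈ W := g1.right_mem.2
  have hk2 : k2 ∈ K := by
    by_contra hc
    exact g4 (hcl u2 hu2 k2 g2 hc)
  have hk2i : k2 ∈ PLAN.inner K W := ⟨hk2, u2, hu2, Topo.adj_symm g2⟩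
  have hconn := PLAN.inner_connected hdis hKc hWc hcl hk2i hk1i
  refine ⟨k1, h3, k2, g3, ?_⟩
  refine Conn.ind (S := PLAN.inner K W) (fun z => ReflTransGen (OpL 0 h) k2 z)
    ReflTransGen.refl ?_ hconn
  intro u v hu huv hv ih
  refine ih.tail (opL_zero.2 ⟨huv, fun hc => hval v hv hc.2⟩)

variable {Q : Measure Om}

/-- **No open path from a wall point to a large distance**, free data, uniformly in the domain. -/
theorem slit_V {κ : ℝ} (hQ : IsQ Q) (hP : Plane (Q.map rc)) (hS : SpecOut (Q.map rc) κ)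
    (hC : RowCLT (Q.map rc) κ) (hκ : 0 < κ) (hR : S_rsw (Q.map rc)) {ε : ℝ} (hε : 0 < ε) :
    ∃ M : ℕ, 1 ≤ M ∧ ∃ s₀ : ℤ, 1 ≤ s₀ ∧ ∀ s : ℤ, s₀ ≤ s → ∀ (p : Pt) (V : Set Pt), V.Finite →
      CC V → (∃ w ∈ bx p s, w ∉ V) →
      Pr (Cfg V (frd V 0)) {h | ∃ x ∈ bx p s, x ∈ CluL 0 (bx p (4 * M * s))ᶜ h} ≤ ε := by
  obtain ⟨M, hM, hm⟩ := RDEC.slit_fin' hQ hP hS hC hκ hR hε
  obtain ⟨s₀, hs₀, hs⟩ := hm M le_rfl
  refine ⟨M, hM, s₀, hs₀, fun s hss p V hV hCC hw => ?_⟩
  obtain ⟨w, hw, hwV⟩ := hw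
  obtain ⟨o, ho, ho'⟩ := PLAN.exists_not_mem hV p (4 * M * s)
  obtain ⟨β, hβV, hβ, hβc, hwβ, hoβ⟩ := conn_finite (hCC w o hwV ho)
  set B0 : Set Pt := V ∪ β ∪ bx p (4 * M * s + 1) with hB0
  have hB0f : B0.Finite := (hV.union hβ).union (PLAN.bx_finite _ _)
  have h1 := hs s hss p β B0 hB0f (fun x hx => Or.inl (Or.inr hx)) (fun x hx => Or.inr hx)
    (fun x hx y hy => hβc x hx y hy) ⟨w, hwβ, hw⟩ ⟨o, hoβ, ho'⟩
  set A : Set Hg := {a | ∃ x ∈ bx p s, ∃ y, y ∉ bx p (4 * M * s) ∧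
    ReflTransGen (fun u v => Adj u v ∧ ¬ (a u ≤ 1 ∧ a v ≤ 1)) y x} with hA
  have hAu : IsUpperSet A := by
    rintro a b hab ⟨x, hx, y, hy, hyx⟩
    refine ⟨x, hx, y, hy, ReflTransGen.mono (fun u v huv => ⟨huv.1, fun hc => huv.2 ?_⟩) _ _ hyx⟩
    exact ⟨(hab u).trans hc.1, (hab v).trans hc.2⟩
  have hev : ∀ (W : Set Pt) (I : Pt → Set ℤ), ∀ g ∈ Cfg W I,
      (g ∈ {h : Hg | ∃ x, x ∈ bx p s ∧ x ∈ CluL 0 (bx p (4 * M * s))ᶜ h} ↔
        g ∈ {g : Hg | md 0 g ∈ A}) := by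
    intro W I g hg
    have hstep : ∀ u v, OpL 0 g u v ↔ Adj u v ∧ ¬ (md 0 g u ≤ 1 ∧ md 0 g v ≤ 1) := by
      intro u v
      rw [opL_zero]
      have h2 : ∀ z, |g z| = 1 ↔ md 0 g z ≤ 1 := by
        intro z
        unfold md
        rw [sub_zero]
        have h3 := K.one_le_abs (hg.1 z)
        omega
      rw [h2, h2]
    have hst : OpL 0 g = fun u v => Adj u v ∧ ¬ (md 0 g u ≤ 1 ∧ md 0 g v ≤ 1) := by
      funext u v
      exact propext (hstep u v)
    simp only [mem_ofPred_eq, CluL, hA, hst, mem_compl_iff]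
  have h2 : Pr (RD.nu B0 β) {h | ∃ x, x ∈ bx p s ∧ x ∈ CluL 0 (bx p (4 * M * s))ᶜ h} =
      Pr (Cfg (B0 \ β) (frd (B0 \ β) 0)) {g | md 0 g ∈ A} := Pr_congr (hev _ _)
  rw [h2] at h1
  have h3 : Pr (Cfg V (frd V 0)) {h | ∃ x ∈ bx p s, x ∈ CluL 0 (bx p (4 * M * s))ᶜ h} =
      Pr (Cfg V (frd V 0)) {g | md 0 g ∈ A} := Pr_congr (hev _ _)
  rw [h3]
  refine (frd_mono (hB0f.subset sdiff_subset) (fun x hx => ⟨Or.inl (Or.inl hx), fun hc => ?_⟩)
    hAu).trans h1
  exact hβV hc hx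

/-- **No crossings of high levels near the walls**, free data, uniformly in the domain. -/
theorem cross_pow {κ : ℝ} (hQ : IsQ Q) (hP : Plane (Q.map rc)) (hS : SpecOut (Q.map rc) κ)
    (hC : RowCLT (Q.map rc) κ) (hκ : 0 < κ) (hR : S_rsw (Q.map rc)) {ε : ℝ} (hε : 0 < ε) :
    ∃ M : ℕ, 1 ≤ M ∧ ∃ s₀ : ℤ, 1 ≤ s₀ ∧ ∀ s : ℤ, s₀ ≤ s → ∀ (p : Pt) (V : Set Pt), V.Finite →
      CC V → (∃ w ∈ bx p s, w ∉ V) → ∀ n : ℕ,
      Pr (Cfg V (frd V 0)) {h | Crs p s (4 * M * s) (UU V h (4 * n + 1))} ≤ ε ^ (n + 1) := by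
  obtain ⟨M, hM, s₀, hs₀, hs⟩ := slit_V hQ hP hS hC hκ hR hε
  refine ⟨M, hM, s₀, hs₀, fun s hss p V hV hCC hw n => ?_⟩
  refine NH.nh (X := Crs p s (4 * M * s)) (fun S T hST => Crs.mono hST)
    (C := fun V => V.Finite ∧ CC V ∧ ∃ w ∈ bx p s, w ∉ V) (fun V hV => hV.1)
    (fun V a hV _ _ h _ => ⟨hV.1.subset NH.VV_subset, NH.cc_VV hV.2.1, ?_⟩) hε.le
    (fun V hV => ?_) n V ⟨hV, hCC, hw⟩
  · obtain ⟨w, hw, hwV⟩ := hV.2.2
    exact ⟨w, hw, fun hc => hwV (NH.VV_subset hc)⟩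
  · obtain ⟨w, hw, hwV⟩ := hV.2.2
    refine (Pr_mono fun h hh hc => ?_).trans (hs s hss p V hV.1 hV.2.1 hV.2.2)
    exact cross_open hV.1 hV.2.1 hw hwV hh hc

/-- Block MULT's input. -/
theorem s_circ {κ : ℝ} (hQ : IsQ Q) (hP : Plane (Q.map rc)) (hS : SpecOut (Q.map rc) κ)
    (hC : RowCLT (Q.map rc) κ) (hκ : 0 < κ) (hR : S_rsw (Q.map rc)) : MULT.S_circ := by
  intro η hη
  obtain ⟨M, hM, s₀, hs₀, hs⟩ := slit_V hQ hP hS hC hκ hR hη
  refine ⟨4 * M * s₀.toNat, fun V x₀ r hV hCC hr hw => ?_⟩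
  have hs0 : ((s₀.toNat : ℕ) : ℤ) = s₀ := Int.toNat_of_nonneg (by omega)
  have hr1 : (1 : ℤ) ≤ r := by exact_mod_cast hr
  have hrs : (r : ℤ) ≤ s₀ * r := by nlinarith
  have hsr : s₀ ≤ s₀ * r := by nlinarith
  obtain ⟨w, hw, hwV⟩ := hw
  refine (Pr_mono fun h hh hc => ?_).trans
    (hs (s₀ * r) hsr x₀ V hV hCC ⟨w, PLAN.bx_mono hrs hw, hwV⟩)
  obtain ⟨x, hx, y, hy, hxy⟩ := hc
  refine ⟨x, PLAN.bx_mono hrs hx, y, ?_, ?_⟩
  · have e : 4 * (M : ℤ) * (s₀ * r) = ((4 * M * s₀.toNat : ℕ) : ℤ) * r := by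
      push_cast
      rw [hs0]; ring
    rw [e]
    exact hy
  · refine Conn.ind (S := V ∩ dn h (-3)) (fun z => ReflTransGen (OpL 0 h) y z)
      ReflTransGen.refl ?_ hxy.symm
    intro u v hu huv hv ih
    refine ih.tail (opL_zero.2 ⟨huv, fun hc => ?_⟩)
    have h1 : h v ≤ -3 := hv.2
    have h2 := neg_abs_le (h v)
    omega

end Vale.Agent.P153.R2.KAPV
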