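import Vale.Agent.P153.R2.KAPV.Core2
import Vale.Agent.P153.R2.KAPV.Law

/-!
P153, block KAPV: the hypotheses of the second-moment core for arc domains of the lattice.
-/

set_option autoImplicit false
set_option linter.unusedVariables false

namespace Vale.Agent.P153.R2.KAPV

open Filter Topology Set Metric MeasureTheory
open Vale.Agent.P145.PT Vale.Agent.P153 Vale.Agent.P153.F.Top
open Vale.Agent.P153.Topo (Conn)
open Vale.Agent.P153.R2.INTF (PP Arcs CA CA_finite)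
open Vale.Agent.P153.R2.OBSV (rd tc tp Slt Wall CA_nonempty PP_eq norm_tc_sub wall_move norm_rd
  norm_PP_le mem_bx_of_norm tp_tc rd_dist um)
open Vale.Agent.P153.R2.FLDI (Bx mem_Bx hv_Bx exists_law)

/-! ### The laws -/

/-- The law of minus the heights. -/
theorem exists_mu {F M : Set Pt} (hF : F.Finite) (I : Finset (ℤ × ℤ)) : ∃ μ : Measure Om, Mom μ ∧
    ∀ A : Om → ℝ, ∫ ω, A ω ∂μ = Ex (CA F M) fun h => A (vh I fun v => - h v) := by
  have hb : BijOn (fun (h : Hg) v => - h v) (CA F M) ((fun (h : Hg) v => - h v) '' CA F M) := by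
    refine InjOn.bijOn_image ?_
    intro h _ h' _ he
    funext v
    have := congrFun he v
    simpa using this
  obtain ⟨μ, hμ, h⟩ := exists_law ((CA_finite (M := M) hF).image fun (h : Hg) v => - h v)
    ((CA_nonempty F M).image _) I
  exact ⟨μ, hμ, fun A => by rw [h A, Ex_bij _ hb]⟩

open Classical in
/-- The law of minus the heights, as a function. -/
noncomputable def mu (F M : Set Pt) (I : Finset (ℤ × ℤ)) : Measure Om :=
  if h : F.Finite then (exists_mu (M := M) h I).choose else Measure.dirac 0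

theorem mu_spec {F M : Set Pt} (hF : F.Finite) (I : Finset (ℤ × ℤ)) : Mom (mu F M I) ∧
    ∀ A : Om → ℝ, ∫ ω, A ω ∂(mu F M I) = Ex (CA F M) fun h => A (vh I fun v => - h v) := by
  unfold mu
  rw [dif_pos hF]
  exact (exists_mu (M := M) hF I).choose_spec

theorem hB_vh {δ R : ℝ} (hδ : 0 < δ) {f : ℝ × ℝ → ℝ}
    (hf' : ∀ z, f z ≠ 0 → z ∈ ball (0 : ℝ × ℝ) R) (h : Hg) :
    hB (Bx δ R) δ f (vh (Bx δ R) fun v => - h v) = - hf δ f h := by
  unfold hf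
  rw [hv_Bx hδ hf']
  unfold hB
  rw [← mul_neg, ← Finset.sum_neg_distrib]
  congr 1
  refine Finset.sum_congr rfl fun v hv => ?_
  unfold vh
  rw [if_pos hv]
  push_cast
  ring

theorem mu_hB {F M : Set Pt} (hF : F.Finite) {δ R : ℝ} (hδ : 0 < δ) {f : ℝ × ℝ → ℝ}
    (hf' : ∀ z, f z ≠ 0 → z ∈ ball (0 : ℝ × ℝ) R) (A : ℝ → ℝ) :
    ∫ ω, A (hB (Bx δ R) δ f ω) ∂(mu F M (Bx δ R)) =
      Ex (CA F M) fun h => A (- hf δ f h) := by
  rw [(mu_spec hF _).2 fun ω => A (hB (Bx δ R) δ f ω)]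
  exact Ex_congr fun h _ => by rw [hB_vh hδ hf']

theorem mu_hB2 {F M : Set Pt} (hF : F.Finite) {δ R : ℝ} (hδ : 0 < δ) {f g : ℝ × ℝ → ℝ}
    (hf' : ∀ z, f z ≠ 0 → z ∈ ball (0 : ℝ × ℝ) R) (hg' : ∀ z, g z ≠ 0 → z ∈ ball (0 : ℝ × ℝ) R)
    (A : ℝ → ℝ → ℝ) :
    ∫ ω, A (hB (Bx δ R) δ f ω) (hB (Bx δ R) δ g ω) ∂(mu F M (Bx δ R)) =
      Ex (CA F M) fun h => A (- hf δ f h) (- hf δ g h) := by
  rw [(mu_spec hF _).2 fun ω => A (hB (Bx δ R) δ f ω) (hB (Bx δ R) δ g ω)]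
  exact Ex_congr fun h _ => by rw [hB_vh hδ hf', hB_vh hδ hg']

/-! ### From the conformal maps to the lattice -/

section One

variable {δ : ℝ} {F P M : Set Pt} {G : ℂ → ℂ} {w z₀ : ℂ} {R₀ c₀ : ℝ}

theorem slt_adm (h : Slt δ F P M G w z₀ R₀ c₀) : Adm R₀ δ F P M := ⟨h.dpos, h.arcs, h.bF⟩

theorem slt_R (h : Slt δ F P M G w z₀ R₀ c₀) : 0 ≤ R₀ := (norm_nonneg _).trans (h.bdd w h.pt)

theorem supp_of {x : ℝ × ℝ} (h : Slt δ F P M G w z₀ R₀ c₀) (hx : toC x ∈ G '' HP) :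
    x ∈ ball (0 : ℝ × ℝ) (R₀ + 1) := by
  obtain ⟨y, hy, he⟩ := hx
  have h1 := h.bdd y hy
  rw [he] at h1
  rw [mem_ball_zero_iff, Prod.norm_def, max_lt_iff, Real.norm_eq_abs, Real.norm_eq_abs]
  have h2 := Complex.abs_re_le_norm (toC x)
  have h3 := Complex.abs_im_le_norm (toC x)
  simp only [toC_re, toC_im] at h2 h3
  constructor <;> linarith

theorem ins_supp {f : ℝ × ℝ → ℝ} {r : ℝ} (hr : 0 < r) (h : Slt δ F P M G w z₀ R₀ c₀)
    (hi : Ins G f r) : ∀ z, f z ≠ 0 → z ∈ ball (0 : ℝ × ℝ) (R₀ + 1) := fun z hz =>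
  supp_of h (hi z (subset_tsupport f hz) (mem_ball_self hr))

theorem norm_PP_tc {v : Pt} {z : ℝ × ℝ} {t : ℝ} (h : dist (dp δ v) z ≤ t) :
    ‖PP δ v - tc z‖ ≤ 2 * t := by
  rw [PP_eq, ← norm_neg, neg_sub]
  have : z ∈ closedBall (tp (tc (dp δ v))) t := by
    rw [tp_tc, mem_closedBall, dist_comm]; exact h
  exact norm_tc_sub this

theorem slt_ins {f : ℝ × ℝ → ℝ} {r : ℝ} (hr : 0 < r) (h : Slt δ F P M G w z₀ R₀ c₀)
    (hδ : δ < r / 8) (hi : Ins G f r) : InsF δ F f (r / 4) := by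
  rintro v ⟨z, hz, hvz⟩
  by_contra hc
  obtain ⟨y, hy, hyv⟩ := h.inn v hc
  refine hy (hi z hz ?_)
  rw [mem_ball, dist_eq_norm]
  have h6 := norm_PP_tc hvz
  have h7 : ‖y - toC z‖ ≤ ‖y - PP δ v‖ + ‖PP δ v - tc z‖ := by
    have e : y - toC z = (y - PP δ v) + (PP δ v - tc z) := by
      change y - tc z = _
      ring
    rw [e]; exact norm_add_le _ _
  linarith

theorem norm_PP_tc' {v : Pt} {x : ℝ × ℝ} {s : ℝ} (hs : 0 < s)
    (h : dist (dp δ v) x ≤ 21 / 20 * s) : ‖PP δ v - tc x‖ ≤ 149 / 100 * s := by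
  rw [dist_eq_norm, Prod.norm_def, max_le_iff, Real.norm_eq_abs, Real.norm_eq_abs] at h
  have h1 : |(dp δ v).1 - x.1| ≤ 21 / 20 * s := h.1
  have h2 : |(dp δ v).2 - x.2| ≤ 21 / 20 * s := h.2
  have h3 : ‖PP δ v - tc x‖ ^ 2 = ((dp δ v).1 - x.1) ^ 2 + ((dp δ v).2 - x.2) ^ 2 := by
    rw [PP_eq, ← Complex.normSq_eq_norm_sq, Complex.normSq_apply]
    simp only [tc, Complex.sub_re, Complex.sub_im]
    ring
  have h4 : ((dp δ v).1 - x.1) ^ 2 ≤ (21 / 20 * s) ^ 2 := sq_le_sq' (abs_le.1 h1).1 (abs_le.1 h1).2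
  have h5 : ((dp δ v).2 - x.2) ^ 2 ≤ (21 / 20 * s) ^ 2 := sq_le_sq' (abs_le.1 h2).1 (abs_le.1 h2).2
  refine (abs_le_of_sq_le_sq' ?_ (by positivity)).2
  rw [h3]
  nlinarith

theorem slt_whit {x : ℝ × ℝ} {s : ℝ} (hs : 0 < s) (h : Slt δ F P M G w z₀ R₀ c₀)
    (hδ : δ < s / 200) (hi : Whit G x s) : WhitF δ F x s := by
  obtain ⟨h1, h2⟩ := hi
  constructor
  · intro v hv
    by_contra hc
    obtain ⟨y, hy, hyv⟩ := h.inn v hc
    refine hy (h1 ?_)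
    rw [mem_ball, dist_eq_norm]
    have h6 := norm_PP_tc' hs hv
    have h7 : ‖y - toC x‖ ≤ ‖y - PP δ v‖ + ‖PP δ v - tc x‖ := by
      have e : y - toC x = (y - PP δ v) + (PP δ v - tc x) := by
        change y - tc x = _
        ring
      rw [e]; exact norm_add_le _ _
    linarith
  · obtain ⟨y, hyb, hyO⟩ := Set.not_subset.1 h2
    obtain ⟨v, hv, hyv⟩ := h.out y hyO
    refine ⟨v, hv, ?_⟩
    rw [mem_ball, dist_eq_norm] at hyb
    have h3 : ‖PP δ v - tc x‖ ≤ 5 * s := by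
      have e : PP δ v - tc x = -(y - PP δ v) + (y - toC x) := by
        change PP δ v - tc x = -(y - PP δ v) + (y - tc x)
        ring
      rw [e]
      refine (norm_add_le _ _).trans ?_
      rw [norm_neg]
      linarith
    rw [PP_eq] at h3
    rw [dist_eq_norm, Prod.norm_def, max_le_iff, Real.norm_eq_abs, Real.norm_eq_abs]
    exact ⟨(Complex.abs_re_le_norm (tc (dp δ v) - tc x)).trans h3,
      (Complex.abs_im_le_norm (tc (dp δ v) - tc x)).trans h3⟩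

/-- The visible walls. -/
theorem slt_vis {x : ℝ × ℝ} {s R θ : ℝ} (hs : 0 < s) (hR : 0 < R)
    (h : Slt δ F P M G w z₀ R₀ c₀) (hδ : δ < s / 200) (hδR : δ < R / 32) (hi : Whit G x s)
    {X : Set Pt} (hX : ∀ v ∈ F, ∀ (R : ℤ) (v' m : Pt), Conn (F ∩ bx v R) v v' → Adj v' m →
      m ∈ X → Wall G θ (PP δ v) (2 * δ * (R + 2)))
    (hno : ¬ Wall G θ (toC x) R) :
    ∀ a ∈ Cl (F ∩ bx (rd δ x) ⌊R / (16 * δ)⌋) {rd δ x}, ∀ b ∈ X, ¬ Adj a b := by
  intro a ha b hb hab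
  obtain ⟨v0, hv0, hconn⟩ := ha
  rw [mem_singleton_iff] at hv0
  subst hv0
  have hd := h.dpos
  have hvF : rd δ x ∈ F := hconn.left_mem.1
  have hw := hX _ hvF _ a b hconn hab hb
  refine hno ?_
  have hnv := norm_rd hd (tc x)
  rw [tp_tc] at hnv
  set d : ℝ := min s (R / 8) with hdd
  have hd0 : 0 < d := lt_min hs (by positivity)
  have hvz : PP δ (rd δ x) ∈ ball (toC x) d := by
    rw [mem_ball, dist_eq_norm]
    refine lt_of_le_of_lt hnv (lt_min (by linarith) (by linarith))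
  have hsub : ball (toC x) d ⊆ G '' HP :=
    (ball_subset_ball ((min_le_left _ _).trans (by linarith))).trans hi.1
  have h8 := wall_move h.diff h.inj (x₀ := toC x) (d := d) (z := toC x) (z' := PP δ (rd δ x))
    hsub (mem_ball_self hd0) hvz hw
  refine h8.mono ?_
  have h9 : d ≤ R / 8 := min_le_right _ _
  have hRl1 : ((⌊R / (16 * δ)⌋ : ℤ) : ℝ) ≤ R / (16 * δ) := Int.floor_le _
  have h10 : 2 * δ * (⌊R / (16 * δ)⌋ : ℤ) ≤ R / 8 := by
    calc 2 * δ * (⌊R / (16 * δ)⌋ : ℤ) ≤ 2 * δ * (R / (16 * δ)) :=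
          mul_le_mul_of_nonneg_left hRl1 (by positivity)
      _ = R / 8 := by field_simp; norm_num
  have h11 : 2 * δ * ((⌊R / (16 * δ)⌋ : ℤ) + 2) = 2 * δ * (⌊R / (16 * δ)⌋ : ℤ) + 4 * δ := by ring
  rw [h11]
  linarith

end One

/-! ### The hypotheses of the core -/

variable {ι : Type*} {l : Filter ι} {δ : ι → ℝ} {F P M : ι → Set Pt} {G : ι → ℂ → ℂ}
  {w : ι → ℂ} {z₀ : ℂ} {R₀ c₀ κ : ℝ}

theorem bump_supp' {x : ℝ × ℝ} {s : ℝ} (hs : 0 < s) {δ : ℝ} {F P M : Set Pt} {G : ℂ → ℂ}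
    {w : ℂ} (h : Slt δ F P M G w z₀ R₀ c₀) (hi : Whit G x s) :
    ∀ z, bump s x z ≠ 0 → z ∈ ball (0 : ℝ × ℝ) (R₀ + 1) := by
  intro z hz
  refine supp_of h (hi.1 ?_)
  have h1 : dist z x ≤ s := by
    by_contra hc
    exact hz (bump_zero hs (not_le.1 hc))
  rw [mem_ball, dist_eq_norm]
  rw [dist_eq_norm, Prod.norm_def, max_le_iff, Real.norm_eq_abs, Real.norm_eq_abs] at h1
  have a1 : |z.1 - x.1| ≤ s := h1.1
  have a2 : |z.2 - x.2| ≤ s := h1.2
  have h3 : ‖toC z - toC x‖ ^ 2 = (z.1 - x.1) ^ 2 + (z.2 - x.2) ^ 2 := by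
    rw [← Complex.normSq_eq_norm_sq, Complex.normSq_apply]
    simp only [Complex.sub_re, Complex.sub_im, toC_re, toC_im]
    ring
  have h4 : (z.1 - x.1) ^ 2 ≤ s ^ 2 := sq_le_sq' (abs_le.1 a1).1 (abs_le.1 a1).2
  have h5 : (z.2 - x.2) ^ 2 ≤ s ^ 2 := sq_le_sq' (abs_le.1 a2).1 (abs_le.1 a2).2
  refine lt_of_pow_lt_pow_left₀ 2 (by positivity) ?_
  rw [h3]
  nlinarith

theorem lat2_slt (hS : ∀ᶠ i in l, Slt (δ i) (F i) (P i) (M i) (G i) (w i) z₀ R₀ c₀)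
    (hδ : Tendsto δ l (𝓝 0)) (hκ : 0 < κ) (hmb : L_mb) (hl2 : L_l2) (hvb : L_vb)
    (hsd : L_sd κ) :
    Lat2 κ G δ (fun i => Bx (δ i) (R₀ + 1)) (fun i => mu (F i) (M i) (Bx (δ i) (R₀ + 1))) l where
  κpos := hκ
  mom := hS.mono fun i hi => (mu_spec hi.arcs.fin _).1
  mb f hf' k r hr := by
    obtain ⟨C, δ₀, hδ₀, h⟩ := hmb R₀ f hf' k (r / 4) (by positivity)
    refine ⟨C, ?_⟩
    filter_upwards [hS, hδ.eventually (gt_mem_nhds hδ₀),
      hδ.eventually (gt_mem_nhds (show (0 : ℝ) < r / 8 by positivity))] with i hi h1 h2 h3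
    rw [mu_hB hi.arcs.fin hi.dpos (ins_supp hr hi h3) fun a => a ^ (2 * k)]
    refine le_trans (le_of_eq ?_) (h _ h1 _ _ _ (slt_adm hi) (slt_ins hr hi h2 h3))
    exact Ex_congr fun h _ => by rw [pow_mul, neg_sq, ← pow_mul]
  l2 := by
    obtain ⟨C, hC, h⟩ := hl2 R₀
    refine ⟨C, hC, fun f hf' r ε hr hε => ?_⟩
    obtain ⟨δ₀, hδ₀, h0⟩ := h f hf' (r / 4) ε (by positivity) hε
    filter_upwards [hS, hδ.eventually (gt_mem_nhds hδ₀),
      hδ.eventually (gt_mem_nhds (show (0 : ℝ) < r / 8 by positivity))] with i hi h1 h2 h3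
    rw [mu_hB hi.arcs.fin hi.dpos (ins_supp hr hi h3) fun a => a ^ 2]
    refine le_trans (le_of_eq ?_) (h0 _ h1 _ _ _ (slt_adm hi) (slt_ins hr hi h2 h3))
    exact Ex_congr fun h _ => by rw [neg_sq]
  vb := by
    obtain ⟨K, hK, h⟩ := hvb R₀
    refine ⟨K, hK, fun x s hs => ?_⟩
    obtain ⟨δ₀, hδ₀, h0⟩ := h x s hs
    filter_upwards [hS, hδ.eventually (gt_mem_nhds hδ₀),
      hδ.eventually (gt_mem_nhds (show (0 : ℝ) < s / 200 by positivity))] with i hi h1 h2 h3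
    rw [mu_hB hi.arcs.fin hi.dpos (bump_supp' hs hi h3) fun a => a ^ 2]
    refine le_trans (le_of_eq ?_) (h0 _ h1 _ _ _ (slt_adm hi) (slt_whit hs hi h2 h3))
    exact Ex_congr fun h _ => by rw [neg_sq]
  sd0 ψ hψ r ε hr hε := by
    obtain ⟨δ₀, hδ₀, h⟩ := hsd R₀ ψ ψ hψ hψ 0 (r / 4) ε (by positivity) hε
    filter_upwards [hS, hδ.eventually (gt_mem_nhds hδ₀),
      hδ.eventually (gt_mem_nhds (show (0 : ℝ) < r / 8 by positivity))] with i hi h1 h2 h3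
    have h4 := h _ h1 _ _ _ (slt_adm hi) (slt_ins hr hi h2 h3) (slt_ins hr hi h2 h3)
    have hsup : ∀ z, lap ψ z ≠ 0 → z ∈ ball (0 : ℝ × ℝ) (R₀ + 1) := by
      intro z hz
      refine supp_of hi (h3 z ?_ (mem_ball_self hr))
      by_contra hc
      exact hz (lap_zero_off hψ hc)
    rw [mu_hB hi.arcs.fin hi.dpos hsup fun a => a, Ex_neg, abs_neg]
    have e : Ex (CA (F i) (M i)) (fun h => hf (δ i) (lap ψ) h * hf (δ i) ψ h ^ 0) +
        κ * ((0 : ℕ) : ℝ) * (∫ z, ψ z * ψ z) * Ex (CA (F i) (M i))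
          (fun h => hf (δ i) ψ h ^ (0 - 1)) = Ex (CA (F i) (M i)) fun h => hf (δ i) (lap ψ) h := by
      simp only [pow_zero, mul_one, Nat.cast_zero, mul_zero, zero_mul, add_zero]
    rw [e] at h4
    exact h4
  sd ψ f hψ hf' k r ε hr hε := by
    obtain ⟨δ₀, hδ₀, h⟩ := hsd R₀ ψ f hψ hf' (k + 1) (r / 4) ε (by positivity) hε
    filter_upwards [hS, hδ.eventually (gt_mem_nhds hδ₀),
      hδ.eventually (gt_mem_nhds (show (0 : ℝ) < r / 8 by positivity))] with i hi h1 h2 h3 h3'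
    have h4 := h _ h1 _ _ _ (slt_adm hi) (slt_ins hr hi h2 h3) (slt_ins hr hi h2 h3')
    have hsup : ∀ z, lap ψ z ≠ 0 → z ∈ ball (0 : ℝ × ℝ) (R₀ + 1) := by
      intro z hz
      refine supp_of hi (h3 z ?_ (mem_ball_self hr))
      by_contra hc
      exact hz (lap_zero_off hψ hc)
    unfold sdE
    rw [mu_hB2 hi.arcs.fin hi.dpos hsup (ins_supp hr hi h3') fun a b => a * b ^ (k + 1),
      mu_hB hi.arcs.fin hi.dpos (ins_supp hr hi h3') fun a => a ^ k]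
    have e1 : (Ex (CA (F i) (M i)) fun h => -hf (δ i) (lap ψ) h * (-hf (δ i) f h) ^ (k + 1)) =
        (-1) ^ k * Ex (CA (F i) (M i)) fun h => hf (δ i) (lap ψ) h * hf (δ i) f h ^ (k + 1) := by
      rw [← Ex_const_mul]
      refine Ex_congr fun h _ => ?_
      rw [neg_pow (hf (δ i) f h) (k + 1), pow_succ]
      ring
    have e2 : (Ex (CA (F i) (M i)) fun h => (-hf (δ i) f h) ^ k) =
        (-1) ^ k * Ex (CA (F i) (M i)) fun h => hf (δ i) f h ^ k := by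
      rw [← Ex_const_mul]
      refine Ex_congr fun h _ => ?_
      rw [neg_pow]
    rw [e1, e2]
    have e3 : (-1 : ℝ) ^ k * (Ex (CA (F i) (M i)) fun h => hf (δ i) (lap ψ) h *
        hf (δ i) f h ^ (k + 1)) + κ * (k + 1) * (∫ z, ψ z * f z) *
        ((-1) ^ k * Ex (CA (F i) (M i)) fun h => hf (δ i) f h ^ k) =
        (-1) ^ k * (Ex (CA (F i) (M i)) (fun h => hf (δ i) (lap ψ) h * hf (δ i) f h ^ (k + 1)) +
        κ * ((k + 1 : ℕ) : ℝ) * (∫ z, ψ z * f z) * Ex (CA (F i) (M i))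
          (fun h => hf (δ i) f h ^ (k + 1 - 1))) := by
      rw [Nat.add_sub_cancel]
      push_cast
      ring
    rw [e3, abs_mul, abs_pow, abs_neg, abs_one, one_pow, one_mul]
    exact h4
where
  lap_zero_off {ψ : ℝ × ℝ → ℝ} (hψ : TestOn univ ψ) {z : ℝ × ℝ} (hz : z ∉ tsupport ψ) :
      lap ψ z = 0 := by
    have h1 : TestOn (tsupport ψ) ψ := ⟨hψ.1, hψ.2.1, Subset.rfl⟩
    by_contra hc
    exact hz (h1.lap.2.2 (subset_tsupport _ hc))

theorem land2_sltP (hS : ∀ᶠ i in l, Slt (δ i) (F i) (P i) (M i) (G i) (w i) z₀ R₀ c₀)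
    (hδ : Tendsto δ l (𝓝 0)) (hL : L_landP) :
    Land2 G δ (fun i => Bx (δ i) (R₀ + 1)) (fun i => mu (F i) (M i) (Bx (δ i) (R₀ + 1))) l
      Real.pi 1 := by
  intro f hf' k r η hr hη
  obtain ⟨c, hc, h⟩ := hL R₀ f hf' k (r / 4) η (by positivity) hη
  refine ⟨c, hc, fun R hR x s hs hsc hd => ?_⟩
  obtain ⟨δ₀, hδ₀, h0⟩ := h R hR x s hs hsc hd
  filter_upwards [hS, hδ.eventually (gt_mem_nhds hδ₀),
    hδ.eventually (gt_mem_nhds (show (0 : ℝ) < r / 8 by positivity)),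
    hδ.eventually (gt_mem_nhds (show (0 : ℝ) < s / 200 by positivity)),
    hδ.eventually (gt_mem_nhds (show (0 : ℝ) < R / 32 by positivity))]
    with i hi h1 h2 h3 h4 h5 h6 h7
  have key := h0 _ h1 _ _ _ (slt_adm hi) (slt_ins hr hi h2 h5) (slt_whit hs hi h3 h6)
    (slt_vis hs hR hi h3 h4 h6 hi.sP h7)
  rw [mu_hB2 hi.arcs.fin hi.dpos (bump_supp' hs hi h6) (ins_supp hr hi h5)
    fun a b => (a - 1) * b ^ k]
  have e1 : (Ex (CA (F i) (M i)) fun h => (-hf (δ i) (bump s x) h - 1) * (-hf (δ i) f h) ^ k) =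
      (-1) ^ (k + 1) * Ex (CA (F i) (M i)) fun h =>
        (hf (δ i) (bump s x) h + 1) * hf (δ i) f h ^ k := by
    rw [← Ex_const_mul]
    refine Ex_congr fun h _ => ?_
    rw [neg_pow (hf (δ i) f h) k, pow_succ]
    ring
  rw [e1, abs_mul, abs_pow, abs_neg, abs_one, one_pow, one_mul]
  exact key

theorem land2_sltM (hS : ∀ᶠ i in l, Slt (δ i) (F i) (P i) (M i) (G i) (w i) z₀ R₀ c₀)
    (hδ : Tendsto δ l (𝓝 0)) (hL : L_landM) :
    Land2 G δ (fun i => Bx (δ i) (R₀ + 1)) (fun i => mu (F i) (M i) (Bx (δ i) (R₀ + 1))) l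
      0 (-1) := by
  intro f hf' k r η hr hη
  obtain ⟨c, hc, h⟩ := hL R₀ f hf' k (r / 4) η (by positivity) hη
  refine ⟨c, hc, fun R hR x s hs hsc hd => ?_⟩
  obtain ⟨δ₀, hδ₀, h0⟩ := h R hR x s hs hsc hd
  filter_upwards [hS, hδ.eventually (gt_mem_nhds hδ₀),
    hδ.eventually (gt_mem_nhds (show (0 : ℝ) < r / 8 by positivity)),
    hδ.eventually (gt_mem_nhds (show (0 : ℝ) < s / 200 by positivity)),
    hδ.eventually (gt_mem_nhds (show (0 : ℝ) < R / 32 by positivity))]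
    with i hi h1 h2 h3 h4 h5 h6 h7
  have key := h0 _ h1 _ _ _ (slt_adm hi) (slt_ins hr hi h2 h5) (slt_whit hs hi h3 h6)
    (slt_vis hs hR hi h3 h4 h6 hi.sM h7)
  rw [mu_hB2 hi.arcs.fin hi.dpos (bump_supp' hs hi h6) (ins_supp hr hi h5)
    fun a b => (a - -1) * b ^ k]
  have e1 : (Ex (CA (F i) (M i)) fun h => (-hf (δ i) (bump s x) h - -1) * (-hf (δ i) f h) ^ k) =
      (-1) ^ (k + 1) * Ex (CA (F i) (M i)) fun h =>
        (hf (δ i) (bump s x) h - 1) * hf (δ i) f h ^ k := by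
    rw [← Ex_const_mul]
    refine Ex_congr fun h _ => ?_
    rw [neg_pow (hf (δ i) f h) k, pow_succ]
    ring
  rw [e1, abs_mul, abs_pow, abs_neg, abs_one, one_pow, one_mul]
  exact key

theorem slt_bas {δ : ℝ} {F P M : Set Pt} {G : ℂ → ℂ} {w z₀ : ℂ} {R₀ c₀ : ℝ}
    (h : Slt δ F P M G w z₀ R₀ c₀) : OBSV.Bas G w z₀ R₀ c₀ (fun _ => 0) where
  diff := h.diff
  inj := h.inj
  bdd := h.bdd
  pt := h.pt
  val := h.val
  sub := h.sub
  meas := measurable_const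
  le := fun z => by simp

/-- **The first two moments in arc domains**, along a filter which is concentrated on a countable
set. -/
theorem obs2_fil {C : Set ι} (hC : C.Countable) (hCl : ∀ᶠ i in l, i ∈ C)
    (hS : ∀ᶠ i in l, Slt (δ i) (F i) (P i) (M i) (G i) (w i) z₀ R₀ c₀)
    (hδ : Tendsto δ l (𝓝 0)) (hR : 0 < R₀) (hc : 0 < c₀) {b A : ℝ} (hb : 0 < b)
    (hw : ∀ᶠ i in l, b ≤ (w i).im ∧ ‖w i‖ ≤ A) (hκ : 0 < κ) (hmb : L_mb) (hl2 : L_l2)
    (hvb : L_vb) (hsd : L_sd κ) (hP : L_landP) (hM : L_landM) {f : ℝ × ℝ → ℝ}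
    (hf' : TestOn (OBSV.dm (closedBall z₀ (c₀ / 4))) f) :
    Tendsto (fun i => Ex (CA (F i) (M i)) (fun h => hf (δ i) f h) +
      ∫ z, uarg (Function.invFunOn (G i) HP) 0 z * f z) l (𝓝 0) ∧
    Tendsto (fun i => Ex (CA (F i) (M i)) (fun h => hf (δ i) f h ^ 2) -
      ((∫ z, uarg (Function.invFunOn (G i) HP) 0 z * f z) ^ 2 +
        κ * Gr (Function.invFunOn (G i) HP) f)) l (𝓝 0) := by
  have : Countable C := hC.to_subtype
  set l' : Filter C := comap Subtype.val l with hl'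
  have hmap : map Subtype.val l' = l := by
    rw [hl', map_comap, Subtype.range_coe_subtype]
    exact inf_eq_left.2 (le_principal_iff.2 hCl)
  have hle : Tendsto (Subtype.val : C → ι) l' l := tendsto_comap
  have key := core2 (ι := C) (l := l') (F := fun i => G i.1) (w := fun i => w i.1) (z₀ := z₀)
    (R₀ := R₀) (c₀ := c₀) (κ := κ) (δ := fun i => δ i.1) (B := fun i => Bx (δ i.1) (R₀ + 1))
    (μ := fun i => mu (F i.1) (M i.1) (Bx (δ i.1) (R₀ + 1)))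
    (hle.eventually (hS.mono fun i hi => slt_bas hi)) hR hc hb (hle.eventually hw)
    (lat2_slt (F := fun i : C => F i.1) (P := fun i => P i.1) (M := fun i => M i.1)
      (w := fun i => w i.1) (hle.eventually hS) (hδ.comp hle) hκ hmb hl2 hvb hsd)
    (land2_sltP (F := fun i : C => F i.1) (P := fun i => P i.1) (M := fun i => M i.1)
      (w := fun i => w i.1) (hle.eventually hS) (hδ.comp hle) hP)
    (land2_sltM (F := fun i : C => F i.1) (P := fun i => P i.1) (M := fun i => M i.1)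
      (w := fun i => w i.1) (hle.eventually hS) (hδ.comp hle) hM) hf'
  have back : ∀ {X : ι → ℝ}, Tendsto (fun i : C => X i.1) l' (𝓝 0) → Tendsto X l (𝓝 0) := by
    intro X hX
    rw [← hmap, tendsto_map'_iff]
    exact hX
  have hsup : ∀ᶠ i in l, ∀ z, f z ≠ 0 → z ∈ ball (0 : ℝ × ℝ) (R₀ + 1) := by
    filter_upwards [hS] with i hi z hz
    have h1 : toC z ∈ closedBall z₀ (c₀ / 4) := hf'.2.2 (subset_tsupport f hz)
    exact supp_of hi (hi.sub (closedBall_subset_ball (by linarith) h1))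
  constructor
  · have k1 := back (X := fun i => (∫ ω, hB (Bx (δ i) (R₀ + 1)) (δ i) f ω
      ∂(mu (F i) (M i) (Bx (δ i) (R₀ + 1)))) -
      ∫ z, uarg (Function.invFunOn (G i) HP) 0 z * f z) key.1
    have k2 := k1.neg
    rw [neg_zero] at k2
    refine k2.congr' ?_
    filter_upwards [hS, hsup] with i hi hs
    rw [mu_hB hi.arcs.fin hi.dpos hs fun a => a, Ex_neg]
    ring
  · refine (back (X := fun i => (∫ ω, hB (Bx (δ i) (R₀ + 1)) (δ i) f ω ^ 2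
      ∂(mu (F i) (M i) (Bx (δ i) (R₀ + 1)))) -
      ((∫ z, uarg (Function.invFunOn (G i) HP) 0 z * f z) ^ 2 +
        κ * Gr (Function.invFunOn (G i) HP) f)) key.2).congr' ?_
    filter_upwards [hS, hsup] with i hi hs
    rw [mu_hB hi.arcs.fin hi.dpos hs fun a => a ^ 2]
    congr 1
    exact Ex_congr fun h _ => by rw [neg_sq]

end Vale.Agent.P153.R2.KAPV
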