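import Vale.Agent.P153.R2.KAPV.Obs3
import Vale.Agent.P153.R2.DRV.KapI
import Vale.Agent.P153.R2.UNIQ.Facts
import Vale.Agent.P153.R2.R1.Out1

/-!
P153, block KAPV: the value of the variance constant, from the inputs on the interface and on the
lattice laws.
-/

set_option autoImplicit false
set_option linter.unusedVariables false

namespace Vale.Agent.P153.R2.KAPV

open Filter Topology Set Metric MeasureTheory
open Vale.Agent.P145.PT Vale.Agent.P153.F.Top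
open Vale.Agent.P153 Vale.Agent.P153.R2
open Vale.Agent.P153.R2.INTF (PP Arcs CA Fk Rk Lk CA_finite StopIx StopMeas)
open Vale.Agent.P153.R2.Final (region circ IsUniformizer Approx IsPolygon Encloses)
open Vale.Agent.P153.R2.FLDI (inn)
open Vale.Agent.P153.R2.DRV
open Vale.Agent.P153.R2.OBSV (S_crv S_geo S_side Os Fm sep)

variable {Φ : (ℝ × ℝ) ≃ₜ (ℝ × ℝ)} {ψ : ℂ → ℂ} {δ : ℕ → ℝ} {N k : ℕ → ℕ}
  {p : ∀ n, ZMod (N n) → ℤ × ℤ} {S : ℕ → Finset Final.Tri} {ψn : ℕ → ℂ → ℂ}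

/-- There are lattice approximations of a marked Jordan domain, with their uniformizers. -/
theorem exists_setg : ∃ (Φ : (ℝ × ℝ) ≃ₜ (ℝ × ℝ)) (ψ : ℂ → ℂ) (δ : ℕ → ℝ) (N k : ℕ → ℕ)
    (p : ∀ n, ZMod (N n) → ℤ × ℤ) (S : ℕ → Finset Final.Tri) (ψn : ℕ → ℂ → ℂ),
    Setg Φ ψ δ N k p S ψn := by
  obtain ⟨Φ, δ, N, k, p, S, hA⟩ := UNIQ.i_exap
  obtain ⟨ψ, hψ⟩ := R1.i_unif Φ
  obtain ⟨ψn, h1, h2⟩ := UNIQ.i_rado Φ ψ hψ δ N k p S hA
  exact ⟨Φ, ψ, δ, N, k, p, S, ψn, ⟨hψ, hA, h1, h2⟩⟩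

/-- The preimages of the points close to `ψ z` are close to `z`. -/
theorem pre_close (huinj : UNIQ.I_uinj) (hset : Setg Φ ψ δ N k p S ψn) {z : ℂ} (hz : 0 < z.im)
    {r : ℝ} (hr : 0 < r) : ∃ d : ℝ, 0 < d ∧ ∀ᶠ n in atTop, ∀ y : ℂ, 0 ≤ y.im →
      ‖ψn n y - ψ z‖ < d → ‖y - z‖ < r := by
  obtain ⟨d, hd, hsep⟩ := sep huinj hset.unif hz hr
  refine ⟨d / 2, by positivity, ?_⟩
  filter_upwards [hset.conv (d / 2) (by positivity)] with n hn y hy hyd
  by_contra hcon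
  rw [not_lt] at hcon
  have h1 := hsep y hy hcon
  have h2 := hn y hy
  rw [dist_eq_norm] at h2
  have h3 : ‖ψ y - ψ z‖ ≤ ‖ψn n y - ψ y‖ + ‖ψn n y - ψ z‖ := by
    rw [← norm_neg (ψn n y - ψ y)]
    have e : ψ y - ψ z = -(ψn n y - ψ y) + (ψn n y - ψ z) := by ring
    rw [e]
    exact norm_add_le _ _
  linarith

/-- At time zero the centred map is the identity. -/
theorem gc_zero {n k : ℕ} {p : ZMod n → ℤ × ℤ} {S : Finset Final.Tri} {δ : ℝ} {ψ : ℂ → ℂ}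
    {h : Hg} (hC : L2.Crv (et ψ δ p S h) (nu p S h)) (h0 : et ψ δ p S h 0 = 0) {z : ℂ}
    (hz : 0 < z.im) : gc ψ δ p S h 0 z = z ∧ cp ψ δ p S h 0 = 0 ∧ wd ψ δ p S h 0 = 0 := by
  have ht : (0 : ℝ) ∈ Ico (0 : ℝ) (nu p S h) := ⟨le_rfl, hC.pos⟩
  have hc : L2.cc (et ψ δ p S h) 0 = 0 := hC.cap_zero
  have hw : L2.ww (et ψ δ p S h) 0 = 0 := by
    have h1 := hC.drv_cc ht
    have h2 := hC.drv_zero
    rw [hc] at h1
    rw [h0, h1] at h2
    exact_mod_cast h2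
  obtain ⟨hz', -, -⟩ := crv_bd hC ht hz (by rw [hc, mul_zero]; positivity)
  have h1 := crv_flow hC ht hz'
  obtain ⟨g, hg⟩ : z ∈ Vale.Agent.P164.loewnerDomain
      (L2.drv (et ψ δ p S h) (nu p S h)) (L2.cc (et ψ δ p S h) 0) := by
    rw [hC.dom ht]; exact hz'
  have h2 := Vale.Agent.P164.flow_eq (hC.cap_nonneg ht) hg
  rw [h1, hC.drv_cc ht, hc, hg.1, hw] at h2
  refine ⟨?_, hc, hw⟩
  have e : gc ψ δ p S h 0 z = L2.gg (et ψ δ p S h) 0 z - (L2.ww (et ψ δ p S h) 0 : ℂ) := rfl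
  rw [e, hw, h2]
  simp

/-- Averages of the conditional expectations. -/
theorem Ex_cE {n k : ℕ} {p : ZMod n → ℤ × ℤ} {S : Finset Final.Tri} (hp : IsPolygon p)
    (hS : Encloses p S) (hk : 0 < k) (hkn : k < n) {κ : Hg → ℕ}
    (hκ : StopIx (Cs p k S) S (DRV.st p S) κ) (hlt : ∀ h ∈ Cs p k S, κ h < nu p S h)
    (G : Hg → ℝ) : (Ex (Cs p k S) fun h => cE p k S h (κ h) G) = Ex (Cs p k S) G := by
  have h1 := tower_cE hp hS hk hkn hκ hlt (fun _ => 1) G fun h hh h' hh' ha => rfl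
  simp only [one_mul] at h1
  exact h1.symm

theorem tend_of_abs {E : ℕ → Set Hg} {X : ℕ → Hg → ℝ}
    (h : Tendsto (fun n => Ex (E n) fun h => |X n h|) atTop (𝓝 0)) :
    Tendsto (fun n => Ex (E n) (X n)) atTop (𝓝 0) := by
  refine squeeze_zero_norm (fun n => ?_) h
  rw [Real.norm_eq_abs, abs_le]
  constructor
  · rw [← Ex_neg]
    exact Ex_mono fun a _ => neg_abs_le _
  · exact Ex_mono fun a _ => le_abs_self _

/-- **The value of the variance constant.** -/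
theorem kap_val {κ : ℝ} (hcrv : S_crv) (hC : S_can) (hst : S_step) (hob : S_obs)
    (huinj : UNIQ.I_uinj) (hob3 : S_obs3 κ) : κ = 8 / Real.pi := by
  classical
  obtain ⟨Φ, ψ, δ, N, k, p, S, ψn, hset⟩ := exists_setg
  have hpoly : ∀ n, 0 < δ n ∧ 0 < k n ∧ k n < N n ∧ IsPolygon (p n) ∧ Encloses (p n) (S n) :=
    hset.appr.1
  set z : ℂ := 8 * Complex.I with hzd
  have hzim : z.im = 8 := by simp [hzd]
  have hz : 0 < z.im := by rw [hzim]; norm_num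
  obtain ⟨c, hc, hpre, hobs⟩ := hob3 Φ ψ δ N k p S ψn hset z hz
  obtain ⟨d, hd, hcl⟩ := pre_close huinj hset hz one_pos
  -- the test function
  set r : ℝ := min (c / 2) (d / 4) with hr
  have hrp : 0 < r := lt_min (by positivity) (by positivity)
  have hr1 : r ≤ c / 2 := min_le_left _ _
  have hr2 : r ≤ d / 4 := min_le_right _ _
  set f : ℝ × ℝ → ℝ := bump r (toR (ψ z)) with hfd
  have hball : ∀ a ∈ closedBall (toR (ψ z)) r, ‖toC a - ψ z‖ ≤ 2 * r := fun a ha =>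
    OBSV.norm_tc_sub (z := ψ z) (y := a) ha
  have hfT : TestOn (OBSV.dm (closedBall (ψ z) c)) f := bump_test hrp fun a ha => by
    have h1 := hball a ha
    change toC a ∈ closedBall (ψ z) c
    rw [mem_closedBall, dist_eq_norm]
    linarith
  have hf0 : ∀ a, 0 ≤ f a := fun a => bump_nonneg _ _ _
  have hfI : ∫ a, f a = 1 := bump_int hrp _
  set K : Set (ℝ × ℝ) := closedBall (toR (ψ z)) r with hK
  have hfK : ∀ a, f a ≠ 0 → a ∈ K := fun a ha => bump_supp hrp _ ha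
  have := nuf_fin hfT
  -- the preimages
  obtain ⟨n₀, hn₀⟩ : ∃ n₀ : ℕ, ∀ n, n₀ ≤ n → (∀ a ∈ ball (ψ z) (4 * c),
      Function.invFunOn (ψn n) HP a ∈ HP ∧ ψn n (Function.invFunOn (ψn n) HP a) = a) ∧
      ∀ y : ℂ, 0 ≤ y.im → ‖ψn n y - ψ z‖ < d → ‖y - z‖ < 1 :=
    eventually_atTop.1 (hpre.and hcl)
  set q : ℕ → ℝ × ℝ → ℂ := fun n a => if a ∈ K then pre (ψn (max n n₀)) a else z with hq
  have hKp : ∀ n, n₀ ≤ n → ∀ a ∈ K, pre (ψn n) a ∈ HP ∧ ψn n (pre (ψn n) a) = toC a ∧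
      ‖pre (ψn n) a - z‖ < 1 := by
    intro n hn a ha
    obtain ⟨h1, h2⟩ := hn₀ n hn
    have h3 := hball a ha
    obtain ⟨h4, h5⟩ := h1 (toC a) (by
      rw [mem_ball, dist_eq_norm]; linarith)
    refine ⟨h4, h5, h2 _ (le_of_lt h4) ?_⟩
    have h6 : ψn n (pre (ψn n) a) = toC a := h5
    rw [h6]
    linarith
  have him : ∀ w : ℂ, ‖w - z‖ < 1 → 7 ≤ w.im ∧ ‖w‖ ≤ 9 := by
    intro w hw
    have h1 := Complex.abs_im_le_norm (w - z)
    rw [Complex.sub_im, hzim] at h1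
    have h2 := (abs_le.1 (h1.trans hw.le)).1
    have h3 : ‖z‖ = 8 := by rw [hzd]; simp
    have h4 := norm_le_norm_add_norm_sub' w z
    constructor <;> linarith
  have hqb : ∀ n a, 7 ≤ (q n a).im ∧ ‖q n a‖ ≤ 9 := by
    intro n a
    by_cases ha : a ∈ K
    · simp only [hq, if_pos ha]
      exact him _ (hKp _ (le_max_right _ _) a ha).2.2
    · simp only [hq, if_neg ha]
      exact him _ (by rw [sub_self, norm_zero]; exact one_pos)
  -- the domains of the uniformizers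
  have hHs : HP ⊆ {z : ℂ | 0 ≤ z.im} := fun x hx => le_of_lt (show 0 < x.im from hx)
  have hU : ∀ n, Unif (OBSV.dm (ψn n '' HP)) (ψn n) (Function.invFunOn (ψn n) HP) := by
    intro n
    have h1 : InjOn (ψn n) HP := (hset.unifD n).injOn.mono hHs
    have h2 : DifferentiableOn ℂ (ψn n) HP := (hset.unifD n).diff
    exact { Fd := h2
            Fm := fun w hw => mem_image_of_mem (ψn n) hw
            Gd := fun z hz => (OBSV.inv_diff HP_open h2 h1).differentiableAt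
              ((OBSV.isOpen_image HP_open h2 h1).mem_nhds hz)
            Gm := fun z hz => OBSV.inv_mem hz
            FG := fun z hz => OBSV.f_inv hz
            GF := fun w hw => OBSV.inv_f h1 hw }
  have hUo : ∀ n, IsOpen (OBSV.dm (ψn n '' HP)) := fun n =>
    OBSV.dm_open (OBSV.isOpen_image HP_open (hset.unifD n).diff
      ((hset.unifD n).injOn.mono hHs))
  have hKs : ∀ n, n₀ ≤ n → K ⊆ OBSV.dm (ψn n '' HP) := by
    intro n hn a ha
    obtain ⟨h1, h2, -⟩ := hKp n hn a ha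
    exact ⟨_, h1, h2⟩
  have hfU : ∀ n, n₀ ≤ n → TestOn (OBSV.dm (ψn n '' HP)) f := fun n hn =>
    bump_test hrp (hKs n hn)
  have hqeq : ∀ n, ∀ a, f a ≠ 0 → q n a = Function.invFunOn (ψn (max n n₀)) HP (toC a) := by
    intro n a ha
    simp only [hq, if_pos (hfK a ha)]
    rfl
  have hqm : ∀ n, Measurable (q n) := by
    intro n
    have h1 : ContinuousOn (pre (ψn (max n n₀))) K := fun a ha =>
      ((hU _).Gc (hKs _ (le_max_right _ _) ha)).continuousWithinAt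
    have h2 := h1.measurable_piecewise (continuousOn_const (c := z) (s := Kᶜ))
      isClosed_closedBall.measurableSet
    convert h2 using 1
    funext a
    by_cases ha : a ∈ K
    · rw [piecewise_eq_of_mem _ _ _ ha]
      simp only [hq, if_pos ha]
    · rw [piecewise_eq_of_notMem _ _ _ ha]
      simp only [hq, if_neg ha]
  have hint : ∀ n, Integrable (fun x : (ℝ × ℝ) × (ℝ × ℝ) => GH (q n x.1) (q n x.2))
      ((nuf f).prod (nuf f)) := by
    intro n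
    refine ((hU (max n n₀)).GH_int (hUo _) (hfU _ (le_max_right _ _)) hf0).congr ?_
    filter_upwards [nuf_diag hfT] with x hx
    rw [hqeq n _ hx.2.1, hqeq n _ hx.2.2]
  have hne : ∀ n, ∀ᵐ x : (ℝ × ℝ) × (ℝ × ℝ) ∂((nuf f).prod (nuf f)), q n x.1 ≠ q n x.2 := by
    intro n
    filter_upwards [nuf_diag hfT] with x hx he
    rw [hqeq n _ hx.2.1, hqeq n _ hx.2.2] at he
    have hs := hKs (max n n₀) (le_max_right _ _)
    exact hx.1 ((hU _).inj (hs (hfK _ hx.2.1)) (hs (hfK _ hx.2.2)) he)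
  -- the functionals of the preimages
  have hqm' : ∀ n, n₀ ≤ n → ∀ ζ : ℂ → ℂ, (mF (nuf f) fun a => ζ (q n a)) =
      mF (nuf f) fun a => ζ (pre (ψn n) a) := fun n hn ζ => mF_congr hfT fun a ha => by
    rw [hqeq n a ha, max_eq_left hn]
    rfl
  have hqq' : ∀ n, n₀ ≤ n → ∀ ζ : ℂ → ℂ, (qF (nuf f) fun a => ζ (q n a)) =
      qF (nuf f) fun a => ζ (pre (ψn n) a) := fun n hn ζ => qF_congr hfT fun a ha => by
    rw [hqeq n a ha, max_eq_left hn]
    rfl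
  refine kap_drv hset hC hst hob huinj (ν := nuf f) (q := q) (c := 7) (C := 9) (s1 := 1) hqm
    (by norm_num) (fun n a => (hqb n a).1) (fun n a => (hqb n a).2)
    (nuf_ne hfT hf0 (by rw [hfI]; exact one_ne_zero)) hint hne one_pos ?_
  intro s hs0 hs1 _ κ' k1 k2 k3 k4
  -- the inputs at `κ'` and at zero
  have hTz : 16 * (s ^ 2 + 1) ≤ z.im ^ 2 := by
    rw [hzim]
    have : s ^ 2 ≤ 1 := by nlinarith
    linarith
  obtain ⟨o1, o2⟩ := hobs f hfT hf0 (s ^ 2) (3 * s) hTz κ' k2 (k4 1 one_pos)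
  have hpos : ∀ n, ∀ h ∈ Cs (p n) (k n) (S n), 0 < nu (p n) (S n) h := fun n h hh =>
    nu_pos (hpoly n).2.2.2.1 (hpoly n).2.2.2.2 (hpoly n).2.1 (hpoly n).2.2.1 hh
  have hzero : ∀ n, ∀ h ∈ Cs (p n) (k n) (S n), ∀ w : ℂ, 0 < w.im →
      gc (ψn n) (δ n) (p n) (S n) h 0 w = w ∧ cp (ψn n) (δ n) (p n) (S n) h 0 = 0 ∧
        wd (ψn n) (δ n) (p n) (S n) h 0 = 0 := by
    intro n h hh w hw
    obtain ⟨hδ0, hk0, hkN, hpo, hen⟩ := hpoly n
    obtain ⟨hCv, -⟩ := hcrv _ _ _ _ _ _ hδ0 hk0 hkN hpo hen (hset.unifD n) h hh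
    exact gc_zero (k := k n) hCv (et_zero (hset.unifD n) (can_of hC hδ0 hk0 hkN hpo hen hh)) hw
  obtain ⟨p1, p2⟩ := hobs f hfT hf0 (s ^ 2) (3 * s) hTz (fun _ _ => 0) hpos
    (Eventually.of_forall fun n h hh => by
      obtain ⟨-, e1, e2⟩ := hzero n h hh z hz
      rw [Nat.cast_zero, e1, e2, abs_zero]
      constructor <;> positivity)
  have t1 := (tend_of_abs o1).sub (tend_of_abs p1)
  have t2 := (tend_of_abs o2).sub (tend_of_abs p2)
  rw [sub_zero] at t1 t2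
  have hfin : ∀ n, (Cs (p n) (k n) (S n)).Finite := fun n => Cs_finite
  have hnon : ∀ n, (Cs (p n) (k n) (S n)).Nonempty := fun n =>
    Cs_nonempty (hpoly n).2.2.2.1 (hpoly n).2.2.2.2
  -- the value at zero
  have hv0 : ∀ n, n₀ ≤ n → ∀ h ∈ Cs (p n) (k n) (S n), ∀ a, f a ≠ 0 →
      gc (ψn n) (δ n) (p n) (S n) h ((0 : ℕ) : ℝ) (pre (ψn n) a) = q n a := by
    intro n hn h hh a ha
    have h1 := (hKp n hn a (hfK a ha)).1
    rw [Nat.cast_zero, (hzero n h hh _ h1).1, hqeq n a ha, max_eq_left hn]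
    rfl
  have hcE : ∀ n, ∀ G : Hg → ℝ,
      (Ex (Cs (p n) (k n) (S n)) fun h => cE (p n) (k n) (S n) h (κ' n h) G) =
      Ex (Cs (p n) (k n) (S n)) fun h => cE (p n) (k n) (S n) h 0 G := by
    intro n G
    obtain ⟨hδ0, hk0, hkN, hpo, hen⟩ := hpoly n
    rw [Ex_cE hpo hen hk0 hkN (k1 n) (k2 n) G]
    exact (Ex_cE hpo hen hk0 hkN (κ := fun _ => 0) (fun h hh h' hh' _ => rfl) (hpos n) G).symm
  constructor
  · refine t1.congr' ?_
    filter_upwards [eventually_ge_atTop n₀] with n hn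
    have e1 : (Ex (Cs (p n) (k n) (S n)) fun h =>
        (mF (nuf f) fun a => gc (ψn n) (δ n) (p n) (S n) h ((0 : ℕ) : ℝ) (pre (ψn n) a))) =
        Ex (Cs (p n) (k n) (S n)) fun _ => mF (nuf f) (q n) :=
      Ex_congr fun h hh => mF_congr hfT (hv0 n hn h hh)
    rw [Ex_add, Ex_add, hcE, e1, Ex_sub]
    have e2 : (Ex (Cs (p n) (k n) (S n)) fun h => mF (nuf f) fun a =>
        gc (ψn n) (δ n) (p n) (S n) h (κ' n h) (q n a)) =
        Ex (Cs (p n) (k n) (S n)) fun h => mF (nuf f) fun a =>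
        gc (ψn n) (δ n) (p n) (S n) h (κ' n h) (pre (ψn n) a) :=
      Ex_congr fun h hh => hqm' n hn fun w => gc (ψn n) (δ n) (p n) (S n) h (κ' n h) w
    rw [e2]
    ring
  · have t3 := t2.neg
    rw [neg_zero] at t3
    refine t3.congr' ?_
    filter_upwards [eventually_ge_atTop n₀] with n hn
    have e1 : (Ex (Cs (p n) (k n) (S n)) fun h =>
        ((mF (nuf f) fun a => gc (ψn n) (δ n) (p n) (S n) h ((0 : ℕ) : ℝ) (pre (ψn n) a)) ^ 2 +
          κ * qF (nuf f) fun a => gc (ψn n) (δ n) (p n) (S n) h ((0 : ℕ) : ℝ)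
            (pre (ψn n) a))) =
        Ex (Cs (p n) (k n) (S n)) fun _ => (mF (nuf f) (q n) ^ 2 + κ * qF (nuf f) (q n)) :=
      Ex_congr fun h hh => by
        rw [mF_congr hfT (hv0 n hn h hh), qF_congr hfT (hv0 n hn h hh)]
    rw [Ex_sub, Ex_sub, hcE, e1]
    have e2 : (Ex (Cs (p n) (k n) (S n)) fun h =>
        (mF (nuf f) fun a => gc (ψn n) (δ n) (p n) (S n) h (κ' n h) (q n a)) ^ 2 -
          mF (nuf f) (q n) ^ 2 + κ * ((qF (nuf f) fun a =>
            gc (ψn n) (δ n) (p n) (S n) h (κ' n h) (q n a)) - qF (nuf f) (q n))) =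
        Ex (Cs (p n) (k n) (S n)) fun h =>
        ((mF (nuf f) fun a => gc (ψn n) (δ n) (p n) (S n) h (κ' n h) (pre (ψn n) a)) ^ 2 +
          κ * qF (nuf f) fun a => gc (ψn n) (δ n) (p n) (S n) h (κ' n h) (pre (ψn n) a)) -
          (mF (nuf f) (q n) ^ 2 + κ * qF (nuf f) (q n)) := by
      refine Ex_congr fun h hh => ?_
      rw [hqm' n hn fun w => gc (ψn n) (δ n) (p n) (S n) h (κ' n h) w,
        hqq' n hn fun w => gc (ψn n) (δ n) (p n) (S n) h (κ' n h) w]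
      ring
    rw [e2, Ex_sub]
    ring

/-- The case of the power zero is the input of the block OBSV. -/
theorem slitsd_of {κ : ℝ} (h : L_sd κ) : OBSV.S_slitsd := by
  intro R₀ ψ hψ r hr ε hε
  obtain ⟨δ₀, hδ₀, h1⟩ := h R₀ ψ ψ hψ hψ 0 r ε hr hε
  refine ⟨δ₀, hδ₀, fun δ hδ hδ' F P M hA hF hv => ?_⟩
  have h2 := h1 δ hδ' F P M ⟨hδ, hA, hF⟩ hv hv
  have e : Ex (CA F M) (fun h => hf δ (lap ψ) h * hf δ ψ h ^ 0) +
      κ * ((0 : ℕ) : ℝ) * (∫ z, ψ z * ψ z) * Ex (CA F M)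
        (fun h => hf δ ψ h ^ (0 - 1)) = Ex (CA F M) fun h => hf δ (lap ψ) h := by
    simp only [pow_zero, mul_one, Nat.cast_zero, mul_zero, zero_mul, add_zero]
  rw [e] at h2
  unfold OBSV.mh
  rw [OBSV.hv_Ex hψ.lap.cs hδ]
  exact h2

/-- The value of the variance constant, from the inputs of the blocks. -/
theorem kap_val' {κ : ℝ} (hκ : 0 < κ) (hcrv : S_crv) (hgeo : S_geo) (hside : S_side)
    (hC : S_can) (hst : S_step) (hLV : OBSV.S_landv) (hmb : L_mb) (hl2 : L_l2) (hvb : L_vb)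
    (hsd : L_sd κ) (hP : L_landP) (hM : L_landM) : κ = 8 / Real.pi :=
  kap_val hcrv hC hst
    (OBSV.s_obs hcrv hgeo hside R1.i_uinj (slitsd_of hsd) hLV) R1.i_uinj
    (s_obs3 hκ hcrv hgeo hside R1.i_uinj hmb hl2 hvb hsd hP hM)

end Vale.Agent.P153.R2.KAPV
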